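import Vale.Agent.Lib.P143.Defs

/-!
Balls in a graph.
-/

namespace Vale.Agent.P143

open MeasureTheory

universe u v

variable {V : Type u} {W : Type v}

/-- the ball of radius `n` around `v` -/
def ball (G : SimpleGraph V) : ℕ → V → Set V
  | 0, v => {v}
  | n + 1, v => {w | ∃ u ∈ ball G n v, w = u ∨ G.Adj u w}

lemma mem_ball_zero {G : SimpleGraph V} {v w : V} : w ∈ ball G 0 v ↔ w = v := Iff.rfl

lemma mem_ball_succ {G : SimpleGraph V} {n : ℕ} {v w : V} :
    w ∈ ball G (n + 1) v ↔ ∃ u ∈ ball G n v, w = u ∨ G.Adj u w := Iff.rfl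

lemma self_mem_ball (G : SimpleGraph V) (n : ℕ) (v : V) : v ∈ ball G n v := by
  induction n with
  | zero => exact rfl
  | succ n ih => exact ⟨v, ih, Or.inl rfl⟩

lemma ball_subset_succ (G : SimpleGraph V) (n : ℕ) (v : V) : ball G n v ⊆ ball G (n + 1) v :=
  fun w hw => ⟨w, hw, Or.inl rfl⟩

lemma ball_mono (G : SimpleGraph V) (v : V) : Monotone fun n => ball G n v :=
  monotone_nat_of_le_succ fun n => ball_subset_succ G n v

lemma exists_mem_ball {G : SimpleGraph V} (hG : G.Connected) (v w : V) :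
    ∃ n, w ∈ ball G n v := by
  have h := hG.preconnected v w
  rw [SimpleGraph.reachable_iff_reflTransGen] at h
  induction h with
  | refl => exact ⟨0, rfl⟩
  | tail _ hbc ih =>
    obtain ⟨n, hn⟩ := ih
    exact ⟨n + 1, _, hn, Or.inr hbc⟩

lemma ball_succ_eq (G : SimpleGraph V) (n : ℕ) (v : V) :
    ball G (n + 1) v = ball G n v ∪ ⋃ u ∈ ball G n v, G.neighborSet u := by
  ext w
  rw [mem_ball_succ, Set.mem_union, Set.mem_iUnion₂]
  constructor
  · rintro ⟨u, hu, rfl | h⟩
    · exact Or.inl hu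
    · exact Or.inr ⟨u, hu, h⟩
  · rintro (h | ⟨u, hu, h⟩)
    · exact ⟨w, h, Or.inl rfl⟩
    · exact ⟨u, hu, Or.inr h⟩

lemma finite_ball {G : SimpleGraph V} (h : ∀ v, (G.neighborSet v).Finite) (n : ℕ) (v : V) :
    (ball G n v).Finite := by
  induction n with
  | zero => exact Set.finite_singleton v
  | succ n ih =>
    rw [ball_succ_eq]
    exact ih.union (ih.biUnion fun u _ => h u)

lemma measurableSet_adj (v w : V) : MeasurableSet {G : SimpleGraph V | G.Adj v w} := by
  have h1 : Measurable fun G : SimpleGraph V => G.Adj := SimpleGraph.measurable_adj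
  exact measurableSet_setOfPred.2
    ((measurable_pi_apply w).comp ((measurable_pi_apply v).comp h1))

lemma measurableSet_mem_ball [Countable V] (n : ℕ) (v w : V) :
    MeasurableSet {G : SimpleGraph V | w ∈ ball G n v} := by
  induction n generalizing w with
  | zero => exact MeasurableSet.const _
  | succ n ih =>
    have h : {G : SimpleGraph V | w ∈ ball G (n + 1) v} =
        ⋃ u, {G : SimpleGraph V | u ∈ ball G n v} ∩
          ({G : SimpleGraph V | w = u} ∪ {G : SimpleGraph V | G.Adj u w}) := by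
      ext G
      simp only [Set.mem_ofPred_eq, Set.mem_iUnion, Set.mem_inter_iff, Set.mem_union,
        mem_ball_succ]
    rw [h]
    exact MeasurableSet.iUnion fun u => (ih u).inter
      ((MeasurableSet.const _).union (measurableSet_adj u w))

lemma ball_map (τ : V ≃ W) (G : SimpleGraph V) (n : ℕ) (v : V) :
    ball (G.map τ.toEmbedding) n (τ v) = τ '' ball G n v := by
  induction n with
  | zero =>
    ext w
    simp [ball]
  | succ n ih =>
    ext w
    rw [mem_ball_succ, ih]
    constructor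
    · rintro ⟨_, ⟨u, hu, rfl⟩, h⟩
      rcases h with rfl | h
      · exact ⟨u, ⟨u, hu, Or.inl rfl⟩, rfl⟩
      · obtain ⟨w', rfl⟩ := τ.surjective w
        refine ⟨w', ⟨u, hu, Or.inr ?_⟩, rfl⟩
        exact (SimpleGraph.map_adj_apply (f := τ.toEmbedding)).mp h
    · rintro ⟨w', ⟨u, hu, h⟩, rfl⟩
      refine ⟨τ u, ⟨u, hu, rfl⟩, ?_⟩
      rcases h with rfl | h
      · exact Or.inl rfl
      · exact Or.inr ((SimpleGraph.map_adj_apply (f := τ.toEmbedding)).mpr h)

lemma mem_ball_map (τ : V ≃ W) (G : SimpleGraph V) (n : ℕ) (v w : V) :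
    τ w ∈ ball (G.map τ.toEmbedding) n (τ v) ↔ w ∈ ball G n v := by
  rw [ball_map]
  exact τ.injective.mem_set_image

end Vale.Agent.P143
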