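import Vale.Agent.Lib.P143.Chan

/-!
# Bayes formula for finitely many signals
-/

namespace Vale.Agent.P143

open Filter Topology Set MeasureTheory ProbabilityTheory
open scoped unitInterval

set_option linter.unusedSectionVars false

variable {E : Type*} [DecidableEq E]

/-- Law of the i.i.d. uniform noise. -/
noncomputable def noise (E : Type*) : Measure (ℕ × E → I) :=
  Measure.infinitePi (fun _ : ℕ × E => (volume : Measure I))

instance : IsProbabilityMeasure (noise E) := by unfold noise; infer_instance

/-- Signals, with those in `S` replaced by the bare noise. -/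
noncomputable def hyb (S : Finset (ℕ × E)) (x : Set E) (t : ℕ × E → I) (p : ℕ × E) : ℝ :=
  if p ∈ S then (t p : ℝ) else chanInv (ind x p.2) (t p)

/-- The signals. -/
noncomputable def Ys (x : Set E) (t : ℕ × E → I) (p : ℕ × E) : ℝ :=
  chanInv (ind x p.2) (t p)

lemma hyb_empty (x : Set E) (t : ℕ × E → I) : hyb ∅ x t = Ys x t := by
  funext p; simp [hyb, Ys]

lemma ind_mem (x : Set E) (g : E) : ind x g ∈ Icc (0 : ℝ) 1 := ⟨ind_nonneg x g, ind_le_one x g⟩

lemma Ys_mem (x : Set E) (t : ℕ × E → I) (p : ℕ × E) : Ys x t p ∈ Icc (0 : ℝ) 1 :=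
  chanInv_mem (ind_mem _ _) (t p).2

lemma measurable_Ys_apply (p : ℕ × E) :
    Measurable fun q : Set E × (ℕ × E → I) => Ys q.1 q.2 p := by
  unfold Ys
  refine measurable_chanInv.comp (((measurable_ind p.2).comp measurable_fst).prodMk ?_)
  exact measurable_subtype_coe.comp ((measurable_pi_apply p).comp measurable_snd)

lemma measurable_Ys : Measurable fun q : Set E × (ℕ × E → I) => Ys q.1 q.2 :=
  measurable_pi_lambda _ measurable_Ys_apply

lemma measurable_hyb (S : Finset (ℕ × E)) (x : Set E) : Measurable (hyb S x) := by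
  refine measurable_pi_lambda _ fun p => ?_
  unfold hyb
  split_ifs
  · exact measurable_subtype_coe.comp (measurable_pi_apply p)
  · exact measurable_chanInv.comp (measurable_const.prodMk
      (measurable_subtype_coe.comp (measurable_pi_apply p)))

lemma hyb_update {S : Finset (ℕ × E)} {s : ℕ × E} (hs : s ∉ S) (x : Set E) (t : ℕ × E → I)
    (v : I) : hyb S x (Function.update t s v)
      = Function.update (hyb S x t) s (chanInv (ind x s.2) v) := by
  funext p
  by_cases h : p = s
  · subst h; simp [hyb, hs]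
  · simp [hyb, h]

lemma hyb_insert_update {S : Finset (ℕ × E)} {s : ℕ × E} (x : Set E)
    (t : ℕ × E → I) (v : I) : hyb (insert s S) x (Function.update t s v)
      = Function.update (hyb S x t) s (v : ℝ) := by
  funext p
  by_cases h : p = s
  · subst h; simp [hyb]
  · simp [hyb, h]

lemma measurable_dens (m : ℝ) : Measurable (dens m) := by unfold dens; fun_prop

lemma prod_dens_bound (S : Finset (ℕ × E)) (x : Set E) (t : ℕ × E → I) :
    |∏ s ∈ S, dens (ind x s.2) (t s)| ≤ (5 / 4) ^ S.card := by
  rw [Finset.abs_prod, ← Finset.prod_const]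
  refine Finset.prod_le_prod (fun s _ => abs_nonneg _) fun s _ => ?_
  have := dens_bounds (ind_mem x s.2) (t s).2
  rw [abs_of_nonneg (by linarith)]
  exact this.2

lemma measurable_prod_dens (S : Finset (ℕ × E)) (x : Set E) :
    Measurable fun t : ℕ × E → I => ∏ s ∈ S, dens (ind x s.2) (t s) :=
  Finset.measurable_prod _ fun s _ => (measurable_dens _).comp
    (measurable_subtype_coe.comp (measurable_pi_apply s))

/-- Change of variables for the signals in `S`. -/
lemma integral_hyb (S : Finset (ℕ × E)) (x : Set E) {F : (ℕ × E → ℝ) → ℝ} (hF : Measurable F)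
    {C : ℝ} (hC : ∀ z, |F z| ≤ C) :
    ∫ t, F (Ys x t) ∂(noise E)
      = ∫ t, F (hyb S x t) * ∏ s ∈ S, dens (ind x s.2) (t s) ∂(noise E) := by
  have hC0 : 0 ≤ C := (abs_nonneg _).trans (hC 0)
  induction S using Finset.induction_on with
  | empty => simp [hyb_empty]
  | insert s S hs ih =>
    rw [ih]
    have hb : ∀ (S : Finset (ℕ × E)) t,
        |F (hyb S x t) * ∏ s ∈ S, dens (ind x s.2) (t s)| ≤ C * (5 / 4) ^ S.card := by
      intro S t
      rw [abs_mul]
      exact mul_le_mul (hC _) (prod_dens_bound S x t) (abs_nonneg _) hC0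
    have hm : ∀ S : Finset (ℕ × E),
        Measurable fun t => F (hyb S x t) * ∏ s ∈ S, dens (ind x s.2) (t s) := fun S =>
      (hF.comp (measurable_hyb S x)).mul (measurable_prod_dens S x)
    have e1 := integral_update (volume : Measure I) s (hm S) (hb S)
    have e2 := integral_update (volume : Measure I) s (hm (insert s S)) (hb (insert s S))
    unfold noise
    rw [e1, e2]
    congr 1
    funext t
    have p1 : ∀ v : I, ∏ s' ∈ S, dens (ind x s'.2) (Function.update t s v s')
        = ∏ s' ∈ S, dens (ind x s'.2) (t s') := by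
      intro v
      refine Finset.prod_congr rfl fun s' hs' => ?_
      rw [Function.update_of_ne (ne_of_mem_of_not_mem hs' hs)]
    have l1 : ∀ v : I, F (hyb S x (Function.update t s v)) *
        ∏ s' ∈ S, dens (ind x s'.2) (Function.update t s v s')
        = (fun r : ℝ => F (Function.update (hyb S x t) s r) * ∏ s' ∈ S, dens (ind x s'.2) (t s'))
          (chanInv (ind x s.2) v) := by
      intro v
      rw [p1, hyb_update hs]
    have l2 : ∀ v : I, F (hyb (insert s S) x (Function.update t s v)) *
        ∏ s' ∈ insert s S, dens (ind x s'.2) (Function.update t s v s')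
        = dens (ind x s.2) v * (fun r : ℝ => F (Function.update (hyb S x t) s r) *
          ∏ s' ∈ S, dens (ind x s'.2) (t s')) v := by
      intro v
      rw [Finset.prod_insert hs, p1, hyb_insert_update, Function.update_self]
      ring
    simp_rw [l1, l2]
    exact integral_chanInv_I (ind_mem x s.2) (fun r : ℝ =>
      F (Function.update (hyb S x t) s r) * ∏ s' ∈ S, dens (ind x s'.2) (t s'))

/-- Log-weights carried by the signals in `S`. -/
noncomputable def yS (S : Finset (ℕ × E)) (z : ℕ × E → ℝ) (g : E) : ℝ :=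
  ∑ p ∈ S with p.2 = g, llr (z p)

lemma prod_dens_eq (S : Finset (ℕ × E)) (A : Finset E) (hSA : ∀ p ∈ S, p.2 ∈ A) (x : Set E)
    (t : ℕ × E → I) :
    ∏ s ∈ S, dens (ind x s.2) (t s)
      = (∏ s ∈ S, dens 0 (t s)) * tw A (yS S (fun p => (t p : ℝ))) x := by
  have h1 : ∏ s ∈ S, dens (ind x s.2) (t s)
      = ∏ s ∈ S, (dens 0 (t s) * Real.exp (llr (t s) * ind x s.2)) :=
    Finset.prod_congr rfl fun s _ => dens_ind x s.2 (t s).2
  rw [h1, Finset.prod_mul_distrib]
  congr 1
  rw [← Real.exp_sum]
  unfold tw
  congr 1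
  have : ∀ g ∈ A, yS S (fun p => (t p : ℝ)) g * ind x g
      = ∑ p ∈ S with p.2 = g, llr (t p) * ind x p.2 := by
    intro g _
    unfold yS
    rw [Finset.sum_mul]
    refine Finset.sum_congr rfl fun p hp => ?_
    rw [(Finset.mem_filter.1 hp).2]
  rw [Finset.sum_congr rfl this]
  exact (Finset.sum_fiberwise_of_maps_to (fun p hp => hSA p hp) _).symm

lemma measurable_yS (S : Finset (ℕ × E)) : Measurable (yS S) := by
  refine measurable_pi_lambda _ fun g => ?_
  unfold yS
  exact Finset.measurable_sum _ fun p _ => measurable_llr.comp (measurable_pi_apply p)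

lemma yS_congr {S : Finset (ℕ × E)} {z z' : ℕ × E → ℝ} (h : ∀ p ∈ S, z p = z' p) :
    yS S z = yS S z' := by
  funext g
  unfold yS
  refine Finset.sum_congr rfl fun p hp => ?_
  rw [h p (Finset.mem_filter.1 hp).1]

lemma tilt_mul_integral (μ : Measure (Set E)) [IsProbabilityMeasure μ] (A : Finset E)
    (y : E → ℝ) (f : E) :
    tilt μ A y f * ∫ x, tw A y x ∂μ = ∫ x, ind x f * tw A y x ∂μ := by
  unfold tilt
  exact div_mul_cancel₀ _ (integral_tw_pos μ A y).ne'

lemma measurable_tilt' (μ : Measure (Set E)) [IsProbabilityMeasure μ] (A : Finset E) (f : E) :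
    Measurable fun y : E → ℝ => tilt μ A y f := by
  have := measurable_tilt (𝒢 := Unit) (κ := fun _ => μ) measurable_const (fun _ => inferInstance)
    A f
  exact this.comp ((measurable_const (a := ())).prodMk measurable_id)

/-- **Bayes formula.** -/
theorem bayes (μ : Measure (Set E)) [IsProbabilityMeasure μ] (S : Finset (ℕ × E))
    (A : Finset E) (hSA : ∀ p ∈ S, p.2 ∈ A) (f : E) {φ : (ℕ × E → ℝ) → ℝ} (hφ : Measurable φ)
    {C : ℝ} (hC : ∀ z, |φ z| ≤ C) (hdep : ∀ z z', (∀ p ∈ S, z p = z' p) → φ z = φ z') :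
    ∫ x, ∫ t, ind x f * φ (Ys x t) ∂(noise E) ∂μ
      = ∫ x, ∫ t, tilt μ A (yS S (Ys x t)) f * φ (Ys x t) ∂(noise E) ∂μ := by
  have hC0 : 0 ≤ C := (abs_nonneg _).trans (hC 0)
  -- the bare noise as a real vector
  set τ : (ℕ × E → I) → (ℕ × E → ℝ) := fun t p => (t p : ℝ) with hτ
  have hτm : Measurable τ := measurable_pi_lambda _ fun p =>
    measurable_subtype_coe.comp (measurable_pi_apply p)
  set D : (ℕ × E → I) → ℝ := fun t => ∏ s ∈ S, dens 0 (t s) with hD
  have hDm : Measurable D := Finset.measurable_prod _ fun s _ => (measurable_dens _).comp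
    (measurable_subtype_coe.comp (measurable_pi_apply s))
  have hDb : ∀ t, |D t| ≤ (5 / 4) ^ S.card := by
    intro t
    rw [hD]
    simp only
    rw [Finset.abs_prod, ← Finset.prod_const]
    refine Finset.prod_le_prod (fun s _ => abs_nonneg _) fun s _ => ?_
    have := dens_bounds (m := 0) (by simp) (t s).2
    rw [abs_of_nonneg (by linarith)]
    exact this.2
  -- the weight product is bounded
  have hW : ∀ x t, |D t * tw A (yS S (τ t)) x| ≤ (5 / 4) ^ S.card := by
    intro x t
    rw [hD, hτ]
    simp only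
    rw [← prod_dens_eq S A hSA x t]
    exact prod_dens_bound S x t
  have hWm : Measurable fun q : Set E × (ℕ × E → I) => D q.2 * tw A (yS S (τ q.2)) q.1 := by
    refine (hDm.comp measurable_snd).mul ?_
    exact (measurable_tw A).comp ((((measurable_yS S).comp hτm).comp measurable_snd).prodMk
      measurable_fst)
  have hφτ : ∀ x t, φ (hyb S x t) = φ (τ t) := by
    intro x t
    refine hdep _ _ fun p hp => ?_
    simp [hyb, hp, hτ]
  have hyτ : ∀ x t, yS S (hyb S x t) = yS S (τ t) := by
    intro x t
    refine yS_congr fun p hp => ?_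
    simp [hyb, hp, hτ]
  -- left hand side
  have hL : ∀ x, ∫ t, ind x f * φ (Ys x t) ∂(noise E)
      = ∫ t, ind x f * φ (τ t) * (D t * tw A (yS S (τ t)) x) ∂(noise E) := by
    intro x
    have := integral_hyb S x (F := fun z => ind x f * φ z) (hφ.const_mul _) (C := C) (by
      intro z
      rw [abs_mul, abs_of_nonneg (ind_nonneg x f)]
      have h1 := ind_le_one x f
      have h2 := ind_nonneg x f
      have h3 := hC z
      have h4 := abs_nonneg (φ z)
      nlinarith)
    rw [this]
    congr 1
    funext t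
    rw [hφτ, prod_dens_eq S A hSA x t]
  have hR : ∀ x, ∫ t, tilt μ A (yS S (Ys x t)) f * φ (Ys x t) ∂(noise E)
      = ∫ t, tilt μ A (yS S (τ t)) f * φ (τ t) * (D t * tw A (yS S (τ t)) x) ∂(noise E) := by
    intro x
    have := integral_hyb S x (F := fun z => tilt μ A (yS S z) f * φ z)
      (((measurable_tilt' μ A f).comp (measurable_yS S)).mul hφ) (C := C) (by
      intro z
      have h0 := tilt_mem μ A (yS S z) f
      rw [abs_mul, abs_of_nonneg h0.1]
      have h3 := hC z
      have h4 := abs_nonneg (φ z)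
      nlinarith [h0.1, h0.2])
    rw [this]
    congr 1
    funext t
    rw [hφτ, hyτ, prod_dens_eq S A hSA x t]
  simp_rw [hL, hR]
  have hind : Measurable fun q : Set E × (ℕ × E → I) => ind q.1 f :=
    (measurable_ind f).comp measurable_fst
  have hφm : Measurable fun q : Set E × (ℕ × E → I) => φ (τ q.2) :=
    (hφ.comp hτm).comp measurable_snd
  have htm : Measurable fun q : Set E × (ℕ × E → I) => tilt μ A (yS S (τ q.2)) f :=
    (((measurable_tilt' μ A f).comp (measurable_yS S)).comp hτm).comp measurable_snd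
  have i1 : Integrable (Function.uncurry fun (x : Set E) (t : ℕ × E → I) =>
      ind x f * φ (τ t) * (D t * tw A (yS S (τ t)) x)) (μ.prod (noise E)) := by
    refine Integrable.of_bound (((hind.mul hφm).mul hWm)).aestronglyMeasurable
      (C * (5 / 4) ^ S.card) (Eventually.of_forall fun q => ?_)
    have h0 := ind_mem q.1 f
    have h1 := hC (τ q.2)
    have h2 := hW q.1 q.2
    simp only [Function.uncurry, Real.norm_eq_abs]
    rw [abs_mul, abs_mul, abs_of_nonneg h0.1]
    have h4 := abs_nonneg (φ (τ q.2))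
    exact mul_le_mul (by nlinarith [h0.1, h0.2]) h2 (abs_nonneg _) hC0
  have i2 : Integrable (Function.uncurry fun (x : Set E) (t : ℕ × E → I) =>
      tilt μ A (yS S (τ t)) f * φ (τ t) * (D t * tw A (yS S (τ t)) x)) (μ.prod (noise E)) := by
    refine Integrable.of_bound (((htm.mul hφm).mul hWm)).aestronglyMeasurable
      (C * (5 / 4) ^ S.card) (Eventually.of_forall fun q => ?_)
    have h0 := tilt_mem μ A (yS S (τ q.2)) f
    have h1 := hC (τ q.2)
    have h2 := hW q.1 q.2
    simp only [Function.uncurry, Real.norm_eq_abs]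
    rw [abs_mul, abs_mul, abs_of_nonneg h0.1]
    have h4 := abs_nonneg (φ (τ q.2))
    exact mul_le_mul (by nlinarith [h0.1, h0.2]) h2 (abs_nonneg _) hC0
  rw [integral_integral_swap i1, integral_integral_swap i2]
  congr 1
  funext t
  have e1 : ∫ x, ind x f * φ (τ t) * (D t * tw A (yS S (τ t)) x) ∂μ
      = φ (τ t) * D t * ∫ x, ind x f * tw A (yS S (τ t)) x ∂μ := by
    rw [← integral_const_mul]
    congr 1; funext x; ring
  have e2 : ∫ x, tilt μ A (yS S (τ t)) f * φ (τ t) * (D t * tw A (yS S (τ t)) x) ∂μ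
      = φ (τ t) * D t * (tilt μ A (yS S (τ t)) f * ∫ x, tw A (yS S (τ t)) x ∂μ) := by
    rw [← integral_const_mul, ← integral_const_mul]
    congr 1; funext x; ring
  rw [e1, e2, tilt_mul_integral]

end Vale.Agent.P143
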