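import Mathlib

/-!
Weighted Cauchy-Binet formula for Gram type determinants
`det (∑ e, w e • a e ⬝ (a e)ᵀ)`.
-/

set_option linter.unusedSectionVars false

namespace Vale.Agent.P143

open Finset Matrix

variable {ι E R : Type*} [Fintype ι] [DecidableEq ι] [Fintype E] [DecidableEq E] [CommRing R]

/-- the determinant whose rows are the vectors `a (f i)`. -/
def rowDet (a : E → ι → R) (f : ι → E) : R := (Matrix.of fun i j => a (f i) j).det

/-- weighted Gram matrix `∑ e, w e • a e (a e)ᵀ`. -/
def gram (a : E → ι → R) (w : E → R) : Matrix ι ι R :=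
  Matrix.of fun i j => ∑ e, w e * a e i * a e j

/-- squared minor of the set `S` of vectors (as a sum over maps with image `S`). -/
def minorSq (a : E → ι → R) (S : Finset E) : R :=
  ∑ f : ι → E with univ.image f = S, (∏ i, a (f i) i) * rowDet a f

lemma rowDet_eq_zero_of_not_injective (a : E → ι → R) (f : ι → E) (hf : ¬ Function.Injective f) :
    rowDet a f = 0 := by
  unfold Function.Injective at hf
  push Not at hf
  obtain ⟨i, j, hij, hne⟩ := hf
  exact Matrix.det_zero_of_row_eq hne (by ext k; simp [hij])

lemma gram_det_expand (a : E → ι → R) (w : E → R) :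
    (gram a w).det = ∑ f : ι → E, (∏ i, w (f i) * a (f i) i) * rowDet a f := by
  have h1 : gram a w = Matrix.of fun i => ∑ e, (w e * a e i) • a e := by
    ext i j
    simp [gram, Finset.sum_apply]
  rw [h1]
  have h2 := (Matrix.detRowAlternating (n := ι) (R := R)).toMultilinearMap.map_sum
    (fun (i : ι) (e : E) => (w e * a e i) • a e)
  have h3 : (Matrix.of fun i => ∑ e, (w e * a e i) • a e).det
      = (Matrix.detRowAlternating (n := ι) (R := R)).toMultilinearMap
          (fun i => ∑ e, (w e * a e i) • a e) := rfl
  rw [h3, h2]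
  refine Finset.sum_congr rfl fun f _ => ?_
  rw [MultilinearMap.map_smul_univ]
  rfl

/-- Cauchy-Binet: the determinant of the weighted Gram matrix is the weighted sum of squared
minors. -/
theorem gram_det_eq_sum (a : E → ι → R) (w : E → R) :
    (gram a w).det = ∑ S : Finset E, (∏ e ∈ S, w e) * minorSq a S := by
  rw [gram_det_expand]
  rw [← Finset.sum_fiberwise univ (fun f : ι → E => univ.image f)]
  refine Finset.sum_congr rfl fun S _ => ?_
  unfold minorSq
  rw [Finset.mul_sum]
  refine Finset.sum_congr rfl fun f hf => ?_
  simp only [Finset.mem_filter, Finset.mem_univ, true_and] at hf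
  by_cases hinj : Function.Injective f
  · rw [← hf, Finset.prod_image (fun x _ y _ h => hinj h), Finset.prod_mul_distrib]
    ring
  · rw [rowDet_eq_zero_of_not_injective a f hinj]
    ring

lemma minorSq_eq_zero_of_card_ne (a : E → ι → R) (S : Finset E)
    (hS : S.card ≠ Fintype.card ι) : minorSq a S = 0 := by
  unfold minorSq
  refine Finset.sum_eq_zero fun f hf => ?_
  simp only [Finset.mem_filter, Finset.mem_univ, true_and] at hf
  by_cases hinj : Function.Injective f
  · exact absurd (by rw [← hf, Finset.card_image_of_injective _ hinj, Finset.card_univ]) hS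
  · rw [rowDet_eq_zero_of_not_injective a f hinj]
    ring

lemma rowDet_comp_perm (a : E → ι → R) (g : ι → E) (σ : Equiv.Perm ι) :
    rowDet a (g ∘ σ) = (Equiv.Perm.sign σ : ℤ) * rowDet a g := by
  exact Matrix.det_permute σ (Matrix.of fun i j => a (g i) j)

/-- the squared minor equals the square of the determinant for any enumeration. -/
theorem minorSq_eq_sq (a : E → ι → R) (S : Finset E) (g : ι → E) (hg : Function.Injective g)
    (hS : univ.image g = S) : minorSq a S = rowDet a g ^ 2 := by
  have key : minorSq a S = ∑ σ : Equiv.Perm ι, (∏ i, a (g (σ i)) i) * rowDet a (g ∘ σ) := by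
    unfold minorSq
    rw [← Finset.sum_filter_add_sum_filter_not
      (univ.filter fun f : ι → E => univ.image f = S) (fun f => Function.Injective f)]
    have hz : ∑ f ∈ (univ.filter fun f : ι → E => univ.image f = S) with
        ¬ Function.Injective f, (∏ i, a (f i) i) * rowDet a f = 0 := by
      refine Finset.sum_eq_zero fun f hf => ?_
      rw [rowDet_eq_zero_of_not_injective a f (Finset.mem_filter.mp hf).2]
      ring
    rw [hz, add_zero]
    symm
    refine Finset.sum_bij (fun (σ : Equiv.Perm ι) _ => g ∘ σ) ?_ ?_ ?_ ?_
    · intro σ _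
      simp only [Finset.mem_filter, Finset.mem_univ, true_and]
      refine ⟨?_, hg.comp σ.injective⟩
      rw [← hS]
      ext e
      simp only [Finset.mem_image, Finset.mem_univ, true_and, Function.comp]
      constructor
      · rintro ⟨i, rfl⟩; exact ⟨σ i, rfl⟩
      · rintro ⟨i, rfl⟩; exact ⟨σ.symm i, by simp⟩
    · intro σ _ τ _ h
      ext i
      exact hg (congrFun h i)
    · intro f hf
      simp only [Finset.mem_filter, Finset.mem_univ, true_and] at hf
      obtain ⟨hfS, hfi⟩ := hf
      have hmem : ∀ i, ∃ j, g j = f i := by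
        intro i
        have : f i ∈ univ.image g := by
          rw [hS, ← hfS]; exact Finset.mem_image_of_mem _ (Finset.mem_univ _)
        simpa using this
      choose s hs using hmem
      have hsi : Function.Injective s := by
        intro i j hij
        apply hfi
        rw [← hs i, ← hs j, hij]
      refine ⟨Equiv.ofBijective s (Finite.injective_iff_bijective.mp hsi), Finset.mem_univ _, ?_⟩
      ext i
      simp [hs]
    · intro σ _
      rfl
  rw [key]
  have hdet : rowDet a g = ∑ σ : Equiv.Perm ι, (Equiv.Perm.sign σ : ℤ) * ∏ i, a (g (σ i)) i := by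
    unfold rowDet
    rw [Matrix.det_apply']
    rfl
  calc ∑ σ : Equiv.Perm ι, (∏ i, a (g (σ i)) i) * rowDet a (g ∘ σ)
      = ∑ σ : Equiv.Perm ι, ((Equiv.Perm.sign σ : ℤ) * ∏ i, a (g (σ i)) i) * rowDet a g := by
        refine Finset.sum_congr rfl fun σ _ => ?_
        rw [rowDet_comp_perm]
        ring
    _ = rowDet a g ^ 2 := by
        rw [← Finset.sum_mul, ← hdet, sq]

end Vale.Agent.P143
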