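import Vale.Agent.Lib.P143.Tilt

/-!
# Change of variables for the channel, resampling one coordinate
-/

namespace Vale.Agent.P143

open Filter Topology Set MeasureTheory ProbabilityTheory
open scoped unitInterval

/-- Density of the signal. -/
noncomputable def dens (m t : ℝ) : ℝ := 1 + (2 * m - 1) * ((2 * t - 1) / 4)

lemma hasDerivAt_chanF (m t : ℝ) : HasDerivAt (chanF m) (dens m t) t := by
  unfold chanF dens
  have h1 : HasDerivAt (fun t : ℝ => t * (1 - t)) (1 * (1 - t) + t * (0 - 1)) t :=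
    (hasDerivAt_id t).mul ((hasDerivAt_const t (1 : ℝ)).sub (hasDerivAt_id t))
  have h2 := (hasDerivAt_id t).sub (h1.const_mul ((2 * m - 1) / 4))
  convert! h2 using 1
  ring

lemma dens_bounds {m t : ℝ} (hm : m ∈ Icc (0 : ℝ) 1) (ht : t ∈ Icc (0 : ℝ) 1) :
    3 / 4 ≤ dens m t ∧ dens m t ≤ 5 / 4 := by
  obtain ⟨h1, h2⟩ := hm
  obtain ⟨h3, h4⟩ := ht
  unfold dens
  constructor <;> nlinarith [mul_nonneg h1 h3, mul_nonneg h1 (sub_nonneg.2 h4),
    mul_nonneg (sub_nonneg.2 h2) h3, mul_nonneg (sub_nonneg.2 h2) (sub_nonneg.2 h4)]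

lemma chanF_image {m : ℝ} (hm : m ∈ Icc (0 : ℝ) 1) : chanF m '' Icc 0 1 = Icc 0 1 := by
  apply Subset.antisymm
  · rintro _ ⟨t, ht, rfl⟩; exact chanF_mem hm ht
  · intro v hv
    exact ⟨chanInv m v, chanInv_mem hm hv, chanF_chanInv hm hv⟩

/-- Change of variables `v = chanF m t`. -/
lemma integral_chanF {m : ℝ} (hm : m ∈ Icc (0 : ℝ) 1) (ψ : ℝ → ℝ) :
    ∫ t in Icc (0 : ℝ) 1, dens m t * ψ (chanF m t) = ∫ v in Icc (0 : ℝ) 1, ψ v := by
  have h := integral_image_eq_integral_abs_deriv_smul (s := Icc (0 : ℝ) 1)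
    (f := chanF m) (f' := dens m) measurableSet_Icc
    (fun t _ => (hasDerivAt_chanF m t).hasDerivWithinAt) (chanF_strictMonoOn hm).injOn ψ
  rw [chanF_image hm] at h
  rw [h]
  refine setIntegral_congr_fun measurableSet_Icc fun t ht => ?_
  have := (dens_bounds hm ht).1
  simp only [smul_eq_mul]
  rw [abs_of_pos (by linarith)]

lemma integral_chanInv {m : ℝ} (hm : m ∈ Icc (0 : ℝ) 1) (ψ : ℝ → ℝ) :
    ∫ v in Icc (0 : ℝ) 1, ψ (chanInv m v) = ∫ t in Icc (0 : ℝ) 1, dens m t * ψ t := by
  rw [← integral_chanF hm (fun v => ψ (chanInv m v))]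
  refine setIntegral_congr_fun measurableSet_Icc fun t ht => ?_
  simp only [chanInv_chanF hm ht]

/-- Integrals over `I` as set integrals over `[0,1]`. -/
lemma integral_I (ψ : ℝ → ℝ) : ∫ v : I, ψ v = ∫ v in Icc (0 : ℝ) 1, ψ v :=
  integral_subtype_comap (μ := volume) measurableSet_Icc ψ

lemma integral_chanF_I {m : ℝ} (hm : m ∈ Icc (0 : ℝ) 1) (ψ : ℝ → ℝ) :
    ∫ t : I, dens m t * ψ (chanF m t) = ∫ v : I, ψ v := by
  rw [integral_I (fun t => dens m t * ψ (chanF m t)), integral_I, integral_chanF hm]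

lemma integral_chanInv_I {m : ℝ} (hm : m ∈ Icc (0 : ℝ) 1) (ψ : ℝ → ℝ) :
    ∫ v : I, ψ (chanInv m v) = ∫ t : I, dens m t * ψ t := by
  rw [integral_I (fun v => ψ (chanInv m v)), integral_I (fun t => dens m t * ψ t),
    integral_chanInv hm]

/-- Bayes factor of one signal. -/
lemma dens_ind {E : Type*} (x : Set E) (g : E) {t : ℝ} (ht : t ∈ Icc (0 : ℝ) 1) :
    dens (ind x g) t = dens 0 t * Real.exp (llr t * ind x g) := by
  obtain ⟨h3, h4⟩ := ht
  by_cases h : g ∈ x
  · rw [ind_of_mem h]
    unfold dens llr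
    simp only [mul_one]
    rw [Real.exp_sub, Real.exp_log (by linarith), Real.exp_log (by linarith)]
    have h5 : (0:ℝ) < 1 - (2 * t - 1) / 4 := by linarith
    have h6 : 1 + (2 * 0 - 1) * ((2 * t - 1) / 4) = 1 - (2 * t - 1) / 4 := by ring
    rw [h6, mul_div_cancel₀ _ h5.ne']
    ring
  · rw [ind_of_notMem h]; simp

section Resample

variable {ι : Type*} [DecidableEq ι] {α : Type*} [MeasurableSpace α]

/-- Resampling one coordinate of an i.i.d. family does not change its law. -/
lemma measurePreserving_update (ν : Measure α) [IsProbabilityMeasure ν] (i : ι) :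
    MeasurePreserving (fun q : (ι → α) × α => Function.update q.1 i q.2)
      ((Measure.infinitePi fun _ : ι => ν).prod ν) (Measure.infinitePi fun _ : ι => ν) := by
  have hm : Measurable (fun q : (ι → α) × α => Function.update q.1 i q.2) :=
    measurable_update'
  refine ⟨hm, ?_⟩
  refine Measure.eq_infinitePi _ fun s t ht => ?_
  rw [Measure.map_apply hm (.pi s.countable_toSet fun _ _ => ht _)]
  have hset : (fun q : (ι → α) × α => Function.update q.1 i q.2) ⁻¹' ((s : Set ι).pi t)
      = ((s.erase i : Finset ι) : Set ι).pi t ×ˢ (if i ∈ s then t i else univ) := by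
    ext ⟨w, a⟩
    simp only [mem_preimage, Set.mem_pi, Finset.mem_coe, mem_prod, Finset.mem_erase]
    constructor
    · intro h
      refine ⟨fun j hj => ?_, ?_⟩
      · have := h j hj.2
        rwa [Function.update_of_ne hj.1] at this
      · split_ifs with hi
        · have := h i hi
          rwa [Function.update_self] at this
        · trivial
    · rintro ⟨h1, h2⟩ j hj
      by_cases hji : j = i
      · subst hji
        rw [if_pos hj] at h2
        rwa [Function.update_self]
      · rw [Function.update_of_ne hji]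
        exact h1 j ⟨hji, hj⟩
  rw [hset, Measure.prod_prod, Measure.infinitePi_pi _ (fun i _ => ht i)]
  by_cases hi : i ∈ s
  · rw [if_pos hi, ← Finset.prod_erase_mul s (fun j => ν (t j)) hi]
  · rw [if_neg hi, measure_univ, mul_one, Finset.erase_eq_of_notMem hi]

lemma integral_update (ν : Measure α) [IsProbabilityMeasure ν] (i : ι) {F : (ι → α) → ℝ}
    (hF : Measurable F) {C : ℝ} (hb : ∀ w, |F w| ≤ C) :
    ∫ w, F w ∂(Measure.infinitePi fun _ : ι => ν)
      = ∫ w, (∫ a, F (Function.update w i a) ∂ν) ∂(Measure.infinitePi fun _ : ι => ν) := by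
  have h := measurePreserving_update (ι := ι) ν i
  rw [← h.map_eq, integral_map h.measurable.aemeasurable hF.aestronglyMeasurable]
  rw [integral_prod]
  · rw [h.map_eq]
  · refine Integrable.of_bound (hF.comp h.measurable).aestronglyMeasurable C
      (Eventually.of_forall fun q => ?_)
    rw [Real.norm_eq_abs]; exact hb _

end Resample

end Vale.Agent.P143
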