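import Vale.Agent.Lib.P143.Det

/-!
# Measurability and naturality of the solution map `out`
-/

namespace Vale.Agent.P143

open Filter Topology Set MeasureTheory

variable {E : Type*}

section Meas

variable {𝒢 : Type*} [MeasurableSpace 𝒢] {α : Type*} [MeasurableSpace α]

lemma measurable_seen {T y Y : α → E → ℝ} (hT : ∀ g, Measurable fun a => T a g)
    (hy : ∀ g, Measurable fun a => y a g) (hY : ∀ g, Measurable fun a => Y a g) (f g : E) :
    Measurable fun a => seen (T a) (y a) (Y a) f g := by
  classical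
  unfold seen
  refine (hy g).add ?_
  have : MeasurableSet {a | T a g < T a f} := measurableSet_lt (hT g) (hT f)
  refine Measurable.ite this (measurable_llr.comp (hY g)) measurable_const

lemma measurable_step {d : 𝒢 → E → (E → ℝ) → ℝ}
    (hd : ∀ f, Measurable fun p : 𝒢 × (E → ℝ) => d p.1 f p.2) {G : α → 𝒢} (hG : Measurable G)
    {T y v Y : α → E → ℝ} (hT : ∀ g, Measurable fun a => T a g)
    (hy : ∀ g, Measurable fun a => y a g) (hv : ∀ g, Measurable fun a => v a g)
    (hY : ∀ g, Measurable fun a => Y a g) (f : E) :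
    Measurable fun a => step (d (G a)) (T a) (y a) (v a) (Y a) f := by
  unfold step
  have h1 : Measurable fun a => d (G a) f (seen (T a) (y a) (Y a) f) :=
    (hd f).comp (hG.prodMk (measurable_pi_lambda _ fun g => measurable_seen hT hy hY f g))
  exact measurable_chanInv.comp (h1.prodMk (hv f))

lemma measurable_iter {d : 𝒢 → E → (E → ℝ) → ℝ}
    (hd : ∀ f, Measurable fun p : 𝒢 × (E → ℝ) => d p.1 f p.2) {G : α → 𝒢} (hG : Measurable G)
    {T y v : α → E → ℝ} (hT : ∀ g, Measurable fun a => T a g)
    (hy : ∀ g, Measurable fun a => y a g) (hv : ∀ g, Measurable fun a => v a g) (n : ℕ) (f : E) :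
    Measurable fun a => iter (d (G a)) (T a) (y a) (v a) n f := by
  induction n generalizing f with
  | zero => simp only [iter]; exact measurable_const
  | succ n ih =>
    simp only [iter]
    exact measurable_step hd hG hT hy hv ih f

lemma measurable_round {d : 𝒢 → E → (E → ℝ) → ℝ}
    (hd : ∀ f, Measurable fun p : 𝒢 × (E → ℝ) => d p.1 f p.2) {G : α → 𝒢} (hG : Measurable G)
    {T y v : α → E → ℝ} (hT : ∀ g, Measurable fun a => T a g)
    (hy : ∀ g, Measurable fun a => y a g) (hv : ∀ g, Measurable fun a => v a g) (f : E) :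
    Measurable fun a => round (d (G a)) (T a) (y a) (v a) f := by
  unfold round
  exact Measurable.limsup fun n => measurable_iter hd hG hT hy hv n f

lemma measurable_logw {d : 𝒢 → E → (E → ℝ) → ℝ}
    (hd : ∀ f, Measurable fun p : 𝒢 × (E → ℝ) => d p.1 f p.2) {G : α → 𝒢} (hG : Measurable G)
    {T : α → E → ℝ} {V : α → ℕ → E → ℝ} (hT : ∀ g, Measurable fun a => T a g)
    (hV : ∀ k g, Measurable fun a => V a k g) (k : ℕ) (f : E) :
    Measurable fun a => logw (d (G a)) (T a) (V a) k f := by
  induction k generalizing f with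
  | zero => simp only [logw]; exact measurable_const
  | succ k ih =>
    simp only [logw]
    exact (ih f).add (measurable_llr.comp (measurable_round hd hG hT ih (hV k) f))

lemma measurable_sig {d : 𝒢 → E → (E → ℝ) → ℝ}
    (hd : ∀ f, Measurable fun p : 𝒢 × (E → ℝ) => d p.1 f p.2) {G : α → 𝒢} (hG : Measurable G)
    {T : α → E → ℝ} {V : α → ℕ → E → ℝ} (hT : ∀ g, Measurable fun a => T a g)
    (hV : ∀ k g, Measurable fun a => V a k g) (k : ℕ) (f : E) :
    Measurable fun a => sig (d (G a)) (T a) (V a) k f :=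
  measurable_round hd hG hT (fun f => measurable_logw hd hG hT hV k f) (hV k) f

lemma measurable_decode {Y : α → ℕ → E → ℝ} (hY : ∀ k f, Measurable fun a => Y a k f) :
    Measurable fun a => decode (Y a) := by
  rw [measurable_set_iff]
  intro f
  have : Measurable fun a => limsup (fun n : ℕ => (∑ k ∈ Finset.range n, Y a k f) / n) atTop :=
    Measurable.limsup fun n => (Finset.measurable_sum _ fun k _ => hY k f).div_const _
  exact measurableSet_setOfPred.1 (measurableSet_lt measurable_const this)

lemma measurable_out {d : 𝒢 → E → (E → ℝ) → ℝ}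
    (hd : ∀ f, Measurable fun p : 𝒢 × (E → ℝ) => d p.1 f p.2) {G : α → 𝒢} (hG : Measurable G)
    {T : α → E → ℝ} {V : α → ℕ → E → ℝ} (hT : ∀ g, Measurable fun a => T a g)
    (hV : ∀ k g, Measurable fun a => V a k g) :
    Measurable fun a => out (d (G a)) (T a) (V a) :=
  measurable_decode fun k f => measurable_sig hd hG hT hV k f

end Meas

section Naturality

variable {E' : Type*} {d : E → (E → ℝ) → ℝ} {d' : E' → (E' → ℝ) → ℝ} (e : E ≃ E')

lemma seen_natural (T y Y : E → ℝ) (f : E) :
    seen (T ∘ e.symm) (y ∘ e.symm) (Y ∘ e.symm) (e f) = seen T y Y f ∘ e.symm := by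
  classical
  funext g
  simp [seen]

lemma step_natural (h : ∀ f y, d' (e f) (y ∘ e.symm) = d f y) (T y v Y : E → ℝ) :
    step d' (T ∘ e.symm) (y ∘ e.symm) (v ∘ e.symm) (Y ∘ e.symm) = step d T y v Y ∘ e.symm := by
  funext f'
  obtain ⟨f, rfl⟩ := e.surjective f'
  simp only [step, Function.comp_apply, Equiv.symm_apply_apply]
  rw [seen_natural, h]

lemma iter_natural (h : ∀ f y, d' (e f) (y ∘ e.symm) = d f y) (T y v : E → ℝ) (n : ℕ) :
    iter d' (T ∘ e.symm) (y ∘ e.symm) (v ∘ e.symm) n = iter d T y v n ∘ e.symm := by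
  induction n with
  | zero => rfl
  | succ n ih => simp only [iter]; rw [ih, step_natural e h]

lemma round_natural (h : ∀ f y, d' (e f) (y ∘ e.symm) = d f y) (T y v : E → ℝ) :
    round d' (T ∘ e.symm) (y ∘ e.symm) (v ∘ e.symm) = round d T y v ∘ e.symm := by
  funext f'
  simp only [round, Function.comp_apply]
  simp_rw [iter_natural e h, Function.comp_apply]

lemma logw_natural (h : ∀ f y, d' (e f) (y ∘ e.symm) = d f y) (T : E → ℝ) (V : ℕ → E → ℝ)
    (k : ℕ) :
    logw d' (T ∘ e.symm) (fun k => V k ∘ e.symm) k = logw d T V k ∘ e.symm := by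
  induction k with
  | zero => rfl
  | succ k ih =>
    funext f'
    simp only [logw, Function.comp_apply]
    rw [ih, round_natural e h]
    rfl

lemma sig_natural (h : ∀ f y, d' (e f) (y ∘ e.symm) = d f y) (T : E → ℝ) (V : ℕ → E → ℝ)
    (k : ℕ) :
    sig d' (T ∘ e.symm) (fun k => V k ∘ e.symm) k = sig d T V k ∘ e.symm := by
  funext f'
  simp only [sig]
  rw [logw_natural e h, round_natural e h]
  rfl

lemma out_natural (h : ∀ f y, d' (e f) (y ∘ e.symm) = d f y) (T : E → ℝ) (V : ℕ → E → ℝ) :
    out d' (T ∘ e.symm) (fun k => V k ∘ e.symm) = e '' out d T V := by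
  ext f'
  obtain ⟨f, rfl⟩ := e.surjective f'
  rw [e.injective.mem_set_image]
  simp only [out, decode, Set.mem_ofPred_eq]
  simp_rw [sig_natural e h]
  simp

end Naturality

end Vale.Agent.P143
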