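import Vale.Agent.Lib.P143.Levy
import Vale.Agent.Lib.P143.Natural

/-!
# The innovations are i.i.d. uniform, and the configuration is a function of them
-/

namespace Vale.Agent.P143

open Filter Topology Set MeasureTheory ProbabilityTheory
open scoped unitInterval

set_option linter.unusedSectionVars false

variable {E : Type*} [DecidableEq E]

section Innovation

variable (μ : Measure (Set E)) [IsProbabilityMeasure μ]

lemma not_prec_self (T : E → ℝ) (q : ℕ × E) : ¬ prec T q q := by
  rintro (h | h)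
  · exact lt_irrefl _ h
  · exact lt_irrefl _ h.2

lemma prec_trans {T : E → ℝ} {p q r : ℕ × E} (h1 : prec T p q) (h2 : prec T q r) :
    prec T p r := by
  rcases h1 with h1 | h1 <;> rcases h2 with h2 | h2
  · exact Or.inl (h1.trans h2)
  · exact Or.inl (h2.1 ▸ h1)
  · exact Or.inl (h1.1 ▸ h2)
  · exact Or.inr ⟨h1.1.trans h2.1, h1.2.trans h2.2⟩

lemma past_of_prec {T : E → ℝ} {q p : ℕ × E} (h : prec T p q) (z : ℕ × E → ℝ) :
    past T q z p = z p := by
  classical
  simp [past, h]

lemma past_congr {T : E → ℝ} {q : ℕ × E} {z z' : ℕ × E → ℝ}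
    (h : ∀ p, prec T p q → z p = z' p) : past T q z = past T q z' := by
  classical
  funext p
  unfold past
  by_cases hp : prec T p q
  · simp [hp, h p hp]
  · simp [hp]

lemma postMean_past (A : ℕ → E → Finset E) (T : E → ℝ) (q : ℕ × E) (z : ℕ × E → ℝ) :
    postMean μ A T q (past T q z) = postMean μ A T q z :=
  postMean_congr μ A T q fun _ hp => past_of_prec hp z

lemma Ys_update {x : Set E} {w : ℕ × E → I} {q p : ℕ × E} (h : p ≠ q) (v : I) :
    Ys x (Function.update w q v) p = Ys x w p := by
  simp [Ys, Function.update_of_ne h]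

/-- One innovation is uniform and independent of the past. -/
theorem integral_past_mul_innovation (A : ℕ → E → Finset E)
    (hmono : ∀ f, Monotone fun r => A r f)
    (hex : ∀ f g, ∃ r, g ∈ A r f) (T : E → ℝ) (q : ℕ × E) {h : (ℕ × E → ℝ) → ℝ}
    (hh : Measurable h) {C : ℝ} (hC : ∀ z, |h z| ≤ C) {ψ : ℝ → ℝ} (hψ : Measurable ψ)
    (hψb : ∀ v, |ψ v| ≤ 1) :
    ∫ ω, h (past T q (Ys ω.1 ω.2)) *
        ψ (chanF (postMean μ A T q (Ys ω.1 ω.2)) (Ys ω.1 ω.2 q)) ∂(μ.prod (noise E))
      = (∫ ω, h (past T q (Ys ω.1 ω.2)) ∂(μ.prod (noise E))) * ∫ v : I, ψ v := by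
  have hC0 : 0 ≤ C := (abs_nonneg _).trans (hC 0)
  -- auxiliary integrals
  set K : ℝ → ℝ := fun m => ∫ t : I, (1 - (2 * (t : ℝ) - 1) / 4) * ψ (chanF m t) with hK
  set L : ℝ → ℝ := fun m => ∫ t : I, ((2 * (t : ℝ) - 1) / 2) * ψ (chanF m t) with hL
  have hKLm : ∀ a : ℝ → ℝ, Measurable a →
      Measurable fun m : ℝ => ∫ t : I, a t * ψ (chanF m t) := by
    intro a ha
    have : StronglyMeasurable (Function.uncurry fun (m : ℝ) (t : I) => a t * ψ (chanF m t)) := by
      refine Measurable.stronglyMeasurable ?_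
      refine ((ha.comp measurable_subtype_coe).comp measurable_snd).mul (hψ.comp ?_)
      exact measurable_chanF.comp (measurable_fst.prodMk
        (measurable_subtype_coe.comp measurable_snd))
    exact (this.integral_prod_right' (ν := (volume : Measure I))).measurable
  have hKm : Measurable K := hKLm (fun t => 1 - (2 * t - 1) / 4) (by fun_prop)
  have hLm : Measurable L := hKLm (fun t => (2 * t - 1) / 2) (by fun_prop)
  have hint : ∀ (a : ℝ → ℝ), Measurable a → (∀ t ∈ Icc (0 : ℝ) 1, |a t| ≤ 2) → ∀ m,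
      Integrable (fun t : I => a t * ψ (chanF m t)) (volume : Measure I) := by
    intro a ha hab m
    refine Integrable.of_bound (C := 2) (Measurable.aestronglyMeasurable ?_)
      (Eventually.of_forall fun t => ?_)
    · exact (ha.comp measurable_subtype_coe).mul (hψ.comp
        (measurable_chanF.comp (measurable_const.prodMk measurable_subtype_coe)))
    · rw [Real.norm_eq_abs, abs_mul]
      have h1 := hab t t.2
      have h2 := hψb (chanF m t)
      nlinarith [abs_nonneg (a t), abs_nonneg (ψ (chanF m t))]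
  have hintK := hint (fun t => 1 - (2 * t - 1) / 4) (by fun_prop) (fun t ht => by
    rw [abs_le]; constructor <;> linarith [ht.1, ht.2])
  have hintL := hint (fun t => (2 * t - 1) / 2) (by fun_prop) (fun t ht => by
    rw [abs_le]; constructor <;> linarith [ht.1, ht.2])
  have hbd : ∀ (a : ℝ → ℝ), (∀ t ∈ Icc (0 : ℝ) 1, |a t| ≤ 2) → ∀ m,
      |∫ t : I, a t * ψ (chanF m t)| ≤ 2 := by
    intro a hab m
    have := norm_integral_le_of_norm_le_const (μ := (volume : Measure I)) (C := 2)
      (f := fun t : I => a t * ψ (chanF m t)) (Eventually.of_forall fun t => by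
        rw [Real.norm_eq_abs, abs_mul]
        have h1 := hab t t.2
        have h2 := hψb (chanF m t)
        nlinarith [abs_nonneg (a t), abs_nonneg (ψ (chanF m t))])
    simpa using this
  have hLb : ∀ m, |L m| ≤ 2 := hbd (fun t => (2 * t - 1) / 2) (fun t ht => by
    rw [abs_le]; constructor <;> linarith [ht.1, ht.2])
  have hKb : ∀ m, |K m| ≤ 2 := hbd (fun t => 1 - (2 * t - 1) / 4) (fun t ht => by
    rw [abs_le]; constructor <;> linarith [ht.1, ht.2])
  -- mixture identity
  have hmix : ∀ a m, ∫ t : I, dens a t * ψ (chanF m t) = K m + a * L m := by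
    intro a m
    simp only [hK, hL]
    rw [← integral_const_mul, ← integral_add (hintK m) ((hintL m).const_mul a)]
    congr 1
    funext t
    unfold dens
    ring
  set P := μ.prod (noise E) with hP
  have hYm : Measurable fun ω : Set E × (ℕ × E → I) => Ys ω.1 ω.2 := measurable_Ys
  have hpm : Measurable fun ω : Set E × (ℕ × E → I) => past T q (Ys ω.1 ω.2) :=
    (measurable_past T q).comp hYm
  have hMm : Measurable fun ω : Set E × (ℕ × E → I) => postMean μ A T q (Ys ω.1 ω.2) :=
    (measurable_postMean μ A T q).comp hYm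
  have hHm : Measurable fun ω : Set E × (ℕ × E → I) => h (past T q (Ys ω.1 ω.2)) := hh.comp hpm
  -- inner integral for fixed configuration
  have hinner : ∀ x : Set E,
      ∫ w, h (past T q (Ys x w)) * ψ (chanF (postMean μ A T q (Ys x w)) (Ys x w q)) ∂(noise E)
      = ∫ w, h (past T q (Ys x w)) *
          (K (postMean μ A T q (Ys x w)) + ind x q.2 * L (postMean μ A T q (Ys x w)))
          ∂(noise E) := by
    intro x
    have hYx : Measurable fun w : ℕ × E → I => Ys x w :=
      hYm.comp (measurable_const.prodMk measurable_id)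
    have hFm : Measurable fun w : ℕ × E → I => h (past T q (Ys x w)) *
        ψ (chanF (postMean μ A T q (Ys x w)) (Ys x w q)) := by
      refine (hh.comp ((measurable_past T q).comp hYx)).mul (hψ.comp ?_)
      exact measurable_chanF.comp (((measurable_postMean μ A T q).comp hYx).prodMk
        ((measurable_pi_apply q).comp hYx))
    have hFb : ∀ w : ℕ × E → I, |h (past T q (Ys x w)) *
        ψ (chanF (postMean μ A T q (Ys x w)) (Ys x w q))| ≤ C := by
      intro w
      rw [abs_mul]
      have h1 := hC (past T q (Ys x w))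
      have h2 := hψb (chanF (postMean μ A T q (Ys x w)) (Ys x w q))
      nlinarith [abs_nonneg (h (past T q (Ys x w))),
        abs_nonneg (ψ (chanF (postMean μ A T q (Ys x w)) (Ys x w q)))]
    have := integral_update (ι := ℕ × E) (volume : Measure I) q hFm hFb
    unfold noise
    rw [this]
    congr 1
    funext w
    have hpast : ∀ v : I, past T q (Ys x (Function.update w q v)) = past T q (Ys x w) := by
      intro v
      refine past_congr fun p hp => Ys_update ?_ v
      rintro rfl; exact not_prec_self T _ hp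
    have hpost : ∀ v : I, postMean μ A T q (Ys x (Function.update w q v))
        = postMean μ A T q (Ys x w) := by
      intro v
      refine postMean_congr μ A T q fun p hp => Ys_update ?_ v
      rintro rfl; exact not_prec_self T _ hp
    have hself : ∀ v : I, Ys x (Function.update w q v) q = chanInv (ind x q.2) v := by
      intro v; simp [Ys]
    simp_rw [hpast, hpost, hself]
    rw [integral_const_mul]
    congr 1
    rw [integral_chanInv_I (ind_mem x q.2)
      (fun r => ψ (chanF (postMean μ A T q (Ys x w)) r)), hmix]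
  -- integrability
  have i0 : Integrable (fun ω : Set E × (ℕ × E → I) => h (past T q (Ys ω.1 ω.2)) *
      ψ (chanF (postMean μ A T q (Ys ω.1 ω.2)) (Ys ω.1 ω.2 q))) P := by
    refine Integrable.of_bound (C := C) (Measurable.aestronglyMeasurable ?_)
      (Eventually.of_forall fun ω => ?_)
    · exact hHm.mul (hψ.comp (measurable_chanF.comp (hMm.prodMk
        ((measurable_pi_apply q).comp hYm))))
    · rw [Real.norm_eq_abs, abs_mul]
      have h1 := hC (past T q (Ys ω.1 ω.2))
      have h2 := hψb (chanF (postMean μ A T q (Ys ω.1 ω.2)) (Ys ω.1 ω.2 q))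
      nlinarith [abs_nonneg (h (past T q (Ys ω.1 ω.2))),
        abs_nonneg (ψ (chanF (postMean μ A T q (Ys ω.1 ω.2)) (Ys ω.1 ω.2 q)))]
  have iK : Integrable (fun ω : Set E × (ℕ × E → I) => h (past T q (Ys ω.1 ω.2)) *
      K (postMean μ A T q (Ys ω.1 ω.2))) P := by
    refine Integrable.of_bound (C := C * 2)
      (hHm.mul (hKm.comp hMm)).aestronglyMeasurable (Eventually.of_forall fun ω => ?_)
    rw [Real.norm_eq_abs, abs_mul]
    exact mul_le_mul (hC _) (hKb _) (abs_nonneg _) hC0
  have iL : Integrable (fun ω : Set E × (ℕ × E → I) => ind ω.1 q.2 *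
      (h (past T q (Ys ω.1 ω.2)) * L (postMean μ A T q (Ys ω.1 ω.2)))) P := by
    refine Integrable.of_bound (C := C * 2)
      (((measurable_ind q.2).comp measurable_fst).mul
        (hHm.mul (hLm.comp hMm))).aestronglyMeasurable (Eventually.of_forall fun ω => ?_)
    rw [Real.norm_eq_abs, abs_mul, abs_mul, abs_of_nonneg (ind_nonneg _ _)]
    have h1 := ind_le_one ω.1 q.2
    have h2 := ind_nonneg ω.1 q.2
    have h3 : |h (past T q (Ys ω.1 ω.2))| * |L (postMean μ A T q (Ys ω.1 ω.2))| ≤ C * 2 :=
      mul_le_mul (hC _) (hLb _) (abs_nonneg _) hC0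
    have h4 : 0 ≤ |h (past T q (Ys ω.1 ω.2))| * |L (postMean μ A T q (Ys ω.1 ω.2))| := by
      positivity
    nlinarith
  have iML : Integrable (fun ω : Set E × (ℕ × E → I) => postMean μ A T q (Ys ω.1 ω.2) *
      (h (past T q (Ys ω.1 ω.2)) * L (postMean μ A T q (Ys ω.1 ω.2)))) P := by
    refine Integrable.of_bound (C := C * 2)
      (hMm.mul (hHm.mul (hLm.comp hMm))).aestronglyMeasurable (Eventually.of_forall fun ω => ?_)
    have h0 := postMean_mem μ A T q (Ys ω.1 ω.2)
    rw [Real.norm_eq_abs, abs_mul, abs_mul, abs_of_nonneg h0.1]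
    have h3 : |h (past T q (Ys ω.1 ω.2))| * |L (postMean μ A T q (Ys ω.1 ω.2))| ≤ C * 2 :=
      mul_le_mul (hC _) (hLb _) (abs_nonneg _) hC0
    have h4 : 0 ≤ |h (past T q (Ys ω.1 ω.2))| * |L (postMean μ A T q (Ys ω.1 ω.2))| := by
      positivity
    nlinarith [h0.1, h0.2]
  have i1 : Integrable (fun ω : Set E × (ℕ × E → I) => h (past T q (Ys ω.1 ω.2)) *
      (K (postMean μ A T q (Ys ω.1 ω.2)) + ind ω.1 q.2 * L (postMean μ A T q (Ys ω.1 ω.2)))) P := by
    have : (fun ω : Set E × (ℕ × E → I) => h (past T q (Ys ω.1 ω.2)) *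
      (K (postMean μ A T q (Ys ω.1 ω.2)) + ind ω.1 q.2 * L (postMean μ A T q (Ys ω.1 ω.2))))
      = fun ω => h (past T q (Ys ω.1 ω.2)) * K (postMean μ A T q (Ys ω.1 ω.2)) +
        ind ω.1 q.2 * (h (past T q (Ys ω.1 ω.2)) * L (postMean μ A T q (Ys ω.1 ω.2))) := by
      funext ω; ring
    rw [this]
    exact iK.add iL
  -- posterior mean applied to `h * L`
  have hpm2 := integral_ind_mul_past μ A hmono hex T q
    (h := fun z => h z * L (postMean μ A T q z)) (hh.mul (hLm.comp (measurable_postMean μ A T q)))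
    (C := C * 2) (fun z => by
      rw [abs_mul]; exact mul_le_mul (hC _) (hLb _) (abs_nonneg _) hC0)
  simp_rw [postMean_past] at hpm2
  calc ∫ ω, h (past T q (Ys ω.1 ω.2)) *
        ψ (chanF (postMean μ A T q (Ys ω.1 ω.2)) (Ys ω.1 ω.2 q)) ∂P
      = ∫ x, ∫ w, h (past T q (Ys x w)) *
          ψ (chanF (postMean μ A T q (Ys x w)) (Ys x w q)) ∂(noise E) ∂μ := by
        rw [hP]; exact integral_prod _ i0
    _ = ∫ x, ∫ w, h (past T q (Ys x w)) *
          (K (postMean μ A T q (Ys x w)) + ind x q.2 * L (postMean μ A T q (Ys x w)))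
          ∂(noise E) ∂μ := by
        congr 1; funext x; exact hinner x
    _ = ∫ ω, h (past T q (Ys ω.1 ω.2)) *
          (K (postMean μ A T q (Ys ω.1 ω.2)) +
            ind ω.1 q.2 * L (postMean μ A T q (Ys ω.1 ω.2))) ∂P := by
        rw [hP]; exact (integral_prod _ i1).symm
    _ = ∫ ω, h (past T q (Ys ω.1 ω.2)) * K (postMean μ A T q (Ys ω.1 ω.2)) ∂P +
          ∫ ω, ind ω.1 q.2 *
            (h (past T q (Ys ω.1 ω.2)) * L (postMean μ A T q (Ys ω.1 ω.2))) ∂P := by
        rw [← integral_add iK iL]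
        congr 1; funext ω; ring
    _ = ∫ ω, h (past T q (Ys ω.1 ω.2)) * K (postMean μ A T q (Ys ω.1 ω.2)) ∂P +
          ∫ ω, postMean μ A T q (Ys ω.1 ω.2) *
            (h (past T q (Ys ω.1 ω.2)) * L (postMean μ A T q (Ys ω.1 ω.2))) ∂P := by
        rw [hpm2]
    _ = ∫ ω, h (past T q (Ys ω.1 ω.2)) * (∫ v : I, ψ v) ∂P := by
        rw [← integral_add iK iML]
        congr 1
        funext ω
        have e1 := hmix (postMean μ A T q (Ys ω.1 ω.2)) (postMean μ A T q (Ys ω.1 ω.2))
        rw [integral_chanF_I (postMean_mem μ A T q _)] at e1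
        rw [e1]; ring
    _ = _ := by rw [integral_mul_const]

/-- The innovation at `q` as an element of `I`. -/
noncomputable def inn (μ : Measure (Set E)) (A : ℕ → E → Finset E) (T : E → ℝ)
    (z : ℕ × E → ℝ) (q : ℕ × E) : I :=
  Set.projIcc 0 1 zero_le_one (chanF (postMean μ A T q z) (z q))

lemma measurable_inn (A : ℕ → E → Finset E) (T : E → ℝ) :
    Measurable fun z : ℕ × E → ℝ => inn μ A T z := by
  refine measurable_pi_lambda _ fun q => ?_
  unfold inn
  have h1 : Measurable fun z : ℕ × E → ℝ => chanF (postMean μ A T q z) (z q) :=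
    measurable_chanF.comp ((measurable_postMean μ A T q).prodMk (measurable_pi_apply q))
  exact (continuous_projIcc (h := zero_le_one (α := ℝ))).measurable.comp h1

lemma inn_past {A : ℕ → E → Finset E} {T : E → ℝ} {p q : ℕ × E} (h : prec T p q)
    (z : ℕ × E → ℝ) : inn μ A T (past T q z) p = inn μ A T z p := by
  unfold inn
  rw [past_of_prec h, postMean_congr μ A T p fun p' hp' => past_of_prec (prec_trans hp' h) z]

lemma coe_inn (A : ℕ → E → Finset E) (T : E → ℝ) {z : ℕ × E → ℝ} (q : ℕ × E)
    (hz : z q ∈ Icc (0 : ℝ) 1) :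
    (inn μ A T z q : ℝ) = chanF (postMean μ A T q z) (z q) := by
  unfold inn
  rw [Set.projIcc_of_mem _ (chanF_mem (postMean_mem μ A T q z) hz)]

/-- Indicator that the innovations indexed by `s` fall in the sets `t`. -/
noncomputable def innCyl (μ : Measure (Set E)) (A : ℕ → E → Finset E) (T : E → ℝ)
    (t : ℕ × E → Set I) (s : Finset (ℕ × E)) (z : ℕ × E → ℝ) : ℝ :=
  ∏ p ∈ s, (t p).indicator (fun _ => (1 : ℝ)) (inn μ A T z p)

/-- Indicator of a set of `I`, as a function on `ℝ`. -/
noncomputable def indI (t : Set I) (v : ℝ) : ℝ :=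
  t.indicator (fun _ => (1 : ℝ)) (Set.projIcc 0 1 zero_le_one v)

lemma measurable_innCyl (A : ℕ → E → Finset E) (T : E → ℝ) {t : ℕ × E → Set I}
    (ht : ∀ i, MeasurableSet (t i)) (s : Finset (ℕ × E)) : Measurable (innCyl μ A T t s) := by
  refine Finset.measurable_prod _ fun p _ => ?_
  exact (measurable_const.indicator (ht p)).comp
    ((measurable_pi_apply p).comp (measurable_inn μ A T))

lemma abs_innCyl_le (A : ℕ → E → Finset E) (T : E → ℝ) (t : ℕ × E → Set I)
    (s : Finset (ℕ × E)) (z : ℕ × E → ℝ) : |innCyl μ A T t s z| ≤ 1 := by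
  unfold innCyl
  rw [Finset.abs_prod]
  refine Finset.prod_le_one (fun _ _ => abs_nonneg _) fun p _ => ?_
  by_cases hz : inn μ A T z p ∈ t p <;> simp [hz]

lemma measurable_indI {t : Set I} (ht : MeasurableSet t) : Measurable (indI t) :=
  (measurable_const.indicator ht).comp (continuous_projIcc (h := zero_le_one (α := ℝ))).measurable

lemma abs_indI_le (t : Set I) (v : ℝ) : |indI t v| ≤ 1 := by
  unfold indI
  by_cases hz : Set.projIcc (0 : ℝ) 1 zero_le_one v ∈ t <;> simp [hz]

lemma integral_indI {t : Set I} (ht : MeasurableSet t) :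
    ∫ v : I, indI t v = (volume : Measure I).real t := by
  have : ∀ v : I, indI t v = t.indicator (fun _ => (1 : ℝ)) v := by
    intro v; unfold indI; rw [Set.projIcc_val]
  simp_rw [this]
  rw [integral_indicator ht]
  simp

lemma innCyl_past {A : ℕ → E → Finset E} {T : E → ℝ} {t : ℕ × E → Set I} {s : Finset (ℕ × E)}
    {a : ℕ × E} (h : ∀ p ∈ s, prec T p a) (z : ℕ × E → ℝ) :
    innCyl μ A T t s (past T a z) = innCyl μ A T t s z := by
  unfold innCyl
  refine Finset.prod_congr rfl fun p hp => ?_
  rw [inn_past μ (h p hp)]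

lemma innCyl_insert {A : ℕ → E → Finset E} {T : E → ℝ} {t : ℕ × E → Set I} {s : Finset (ℕ × E)}
    {a : ℕ × E} (has : a ∉ s) (h : ∀ p ∈ s, prec T p a) (z : ℕ × E → ℝ) :
    innCyl μ A T t (insert a s) z
      = innCyl μ A T t s (past T a z) * indI (t a) (chanF (postMean μ A T a z) (z a)) := by
  rw [innCyl_past μ h]
  unfold innCyl indI inn
  rw [Finset.prod_insert has, mul_comm]

lemma integral_innCyl (A : ℕ → E → Finset E) (hmono : ∀ f, Monotone fun r => A r f)
    (hex : ∀ f g, ∃ r, g ∈ A r f) (T : E → ℝ) (hT : Function.Injective T)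
    {t : ℕ × E → Set I} (ht : ∀ i, MeasurableSet (t i)) (s : Finset (ℕ × E)) :
    ∫ ω, innCyl μ A T t s (Ys ω.1 ω.2) ∂(μ.prod (noise E))
      = ∏ p ∈ s, (volume : Measure I).real (t p) := by
  induction s using Finset.induction_on_max_value
    (fun p : ℕ × E => toLex (p.1, T p.2)) with
  | empty => simp [innCyl]
  | insert a s has hmax ih =>
    have hprec : ∀ p ∈ s, prec T p a := by
      intro p hp
      have h1 := hmax p hp
      rw [Prod.Lex.toLex_le_toLex] at h1
      rcases h1 with h1 | ⟨h1, h2⟩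
      · exact Or.inl h1
      · rcases h2.lt_or_eq with h3 | h3
        · exact Or.inr ⟨h1, h3⟩
        · exfalso
          have : p = a := Prod.ext h1 (hT h3)
          exact has (this ▸ hp)
    have e0 : ∫ ω, innCyl μ A T t (insert a s) (Ys ω.1 ω.2) ∂(μ.prod (noise E))
        = ∫ ω, innCyl μ A T t s (past T a (Ys ω.1 ω.2)) *
          indI (t a) (chanF (postMean μ A T a (Ys ω.1 ω.2)) (Ys ω.1 ω.2 a))
          ∂(μ.prod (noise E)) :=
      integral_congr_ae (Eventually.of_forall fun ω => innCyl_insert μ has hprec _)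
    have e3 : ∫ ω, innCyl μ A T t s (past T a (Ys ω.1 ω.2)) ∂(μ.prod (noise E))
        = ∫ ω, innCyl μ A T t s (Ys ω.1 ω.2) ∂(μ.prod (noise E)) :=
      integral_congr_ae (Eventually.of_forall fun ω => innCyl_past μ hprec _)
    rw [e0, integral_past_mul_innovation μ A hmono hex T a (measurable_innCyl μ A T ht s)
      (abs_innCyl_le μ A T t s) (measurable_indI (ht a)) (abs_indI_le (t a)), integral_indI (ht a),
      Finset.prod_insert has, e3, ih, mul_comm]

lemma indicator_eq_innCyl (A : ℕ → E → Finset E) (T : E → ℝ) (t : ℕ × E → Set I)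
    (s : Finset (ℕ × E)) (z : ℕ × E → ℝ) :
    ((s : Set (ℕ × E)).pi t).indicator (fun _ => (1 : ℝ)) (inn μ A T z) = innCyl μ A T t s z := by
  unfold innCyl
  by_cases h : inn μ A T z ∈ (s : Set (ℕ × E)).pi t
  · rw [Set.indicator_of_mem h]
    symm
    refine Finset.prod_eq_one fun p hp => ?_
    exact Set.indicator_of_mem (h p hp) _
  · rw [Set.indicator_of_notMem h]
    symm
    simp only [Set.mem_pi, not_forall] at h
    obtain ⟨p, hp, hp2⟩ := h
    exact Finset.prod_eq_zero hp (Set.indicator_of_notMem hp2 _)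

/-- **Innovations are i.i.d. uniform.** -/
theorem map_inn (A : ℕ → E → Finset E) (hmono : ∀ f, Monotone fun r => A r f)
    (hex : ∀ f g, ∃ r, g ∈ A r f) (T : E → ℝ) (hT : Function.Injective T) :
    (μ.prod (noise E)).map (fun ω => inn μ A T (Ys ω.1 ω.2)) = noise E := by
  have hYm : Measurable fun ω : Set E × (ℕ × E → I) => Ys ω.1 ω.2 := measurable_Ys
  have hIm : Measurable fun ω : Set E × (ℕ × E → I) => inn μ A T (Ys ω.1 ω.2) :=
    (measurable_inn μ A T).comp hYm
  have hprob : IsProbabilityMeasure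
      ((μ.prod (noise E)).map (fun ω => inn μ A T (Ys ω.1 ω.2))) :=
    Measure.isProbabilityMeasure_map hIm.aemeasurable
  refine Measure.eq_infinitePi _ fun s t ht => ?_
  have hset : MeasurableSet ((s : Set (ℕ × E)).pi t) := .pi s.countable_toSet fun _ _ => ht _
  have e1 := integral_map (μ := μ.prod (noise E)) hIm.aemeasurable
    (f := ((s : Set (ℕ × E)).pi t).indicator (fun _ => (1 : ℝ)))
    (measurable_const.indicator hset).aestronglyMeasurable
  simp_rw [indicator_eq_innCyl] at e1
  rw [integral_innCyl μ A hmono hex T hT ht s, integral_indicator hset, integral_const,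
    smul_eq_mul, mul_one, measureReal_restrict_apply_univ] at e1
  rw [← ofReal_measureReal, e1, ENNReal.ofReal_prod_of_nonneg (fun _ _ => measureReal_nonneg)]
  refine Finset.prod_congr rfl fun p _ => ?_
  rw [ofReal_measureReal]

end Innovation

end Vale.Agent.P143
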