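import Vale.Agent.Lib.P143.Core

/-!
# The configuration is an explicit function of i.i.d. uniform innovations
-/

namespace Vale.Agent.P143

open Filter Topology Set MeasureTheory ProbabilityTheory
open scoped unitInterval

set_option linter.unusedSectionVars false

variable {E : Type*} [DecidableEq E]

lemma integral_chanInv_id {b : ℝ} (hb : b ∈ Icc (0 : ℝ) 1) :
    ∫ v : I, chanInv b v = 1 / 2 + (2 * b - 1) / 24 := by
  have h := integral_chanInv_I hb (fun r => r)
  rw [h, integral_I (fun t => dens b t * t), integral_Icc_eq_integral_Ioc,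
    ← intervalIntegral.integral_of_le zero_le_one]
  have : ∀ t : ℝ, dens b t * t = (1 - (2 * b - 1) / 4) * t + ((2 * b - 1) / 2) * t ^ 2 := by
    intro t; unfold dens; ring
  simp_rw [this]
  rw [intervalIntegral.integral_add (Continuous.intervalIntegrable (by fun_prop) _ _)
      (Continuous.intervalIntegrable (by fun_prop) _ _),
    intervalIntegral.integral_const_mul, intervalIntegral.integral_const_mul, integral_id,
    integral_pow]
  norm_num
  ring

/-- Law of large numbers for the signals. -/
lemma slln (b : ℝ) (hb : b ∈ Icc (0 : ℝ) 1) (f : E) :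
    ∀ᵐ w ∂(noise E), Tendsto (fun n : ℕ => (∑ k ∈ Finset.range n, chanInv b (w (k, f))) / n)
      atTop (𝓝 (1 / 2 + (2 * b - 1) / 24)) := by
  set X : ℕ → (ℕ × E → I) → ℝ := fun k w => chanInv b (w (k, f)) with hX
  have hg : Measurable fun v : I => chanInv b v :=
    measurable_chanInv.comp (measurable_const.prodMk measurable_subtype_coe)
  have hXm : ∀ k, Measurable (X k) := fun k => hg.comp (measurable_pi_apply _)
  have hind : iIndepFun (fun (p : ℕ × E) (w : ℕ × E → I) => chanInv b (w p)) (noise E) :=
    iIndepFun_infinitePi (P := fun _ : ℕ × E => (volume : Measure I))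
      (X := fun _ v => chanInv b v) fun _ => hg
  have hlaw : ∀ p : ℕ × E, (noise E).map (fun w : ℕ × E → I => chanInv b (w p))
      = (volume : Measure I).map (fun v : I => chanInv b v) := by
    intro p
    have h1 : (noise E).map (fun w : ℕ × E → I => w p) = (volume : Measure I) :=
      Measure.infinitePi_map_eval (fun _ : ℕ × E => (volume : Measure I)) p
    rw [← h1, Measure.map_map hg (measurable_pi_apply p)]
    rfl
  have hint : Integrable (X 0) (noise E) := by
    refine Integrable.of_bound (hXm 0).aestronglyMeasurable 1 (Eventually.of_forall fun w => ?_)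
    have := chanInv_mem hb (w (0, f)).2
    rw [Real.norm_eq_abs, abs_of_nonneg this.1]; exact this.2
  have h := strong_law_ae_real X hint (fun i j hij => by
      refine hind.indepFun (i := (i, f)) (j := (j, f)) ?_
      intro h; exact hij (congrArg Prod.fst h))
    (fun i => ⟨(hXm i).aemeasurable, (hXm 0).aemeasurable, by
      rw [hX]; exact (hlaw (i, f)).trans (hlaw (0, f)).symm⟩)
  have hmean : ∫ w, X 0 w ∂(noise E) = 1 / 2 + (2 * b - 1) / 24 := by
    rw [← integral_chanInv_id hb]
    have h1 : (noise E).map (fun w : ℕ × E → I => w (0, f)) = (volume : Measure I) :=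
      Measure.infinitePi_map_eval (fun _ : ℕ × E => (volume : Measure I)) (0, f)
    rw [← h1]
    exact (integral_map (μ := noise E) (φ := fun w : ℕ × E → I => w (0, f))
      (f := fun v : I => chanInv b v)
      (measurable_pi_apply ((0, f) : ℕ × E)).aemeasurable hg.aestronglyMeasurable).symm
  rw [hmean] at h
  exact h

lemma decode_ae [Countable E] (μ : Measure (Set E)) [IsProbabilityMeasure μ] :
    ∀ᵐ ω ∂(μ.prod (noise E)), decode (fun k f => Ys ω.1 ω.2 (k, f)) = ω.1 := by
  have h0 : ∀ᵐ w ∂(noise E), ∀ f : E,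
      Tendsto (fun n : ℕ => (∑ k ∈ Finset.range n, chanInv 0 (w (k, f))) / n)
        atTop (𝓝 (1 / 2 + (2 * (0 : ℝ) - 1) / 24)) ∧
      Tendsto (fun n : ℕ => (∑ k ∈ Finset.range n, chanInv 1 (w (k, f))) / n)
        atTop (𝓝 (1 / 2 + (2 * (1 : ℝ) - 1) / 24)) := by
    rw [ae_all_iff]
    intro f
    filter_upwards [slln 0 (by simp) f, slln 1 (by simp) f] with w h1 h2
    exact ⟨h1, h2⟩
  have h1 : ∀ᵐ ω ∂(μ.prod (noise E)), ∀ f : E,
      Tendsto (fun n : ℕ => (∑ k ∈ Finset.range n, chanInv 0 (ω.2 (k, f))) / n)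
        atTop (𝓝 (1 / 2 + (2 * (0 : ℝ) - 1) / 24)) ∧
      Tendsto (fun n : ℕ => (∑ k ∈ Finset.range n, chanInv 1 (ω.2 (k, f))) / n)
        atTop (𝓝 (1 / 2 + (2 * (1 : ℝ) - 1) / 24)) :=
    Measure.quasiMeasurePreserving_snd.ae h0
  filter_upwards [h1] with ω hω
  ext f
  unfold decode
  rw [Set.mem_ofPred_eq]
  by_cases hf : f ∈ ω.1
  · have e : ∀ k, Ys ω.1 ω.2 (k, f) = chanInv 1 (ω.2 (k, f)) := by
      intro k; simp [Ys, ind_of_mem hf]
    simp_rw [e]
    rw [(hω f).2.limsup_eq]
    simp only [hf, iff_true]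
    norm_num
  · have e : ∀ k, Ys ω.1 ω.2 (k, f) = chanInv 0 (ω.2 (k, f)) := by
      intro k; simp [Ys, ind_of_notMem hf]
    simp_rw [e]
    rw [(hω f).1.limsup_eq]
    simp only [hf, iff_false]
    norm_num

/-- **Core theorem.** Under the influence hypothesis, the configuration is recovered from the
i.i.d. uniform innovations by the solution map `out`. -/
theorem map_out [Countable E] (μ : Measure (Set E)) [IsProbabilityMeasure μ] (hL : LipTilt μ)
    (A : ℕ → E → Finset E) (hmono : ∀ f, Monotone fun r => A r f)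
    (hex : ∀ f g, ∃ r, g ∈ A r f) (T : E → ℝ) (hT : Function.Injective T) :
    (noise E).map (fun V => out (drift μ A) T (fun k f => (V (k, f) : ℝ))) = μ := by
  have hd : IsDrift (drift μ A) := isDrift_drift hL A
  have hYm : Measurable fun ω : Set E × (ℕ × E → I) => Ys ω.1 ω.2 := measurable_Ys
  have hIm : Measurable fun ω : Set E × (ℕ × E → I) => inn μ A T (Ys ω.1 ω.2) :=
    (measurable_inn μ A T).comp hYm
  have hdm : ∀ f, Measurable fun p : Unit × (E → ℝ) => drift μ A f p.2 := by
    intro f
    unfold drift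
    exact Measurable.limsup fun r => (measurable_tilt' μ _ _).comp measurable_snd
  have hOm : Measurable fun V : ℕ × E → I => out (drift μ A) T (fun k f => (V (k, f) : ℝ)) :=
    measurable_out (𝒢 := Unit) (d := fun _ => drift μ A) hdm (G := fun _ => ())
      measurable_const (fun _ => measurable_const)
      (fun k g => measurable_subtype_coe.comp (measurable_pi_apply (k, g)))
  rw [← map_inn μ A hmono hex T hT, Measure.map_map hOm hIm]
  have hae : ((fun V : ℕ × E → I => out (drift μ A) T (fun k f => (V (k, f) : ℝ))) ∘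
      fun ω : Set E × (ℕ × E → I) => inn μ A T (Ys ω.1 ω.2))
      =ᵐ[μ.prod (noise E)] fun ω => ω.1 := by
    filter_upwards [decode_ae μ] with ω hω
    simp only [Function.comp_apply]
    have hsig : sig (drift μ A) T (fun k f => (inn μ A T (Ys ω.1 ω.2) (k, f) : ℝ))
        = fun k f => Ys ω.1 ω.2 (k, f) := by
      refine sig_eq_of_innovation hd (fun k g => (inn μ A T (Ys ω.1 ω.2) (k, g)).2)
        (fun k g => Ys_mem _ _ _) fun k f => ?_
      exact coe_inn μ A T (k, f) (Ys_mem _ _ _)
    unfold out
    rw [hsig]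
    exact hω
  rw [Measure.map_congr hae]
  exact Measure.map_fst_prod.trans (by simp)

end Vale.Agent.P143
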