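import Mathlib

/-!
# P143: definitions used by the statements

Free uniform spanning forest, factors of IID, unimodular random graphs.
-/

namespace Vale.Agent.P143

open MeasureTheory ProbabilityTheory Filter Topology
open scoped unitInterval ENNReal

universe u

variable {V : Type u}

/-- `T` is (the edge set of) a spanning tree of the subgraph `H`. -/
def IsSpanningTree {G : SimpleGraph V} (H : G.Subgraph) (T : Set (Sym2 V)) : Prop :=
  T ⊆ H.edgeSet ∧ ((SimpleGraph.fromEdgeSet T).induce H.verts).IsTree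

/-- The probability that the uniform spanning tree of the finite connected subgraph `H`
contains all the edges in `A` and none of the edges in `B`. -/
noncomputable def ustProb {G : SimpleGraph V} (H : G.Subgraph) (A B : Finset (Sym2 V)) : ℝ :=
  ({T : Set (Sym2 V) | IsSpanningTree H T ∧ (A : Set (Sym2 V)) ⊆ T ∧
      Disjoint (B : Set (Sym2 V)) T}.ncard : ℝ) /
    ({T : Set (Sym2 V) | IsSpanningTree H T}.ncard : ℝ)

/-- An increasing sequence of finite connected subgraphs with union `G`. -/
structure IsExhaustion (G : SimpleGraph V) (H : ℕ → G.Subgraph) : Prop where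
  finite : ∀ n, (H n).verts.Finite
  connected : ∀ n, (H n).Connected
  mono : Monotone H
  union : ⨆ n, H n = ⊤

/-- `μ` is the (law of the) free uniform spanning forest of `G`: the weak limit, on
`{0,1}^(edges)`, of the uniform spanning trees of the members of any exhaustion. -/
def IsFUSF (G : SimpleGraph V) (μ : Measure (Set (Sym2 V))) : Prop :=
  IsProbabilityMeasure μ ∧ ∀ H : ℕ → G.Subgraph, IsExhaustion G H →
    ∀ A B : Finset (Sym2 V),
      Tendsto (fun n => ustProb (H n) A B) atTop
        (𝓝 (μ.real {T | (A : Set (Sym2 V)) ⊆ T ∧ Disjoint (B : Set (Sym2 V)) T}))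

/-- The law of i.i.d. uniform `[0,1]` labels on the vertices. -/
noncomputable def iidUniform (V : Type u) : Measure (V → I) :=
  Measure.infinitePi (fun _ : V => (volume : Measure I))

/-- The law `μ` of a random edge set on the group `Γ` is a `Γ`-factor of IID. -/
def IsGroupFactorOfIID (Γ : Type u) [Group Γ] (μ : Measure (Set (Sym2 Γ))) : Prop :=
  ∃ Φ : (Γ → I) → Set (Sym2 Γ), Measurable Φ ∧
    (∀ (γ : Γ) (U : Γ → I),
      Φ (fun v => U (γ⁻¹ * v)) = Sym2.map (fun v => γ * v) '' Φ U) ∧
    (iidUniform Γ).map Φ = μ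

/-- A random rooted graph on the vertex set `ℕ` (almost surely connected and locally finite)
is unimodular if it satisfies the mass transport principle for every Borel function `f` of
(isomorphism classes of) graphs with two distinguished vertices. -/
def IsUnimodular (P : Measure (SimpleGraph ℕ × ℕ)) : Prop :=
  IsProbabilityMeasure P ∧
  (∀ᵐ x ∂P, x.1.Connected ∧ ∀ v, (x.1.neighborSet v).Finite) ∧
  ∀ f : SimpleGraph ℕ × ℕ × ℕ → ℝ≥0∞, Measurable f →
    (∀ (τ : Equiv.Perm ℕ) (G : SimpleGraph ℕ) (u v : ℕ),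
      f (G.map τ.toEmbedding, τ u, τ v) = f (G, u, v)) →
    ∫⁻ x, ∑' v, f (x.1, x.2, v) ∂P = ∫⁻ x, ∑' v, f (x.1, v, x.2) ∂P

/-- The FUSF is a graph factor of IID on the random rooted graph with law `P`. -/
def FUSFIsGraphFactorOfIID (P : Measure (SimpleGraph ℕ × ℕ)) : Prop :=
  ∃ Φ : SimpleGraph ℕ × (ℕ → I) → Set (Sym2 ℕ), Measurable Φ ∧
    (∀ (τ : Equiv.Perm ℕ) (G : SimpleGraph ℕ) (U : ℕ → I),
      Φ (G.map τ.toEmbedding, fun v => U (τ.symm v)) = Sym2.map τ '' Φ (G, U)) ∧
    ∀ᵐ x ∂P, IsFUSF x.1 ((iidUniform ℕ).map (fun U => Φ (x.1, U)))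

end Vale.Agent.P143
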