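import Mathlib

/-!
# Deterministic part: the channel, the log-likelihood ratio, and the fixed point equation
-/

namespace Vale.Agent.P143

open Filter Topology Set

/-- Distribution function of the signal with density `1 + (2m-1)(2t-1)/4` on `[0,1]`. -/
noncomputable def chanF (m t : ℝ) : ℝ := t - (2 * m - 1) / 4 * (t * (1 - t))

/-- Inverse of `chanF m`. -/
noncomputable def chanInv (m v : ℝ) : ℝ :=
  2 * v / ((1 - (2 * m - 1) / 4) +
    Real.sqrt ((1 - (2 * m - 1) / 4) ^ 2 + 4 * ((2 * m - 1) / 4) * v))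

/-- Log-likelihood ratio of a signal. -/
noncomputable def llr (t : ℝ) : ℝ :=
  Real.log (1 + (2 * t - 1) / 4) - Real.log (1 - (2 * t - 1) / 4)

section Channel

variable {m m' t t' v v' : ℝ}

lemma chanF_zero (m : ℝ) : chanF m 0 = 0 := by simp [chanF]
lemma chanF_one (m : ℝ) : chanF m 1 = 1 := by simp [chanF]

lemma chanF_sub (m t t' : ℝ) :
    chanF m t' - chanF m t = (t' - t) * (1 - (2 * m - 1) / 4 * (1 - t - t')) := by
  unfold chanF; ring

lemma chanF_slope (hm : m ∈ Icc (0 : ℝ) 1) (ht : t ∈ Icc (0 : ℝ) 1) (ht' : t' ∈ Icc (0 : ℝ) 1) :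
    (3 : ℝ) / 4 ≤ 1 - (2 * m - 1) / 4 * (1 - t - t') := by
  obtain ⟨h1, h2⟩ := hm
  obtain ⟨h3, h4⟩ := ht
  obtain ⟨h5, h6⟩ := ht'
  nlinarith [mul_nonneg h1 h3, mul_nonneg h1 h5, mul_nonneg (sub_nonneg.2 h2) h3,
    mul_nonneg (sub_nonneg.2 h2) h5, mul_nonneg h1 (sub_nonneg.2 h4),
    mul_nonneg h1 (sub_nonneg.2 h6), mul_nonneg (sub_nonneg.2 h2) (sub_nonneg.2 h4),
    mul_nonneg (sub_nonneg.2 h2) (sub_nonneg.2 h6)]

lemma chanF_strictMonoOn (hm : m ∈ Icc (0 : ℝ) 1) : StrictMonoOn (chanF m) (Icc 0 1) := by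
  intro t ht t' ht' h
  have := chanF_sub m t t'
  have h2 := chanF_slope hm ht ht'
  nlinarith

lemma chanF_mem (hm : m ∈ Icc (0 : ℝ) 1) (ht : t ∈ Icc (0 : ℝ) 1) :
    chanF m t ∈ Icc (0 : ℝ) 1 := by
  have hmono := (chanF_strictMonoOn hm).monotoneOn
  constructor
  · have := hmono (left_mem_Icc.2 zero_le_one) ht ht.1
    simpa [chanF_zero] using this
  · have := hmono ht (right_mem_Icc.2 zero_le_one) ht.2
    simpa [chanF_one] using this

lemma chanF_continuous (m : ℝ) : Continuous (chanF m) := by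
  unfold chanF; fun_prop

lemma disc_pos (hm : m ∈ Icc (0 : ℝ) 1) (hv : v ∈ Icc (0 : ℝ) 1) :
    0 ≤ (1 - (2 * m - 1) / 4) ^ 2 + 4 * ((2 * m - 1) / 4) * v := by
  obtain ⟨h1, h2⟩ := hm
  obtain ⟨h3, h4⟩ := hv
  nlinarith [mul_nonneg h1 h3, sq_nonneg (2 * m - 1)]

/-- Left inverse on `[0,1]`. -/
lemma chanInv_chanF (hm : m ∈ Icc (0 : ℝ) 1) (ht : t ∈ Icc (0 : ℝ) 1) :
    chanInv m (chanF m t) = t := by
  set a := (2 * m - 1) / 4 with ha
  have ha1 : -(1 / 4) ≤ a := by rw [ha]; linarith [hm.1]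
  have ha2 : a ≤ 1 / 4 := by rw [ha]; linarith [hm.2]
  have hsq : (1 - a) ^ 2 + 4 * a * (t - a * (t * (1 - t))) = (1 - a + 2 * a * t) ^ 2 := by ring
  have hpos : 0 < 1 - a + 2 * a * t := by nlinarith [ht.1, ht.2]
  have : chanInv m (chanF m t) = 2 * (t - a * (t * (1 - t))) / ((1 - a) + (1 - a + 2 * a * t)) := by
    unfold chanInv chanF
    rw [← ha, hsq, Real.sqrt_sq hpos.le]
  rw [this]
  have h3 : 0 < (1 - a) + (1 - a + 2 * a * t) := by linarith
  rw [div_eq_iff h3.ne']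
  ring

lemma chanInv_mem (hm : m ∈ Icc (0 : ℝ) 1) (hv : v ∈ Icc (0 : ℝ) 1) :
    chanInv m v ∈ Icc (0 : ℝ) 1 := by
  -- `v = chanF m t` for some `t ∈ [0,1]`
  have hcont := (chanF_continuous m).continuousOn (s := Icc (0 : ℝ) 1)
  have := intermediate_value_Icc (zero_le_one' ℝ) hcont
  rw [chanF_zero, chanF_one] at this
  obtain ⟨t, ht, rfl⟩ := this hv
  rw [chanInv_chanF hm ht]; exact ht

/-- Right inverse on `[0,1]`. -/
lemma chanF_chanInv (hm : m ∈ Icc (0 : ℝ) 1) (hv : v ∈ Icc (0 : ℝ) 1) :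
    chanF m (chanInv m v) = v := by
  have hcont := (chanF_continuous m).continuousOn (s := Icc (0 : ℝ) 1)
  have := intermediate_value_Icc (zero_le_one' ℝ) hcont
  rw [chanF_zero, chanF_one] at this
  obtain ⟨t, ht, rfl⟩ := this hv
  rw [chanInv_chanF hm ht]

lemma chanInv_lipschitz (hm : m ∈ Icc (0 : ℝ) 1) (hm' : m' ∈ Icc (0 : ℝ) 1)
    (hv : v ∈ Icc (0 : ℝ) 1) :
    |chanInv m v - chanInv m' v| ≤ |m - m'| / 6 := by
  set t := chanInv m v with ht
  set t' := chanInv m' v with ht'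
  have h1 : t ∈ Icc (0 : ℝ) 1 := chanInv_mem hm hv
  have h2 : t' ∈ Icc (0 : ℝ) 1 := chanInv_mem hm' hv
  have e1 : chanF m t = v := chanF_chanInv hm hv
  have e2 : chanF m' t' = v := chanF_chanInv hm' hv
  have e3 : chanF m t - chanF m t' = (m - m') / 2 * (t' * (1 - t')) := by
    have : chanF m t = chanF m' t' := by rw [e1, e2]
    rw [this]; unfold chanF; ring
  have e4 := chanF_sub m t' t
  have e5 := chanF_slope hm h2 h1
  have e6 : |chanF m t - chanF m t'| ≥ 3 / 4 * |t - t'| := by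
    rw [e4, abs_mul]
    have : |1 - (2 * m - 1) / 4 * (1 - t' - t)| ≥ 3 / 4 := le_trans e5 (le_abs_self _)
    nlinarith [abs_nonneg (t - t')]
  have e7 : |chanF m t - chanF m t'| ≤ |m - m'| / 8 := by
    rw [e3, abs_mul, abs_div]
    have h5 : |t' * (1 - t')| ≤ 1 / 4 := by
      rw [abs_of_nonneg (mul_nonneg h2.1 (by linarith [h2.2]))]
      nlinarith [sq_nonneg (t' - 1 / 2)]
    have h6 : |(2 : ℝ)| = 2 := by norm_num
    rw [h6]
    nlinarith [abs_nonneg (m - m'), abs_nonneg (t' * (1 - t'))]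
  linarith

lemma abs_log_sub_le {a b : ℝ} (ha : 3 / 4 ≤ a) (hb : 3 / 4 ≤ b) :
    |Real.log a - Real.log b| ≤ 4 / 3 * |a - b| := by
  have key : ∀ a b : ℝ, 3 / 4 ≤ a → 3 / 4 ≤ b → Real.log a - Real.log b ≤ 4 / 3 * |a - b| := by
    intro a b ha hb
    have ha0 : 0 < a := by linarith
    have hb0 : 0 < b := by linarith
    rw [← Real.log_div ha0.ne' hb0.ne']
    have h1 := Real.log_le_sub_one_of_pos (div_pos ha0 hb0)
    have h2 : a / b - 1 = (a - b) / b := by field_simp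
    rw [h2] at h1
    refine h1.trans ?_
    rw [div_le_iff₀ hb0]
    nlinarith [le_abs_self (a - b), abs_nonneg (a - b)]
  rw [abs_le]
  constructor
  · have := key b a hb ha
    rw [abs_sub_comm b a] at this
    linarith
  · exact key a b ha hb

lemma llr_lipschitz (ht : t ∈ Icc (0 : ℝ) 1) (ht' : t' ∈ Icc (0 : ℝ) 1) :
    |llr t - llr t'| ≤ 4 / 3 * |t - t'| := by
  obtain ⟨h1, h2⟩ := ht
  obtain ⟨h3, h4⟩ := ht'
  have k1 := abs_log_sub_le (a := 1 + (2 * t - 1) / 4) (b := 1 + (2 * t' - 1) / 4)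
    (by linarith) (by linarith)
  have k2 := abs_log_sub_le (a := 1 - (2 * t - 1) / 4) (b := 1 - (2 * t' - 1) / 4)
    (by linarith) (by linarith)
  have k3 : |1 + (2 * t - 1) / 4 - (1 + (2 * t' - 1) / 4)| = |t - t'| / 2 := by
    rw [show 1 + (2 * t - 1) / 4 - (1 + (2 * t' - 1) / 4) = (t - t') / 2 by ring, abs_div]
    norm_num
  have k4 : |1 - (2 * t - 1) / 4 - (1 - (2 * t' - 1) / 4)| = |t - t'| / 2 := by
    rw [show 1 - (2 * t - 1) / 4 - (1 - (2 * t' - 1) / 4) = -((t - t') / 2) by ring, abs_neg,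
      abs_div]
    norm_num
  rw [k3] at k1
  rw [k4] at k2
  have : llr t - llr t' = (Real.log (1 + (2 * t - 1) / 4) - Real.log (1 + (2 * t' - 1) / 4)) -
    (Real.log (1 - (2 * t - 1) / 4) - Real.log (1 - (2 * t' - 1) / 4)) := by
    unfold llr; ring
  rw [this]
  refine (abs_sub _ _).trans ?_
  linarith

lemma measurable_llr : Measurable llr := by
  unfold llr; fun_prop

lemma measurable_chanInv : Measurable (fun p : ℝ × ℝ => chanInv p.1 p.2) := by
  unfold chanInv; fun_prop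

lemma measurable_chanF : Measurable (fun p : ℝ × ℝ => chanF p.1 p.2) := by
  unfold chanF; fun_prop

end Channel

section FixedPoint

variable {E : Type*}

/-- The drift `d` takes values in `[0,1]` and is `1`-Lipschitz for the supremum norm. -/
structure IsDrift (d : E → (E → ℝ) → ℝ) : Prop where
  mem : ∀ f y, d f y ∈ Icc (0 : ℝ) 1
  lip : ∀ f y y' δ, (∀ g, |y g - y' g| ≤ δ) → |d f y - d f y'| ≤ δ

/-- Log-weights seen by `f` in a round started from `y`. -/
noncomputable def seen (T : E → ℝ) (y Y : E → ℝ) (f : E) : E → ℝ := by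
  classical exact fun g => y g + if T g < T f then llr (Y g) else 0

/-- One step of the Picard iteration for a round. -/
noncomputable def step (d : E → (E → ℝ) → ℝ) (T y v : E → ℝ) (Y : E → ℝ) : E → ℝ :=
  fun f => chanInv (d f (seen T y Y f)) (v f)

/-- Picard iterates. -/
noncomputable def iter (d : E → (E → ℝ) → ℝ) (T y v : E → ℝ) : ℕ → E → ℝ
  | 0 => fun _ => 0
  | n + 1 => step d T y v (iter d T y v n)

/-- The signals of a round. -/
noncomputable def round (d : E → (E → ℝ) → ℝ) (T y v : E → ℝ) (f : E) : ℝ :=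
  limsup (fun n => iter d T y v n f) atTop

/-- Log-weights after `k` rounds. -/
noncomputable def logw (d : E → (E → ℝ) → ℝ) (T : E → ℝ) (V : ℕ → E → ℝ) : ℕ → E → ℝ
  | 0 => fun _ => 0
  | k + 1 => fun f => logw d T V k f + llr (round d T (logw d T V k) (V k) f)

/-- The signal of `f` in round `k`. -/
noncomputable def sig (d : E → (E → ℝ) → ℝ) (T : E → ℝ) (V : ℕ → E → ℝ) (k : ℕ) (f : E) : ℝ :=
  round d T (logw d T V k) (V k) f

/-- The decoded configuration. -/
noncomputable def decode (Y : ℕ → E → ℝ) : Set E :=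
  {f | 1 / 2 < limsup (fun n : ℕ => (∑ k ∈ Finset.range n, Y k f) / n) atTop}

/-- The output configuration. -/
noncomputable def out (d : E → (E → ℝ) → ℝ) (T : E → ℝ) (V : ℕ → E → ℝ) : Set E :=
  decode (sig d T V)

/-- log-weights before signal `(k,f)` computed from signals `Y`. -/
noncomputable def pastLog (T : E → ℝ) (Y : ℕ → E → ℝ) (k : ℕ) (f : E) : E → ℝ :=
  seen T (fun g => ∑ j ∈ Finset.range k, llr (Y j g)) (Y k) f

variable {d : E → (E → ℝ) → ℝ} {T y v : E → ℝ}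

lemma seen_lipschitz {Y Y' : E → ℝ} {δ : ℝ} (hδ : 0 ≤ δ) (hY : ∀ g, Y g ∈ Icc (0 : ℝ) 1)
    (hY' : ∀ g, Y' g ∈ Icc (0 : ℝ) 1) (h : ∀ g, |Y g - Y' g| ≤ δ) (f g : E) :
    |seen T y Y f g - seen T y Y' f g| ≤ 4 / 3 * δ := by
  unfold seen
  by_cases hT : T g < T f
  · simp only [hT, if_true]
    rw [show y g + llr (Y g) - (y g + llr (Y' g)) = llr (Y g) - llr (Y' g) by ring]
    refine (llr_lipschitz (hY g) (hY' g)).trans ?_
    have := h g
    linarith
  · simp only [hT, if_false]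
    simp
    positivity

lemma step_mem (hd : IsDrift d) (hv : ∀ g, v g ∈ Icc (0 : ℝ) 1) (Y : E → ℝ) (f : E) :
    step d T y v Y f ∈ Icc (0 : ℝ) 1 :=
  chanInv_mem (hd.mem _ _) (hv f)

lemma step_lipschitz (hd : IsDrift d) (hv : ∀ g, v g ∈ Icc (0 : ℝ) 1) {Y Y' : E → ℝ} {δ : ℝ}
    (hδ : 0 ≤ δ) (hY : ∀ g, Y g ∈ Icc (0 : ℝ) 1)
    (hY' : ∀ g, Y' g ∈ Icc (0 : ℝ) 1) (h : ∀ g, |Y g - Y' g| ≤ δ) (f : E) :
    |step d T y v Y f - step d T y v Y' f| ≤ δ / 2 := by
  unfold step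
  refine (chanInv_lipschitz (hd.mem _ _) (hd.mem _ _) (hv f)).trans ?_
  have := hd.lip f _ _ _ (fun g => seen_lipschitz (T := T) (y := y) hδ hY hY' h f g)
  linarith

lemma iter_mem (hd : IsDrift d) (hv : ∀ g, v g ∈ Icc (0 : ℝ) 1) (n : ℕ) (f : E) :
    iter d T y v n f ∈ Icc (0 : ℝ) 1 := by
  cases n with
  | zero => simp [iter]
  | succ n => exact step_mem hd hv _ _

/-- The iterates converge geometrically to any fixed point with values in `[0,1]`. -/
lemma iter_sub_fixed (hd : IsDrift d) (hv : ∀ g, v g ∈ Icc (0 : ℝ) 1) {Y : E → ℝ}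
    (hY : ∀ g, Y g ∈ Icc (0 : ℝ) 1) (hfix : step d T y v Y = Y) (n : ℕ) (f : E) :
    |iter d T y v n f - Y f| ≤ (1 / 2) ^ n := by
  induction n generalizing f with
  | zero =>
    simp only [iter, pow_zero, zero_sub, abs_neg]
    rw [abs_of_nonneg (hY f).1]; exact (hY f).2
  | succ n ih =>
    have h1 : iter d T y v (n + 1) f - Y f
        = step d T y v (iter d T y v n) f - step d T y v Y f := by
      rw [hfix]; rfl
    rw [h1]
    refine (step_lipschitz hd hv (by positivity) (fun g => iter_mem hd hv n g) hY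
      (fun g => ih g) f).trans (le_of_eq ?_)
    rw [pow_succ]; ring

lemma tendsto_iter_fixed (hd : IsDrift d) (hv : ∀ g, v g ∈ Icc (0 : ℝ) 1) {Y : E → ℝ}
    (hY : ∀ g, Y g ∈ Icc (0 : ℝ) 1) (hfix : step d T y v Y = Y) (f : E) :
    Tendsto (fun n => iter d T y v n f) atTop (𝓝 (Y f)) := by
  rw [tendsto_iff_norm_sub_tendsto_zero]
  refine squeeze_zero (fun n => norm_nonneg _) (fun n => ?_)
    (tendsto_pow_atTop_nhds_zero_of_lt_one (r := (1 / 2 : ℝ)) (by norm_num) (by norm_num))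
  rw [Real.norm_eq_abs]
  exact iter_sub_fixed hd hv hY hfix n f

/-- Any `[0,1]`-valued fixed point is the one computed by `round`. -/
lemma round_eq_of_fixed (hd : IsDrift d) (hv : ∀ g, v g ∈ Icc (0 : ℝ) 1) {Y : E → ℝ}
    (hY : ∀ g, Y g ∈ Icc (0 : ℝ) 1) (hfix : step d T y v Y = Y) : round d T y v = Y := by
  funext f
  exact (tendsto_iter_fixed hd hv hY hfix f).limsup_eq

/-- The signals are recovered from the innovations. -/
theorem sig_eq_of_innovation (hd : IsDrift d) {V : ℕ → E → ℝ} (hV : ∀ k g, V k g ∈ Icc (0 : ℝ) 1)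
    {Y : ℕ → E → ℝ} (hY : ∀ k g, Y k g ∈ Icc (0 : ℝ) 1)
    (h : ∀ k f, V k f = chanF (d f (pastLog T Y k f)) (Y k f)) :
    sig d T V = Y := by
  have key : ∀ k, logw d T V k = fun g => ∑ j ∈ Finset.range k, llr (Y j g) := by
    intro k
    induction k with
    | zero => funext f; simp [logw]
    | succ k ih =>
      have hfix : step d T (logw d T V k) (V k) (Y k) = Y k := by
        funext f
        unfold step
        rw [ih]
        have := h k f
        rw [this]
        exact chanInv_chanF (hd.mem _ _) (hY k f)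
      have := round_eq_of_fixed hd (hV k) (hY k) hfix
      funext f
      simp only [logw, this, Finset.sum_range_succ]
      rw [ih]
  funext k f
  have hfix : step d T (logw d T V k) (V k) (Y k) = Y k := by
    funext f
    unfold step
    rw [key]
    have := h k f
    rw [this]
    exact chanInv_chanF (hd.mem _ _) (hY k f)
  have := round_eq_of_fixed hd (hV k) (hY k) hfix
  unfold sig
  rw [this]

end FixedPoint

end Vale.Agent.P143
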