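import Vale.Agent.Lib.P143.FusfExist

/-!
Naturality of the free uniform spanning forest under relabelling of the vertices.
-/

set_option linter.unusedSectionVars false

namespace Vale.Agent.P143

open Finset Filter Topology MeasureTheory
open scoped ENNReal

universe u v

variable {V : Type u} {W : Type v}

/-- the induced bijection on unordered pairs -/
def symEquiv (σ : V ≃ W) : Sym2 V ≃ Sym2 W where
  toFun := Sym2.map σ
  invFun := Sym2.map σ.symm
  left_inv e := by
    rw [Sym2.map_map]
    have : (σ.symm ∘ σ : V → V) = id := by ext; simp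
    rw [this, Sym2.map_id, id]
  right_inv e := by
    rw [Sym2.map_map]
    have : (σ ∘ σ.symm : W → W) = id := by ext; simp
    rw [this, Sym2.map_id, id]

lemma symEquiv_apply (σ : V ≃ W) (e : Sym2 V) : symEquiv σ e = Sym2.map σ e := rfl

/-- pull a subgraph back along a bijection -/
def pull (σ : V ≃ W) {G : SimpleGraph V} (K : (G.map σ.toEmbedding).Subgraph) : G.Subgraph where
  verts := {v | σ v ∈ K.verts}
  Adj u v := K.Adj (σ u) (σ v)
  adj_sub := fun h => (SimpleGraph.map_adj_apply (f := σ.toEmbedding)).mp (K.adj_sub h)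
  edge_vert := fun h => K.edge_vert h
  symm := ⟨fun _ _ h => K.adj_symm h⟩

lemma pull_adj (σ : V ≃ W) {G : SimpleGraph V} (K : (G.map σ.toEmbedding).Subgraph) (u v : V) :
    (pull σ K).Adj u v ↔ K.Adj (σ u) (σ v) := Iff.rfl

lemma mem_pull_verts (σ : V ≃ W) {G : SimpleGraph V} (K : (G.map σ.toEmbedding).Subgraph)
    (u : V) : u ∈ (pull σ K).verts ↔ σ u ∈ K.verts := Iff.rfl

/-- the vertex sets correspond -/
def vertsEquiv (σ : V ≃ W) {G : SimpleGraph V} (K : (G.map σ.toEmbedding).Subgraph) :
    (pull σ K).verts ≃ K.verts :=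
  σ.subtypeEquiv fun v => mem_pull_verts σ K v

lemma pull_finite (σ : V ≃ W) {G : SimpleGraph V} {K : (G.map σ.toEmbedding).Subgraph}
    (hK : K.verts.Finite) : (pull σ K).verts.Finite :=
  hK.preimage σ.injective.injOn

lemma pull_connected (σ : V ≃ W) {G : SimpleGraph V} {K : (G.map σ.toEmbedding).Subgraph}
    (hK : K.Connected) : (pull σ K).Connected := by
  rw [SimpleGraph.Subgraph.connected_iff'] at hK ⊢
  have iso : (pull σ K).coe ≃g K.coe :=
    { vertsEquiv σ K with map_rel_iff' := fun {a b} => Iff.rfl }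
  exact iso.connected_iff.mpr hK

lemma isExhaustion_pull (σ : V ≃ W) {G : SimpleGraph V}
    {K : ℕ → (G.map σ.toEmbedding).Subgraph} (hK : IsExhaustion _ K) :
    IsExhaustion G (fun n => pull σ (K n)) := by
  refine ⟨fun n => pull_finite σ (hK.finite n), fun n => pull_connected σ (hK.connected n),
    fun m n h => ⟨fun v hv => (hK.mono h).1 hv, fun u v huv => (hK.mono h).2 huv⟩, ?_⟩
  rw [eq_top_iff]
  refine ⟨fun v _ => ?_, fun u v huv => ?_⟩
  · rw [SimpleGraph.Subgraph.verts_iSup, Set.mem_iUnion]
    exact hK.exists_mem (σ v)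
  · rw [SimpleGraph.Subgraph.iSup_adj]
    have h1 : s(σ u, σ v) ∈ (G.map σ.toEmbedding).edgeSet :=
      (SimpleGraph.map_adj_apply (f := σ.toEmbedding)).mpr huv
    exact hK.exists_edge h1

lemma mem_pull_edgeSet (σ : V ≃ W) {G : SimpleGraph V} (K : (G.map σ.toEmbedding).Subgraph)
    (e : Sym2 V) : e ∈ (pull σ K).edgeSet ↔ symEquiv σ e ∈ K.edgeSet := by
  induction e using Sym2.ind with
  | _ x y => exact Iff.rfl

lemma isSpanningTree_pull (σ : V ≃ W) {G : SimpleGraph V}
    (K : (G.map σ.toEmbedding).Subgraph) (S : Set (Sym2 V)) :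
    IsSpanningTree (pull σ K) S ↔ IsSpanningTree K (symEquiv σ '' S) := by
  unfold IsSpanningTree
  have h1 : S ⊆ (pull σ K).edgeSet ↔ symEquiv σ '' S ⊆ K.edgeSet := by
    rw [Set.image_subset_iff]
    constructor
    · exact fun h e he => (mem_pull_edgeSet σ K e).mp (h he)
    · exact fun h e he => (mem_pull_edgeSet σ K e).mpr (h he)
  have iso : (SimpleGraph.fromEdgeSet S).induce (pull σ K).verts ≃g
      (SimpleGraph.fromEdgeSet (symEquiv σ '' S)).induce K.verts :=
    { vertsEquiv σ K with
      map_rel_iff' := fun {a b} => by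
        rw [SimpleGraph.induce_adj, SimpleGraph.induce_adj, SimpleGraph.fromEdgeSet_adj,
          SimpleGraph.fromEdgeSet_adj]
        have h2 : s(((vertsEquiv σ K a : K.verts) : W), ((vertsEquiv σ K b : K.verts) : W)) =
            symEquiv σ s((a : V), (b : V)) := rfl
        have h3 : (((vertsEquiv σ K a : K.verts) : W) ≠ ((vertsEquiv σ K b : K.verts) : W)) ↔
            ((a : V) ≠ (b : V)) := σ.injective.ne_iff
        constructor
        · rintro ⟨h4, h5⟩
          refine ⟨?_, h3.mp h5⟩
          have h6 : symEquiv σ s((a : V), (b : V)) ∈ symEquiv σ '' S := h4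
          exact (Function.Injective.mem_set_image (symEquiv σ).injective).mp h6
        · rintro ⟨h4, h5⟩
          refine ⟨?_, h3.mpr h5⟩
          exact ⟨_, h4, h2⟩ }
  rw [h1, iso.isTree_iff]

lemma ustProb_pull [DecidableEq V] (σ : V ≃ W) {G : SimpleGraph V}
    (K : (G.map σ.toEmbedding).Subgraph) (A B : Finset (Sym2 W)) :
    ustProb K A B = ustProb (pull σ K) (A.image (symEquiv σ).symm)
      (B.image (symEquiv σ).symm) := by
  have h1 : ∀ (p : Set (Sym2 W) → Prop) (q : Set (Sym2 V) → Prop),
      (∀ S, q S ↔ p (symEquiv σ '' S)) →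
      {T : Set (Sym2 W) | IsSpanningTree K T ∧ p T}.ncard =
        {T : Set (Sym2 V) | IsSpanningTree (pull σ K) T ∧ q T}.ncard := by
    intro p q hpq
    have h2 : {T : Set (Sym2 W) | IsSpanningTree K T ∧ p T} =
        (fun S : Set (Sym2 V) => symEquiv σ '' S) ''
          {T : Set (Sym2 V) | IsSpanningTree (pull σ K) T ∧ q T} := by
      ext T
      constructor
      · rintro ⟨h3, h4⟩
        have h5 : symEquiv σ '' ((symEquiv σ).symm '' T) = T := by
          rw [Set.image_image]; simp
        refine ⟨(symEquiv σ).symm '' T, ⟨?_, ?_⟩, h5⟩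
        · rw [isSpanningTree_pull, h5]; exact h3
        · rw [hpq, h5]; exact h4
      · rintro ⟨S, ⟨h3, h4⟩, rfl⟩
        exact ⟨(isSpanningTree_pull σ K S).mp h3, (hpq S).mp h4⟩
    rw [h2, Set.ncard_image_of_injective _ (symEquiv σ).injective.image_injective]
  unfold ustProb
  have h3 := h1 (fun T => (A : Set (Sym2 W)) ⊆ T ∧ Disjoint (B : Set (Sym2 W)) T)
    (fun T => ((A.image (symEquiv σ).symm : Finset (Sym2 V)) : Set (Sym2 V)) ⊆ T ∧
      Disjoint ((B.image (symEquiv σ).symm : Finset (Sym2 V)) : Set (Sym2 V)) T) (by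
      intro S
      rw [Finset.coe_image, Finset.coe_image, Set.image_subset_iff,
        ← Equiv.image_eq_preimage_symm, Set.disjoint_left, Set.disjoint_left]
      refine and_congr Iff.rfl ?_
      constructor
      · rintro h w hw ⟨s, hs, rfl⟩
        exact h ⟨_, hw, rfl⟩ (by simpa using hs)
      · rintro h _ ⟨w, hw, rfl⟩ hS
        exact h hw ⟨_, hS, by simp⟩)
  have h4 := h1 (fun _ => True) (fun _ => True) (fun _ => Iff.rfl)
  simp only [and_true] at h4
  rw [h3, h4]

lemma measurable_image_symEquiv (σ : V ≃ W) :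
    Measurable (fun T : Set (Sym2 V) => Sym2.map σ '' T) := by
  rw [measurable_set_iff]
  intro e
  have h : (fun T : Set (Sym2 V) => e ∈ Sym2.map σ '' T) =
      fun T => (symEquiv σ).symm e ∈ T := by
    funext T
    apply propext
    constructor
    · rintro ⟨f, hf, rfl⟩
      rw [← symEquiv_apply, Equiv.symm_apply_apply]
      exact hf
    · intro h
      exact ⟨_, h, by rw [← symEquiv_apply, Equiv.apply_symm_apply]⟩
  rw [h]
  exact measurable_set_mem _

/-- naturality of the free uniform spanning forest -/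
theorem IsFUSF.map (σ : V ≃ W) {G : SimpleGraph V} {μ : Measure (Set (Sym2 V))}
    (hμ : IsFUSF G μ) :
    IsFUSF (G.map σ.toEmbedding) (μ.map (fun T => Sym2.map σ '' T)) := by
  classical
  have := hμ.1
  refine ⟨Measure.isProbabilityMeasure_map (measurable_image_symEquiv σ).aemeasurable, ?_⟩
  intro K hK A B
  have h1 := hμ.2 _ (isExhaustion_pull σ hK) (A.image (symEquiv σ).symm)
    (B.image (symEquiv σ).symm)
  simp_rw [← ustProb_pull] at h1
  have h2 : (μ.map (fun T => Sym2.map σ '' T)).real (cyl A B) =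
      μ.real (cyl (A.image (symEquiv σ).symm) (B.image (symEquiv σ).symm)) := by
    rw [measureReal_def, Measure.map_apply (measurable_image_symEquiv σ) (measurableSet_cyl A B),
      measureReal_def]
    congr 2
    ext T
    rw [Set.mem_preimage, mem_cyl, mem_cyl]
    have h3 : ∀ e, e ∈ Sym2.map σ '' T ↔ (symEquiv σ).symm e ∈ T := by
      intro e
      constructor
      · rintro ⟨f, hf, rfl⟩
        rw [← symEquiv_apply, Equiv.symm_apply_apply]
        exact hf
      · intro h
        exact ⟨_, h, by rw [← symEquiv_apply, Equiv.apply_symm_apply]⟩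
    simp only [h3, Finset.mem_image, forall_exists_index, and_imp, forall_apply_eq_imp_iff₂]
  change Tendsto _ atTop (𝓝 ((μ.map (fun T => Sym2.map σ '' T)).real (cyl A B)))
  rw [h2]
  exact h1

end Vale.Agent.P143
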