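import Vale.Agent.Lib.P143.Ball
import Vale.Agent.Lib.P143.FusfNat

/-!
# Finite exhausting sets of pairs around a pair
-/

namespace Vale.Agent.P143

open Set MeasureTheory

universe u v

variable {V : Type u} {W : Type v}

/-- The union of the balls around the endpoints of `e`. -/
def ballE (G : SimpleGraph V) (r : ℕ) (e : Sym2 V) : Set V := {w | ∃ v ∈ e, w ∈ ball G r v}

/-- The unordered pairs of elements of `S`. -/
def pairs (S : Set V) : Set (Sym2 V) := {g | ∀ v ∈ g, v ∈ S}

lemma mem_ballE {G : SimpleGraph V} {r : ℕ} {e : Sym2 V} {w : V} :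
    w ∈ ballE G r e ↔ ∃ v ∈ e, w ∈ ball G r v := Iff.rfl

lemma mem_pairs {S : Set V} {g : Sym2 V} : g ∈ pairs S ↔ ∀ v ∈ g, v ∈ S := Iff.rfl

lemma pairs_mono {S S' : Set V} (h : S ⊆ S') : pairs S ⊆ pairs S' :=
  fun _ hg v hv => h (hg v hv)

lemma finite_pairs {S : Set V} (hS : S.Finite) : (pairs S).Finite := by
  refine ((hS.prod hS).image fun p : V × V => s(p.1, p.2)).subset fun g hg => ?_
  induction g using Sym2.ind with
  | _ x y =>
    exact ⟨(x, y), ⟨hg x (by simp), hg y (by simp)⟩, rfl⟩

lemma finite_ballE {G : SimpleGraph V} (h : ∀ v, (G.neighborSet v).Finite) (r : ℕ)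
    (e : Sym2 V) : (ballE G r e).Finite := by
  induction e using Sym2.ind with
  | _ x y =>
    refine ((finite_ball h r x).union (finite_ball h r y)).subset fun w hw => ?_
    obtain ⟨v, hv, hw⟩ := hw
    rw [Sym2.mem_iff] at hv
    rcases hv with rfl | rfl
    · exact Or.inl hw
    · exact Or.inr hw

open Classical in
/-- The pairs with both endpoints within distance `r` of an endpoint of `e`. -/
noncomputable def exh (G : SimpleGraph V) (r : ℕ) (e : Sym2 V) : Finset (Sym2 V) :=
  if h : (pairs (ballE G r e)).Finite then h.toFinset else ∅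

lemma mem_exh {G : SimpleGraph V} (h : ∀ v, (G.neighborSet v).Finite) {r : ℕ} {e g : Sym2 V} :
    g ∈ exh G r e ↔ g ∈ pairs (ballE G r e) := by
  have h1 : (pairs (ballE G r e)).Finite := finite_pairs (finite_ballE h r e)
  unfold exh
  rw [dif_pos h1, Set.Finite.mem_toFinset]

lemma ballE_mono (G : SimpleGraph V) (e : Sym2 V) : Monotone fun r => ballE G r e := by
  rintro r r' hr w ⟨v, hv, hw⟩
  exact ⟨v, hv, ball_mono G v hr hw⟩

lemma exh_mono {G : SimpleGraph V} (h : ∀ v, (G.neighborSet v).Finite) (e : Sym2 V) :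
    Monotone fun r => exh G r e := by
  intro r r' hr g hg
  have h1 := (mem_exh h).1 hg
  exact (mem_exh h).2 (pairs_mono (ballE_mono G e hr) h1)

lemma exists_mem_exh {G : SimpleGraph V} (hG : G.Connected)
    (h : ∀ v, (G.neighborSet v).Finite) (f g : Sym2 V) : ∃ r, g ∈ exh G r f := by
  induction g using Sym2.ind with
  | _ a b =>
    obtain ⟨x, hx⟩ : ∃ x, x ∈ f := by
      induction f using Sym2.ind with
      | _ x y => exact ⟨x, by simp⟩
    obtain ⟨n, hn⟩ := exists_mem_ball hG x a
    obtain ⟨m, hm⟩ := exists_mem_ball hG x b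
    refine ⟨max n m, (mem_exh h).2 fun v hv => ?_⟩
    rw [Sym2.mem_iff] at hv
    rcases hv with rfl | rfl
    · exact ⟨x, hx, ball_mono G x (le_max_left _ _) hn⟩
    · exact ⟨x, hx, ball_mono G x (le_max_right _ _) hm⟩

lemma measurableSet_mem_pairs_ballE [Countable V] (r : ℕ) (f g : Sym2 V) :
    MeasurableSet {G : SimpleGraph V | g ∈ pairs (ballE G r f)} := by
  have : {G : SimpleGraph V | g ∈ pairs (ballE G r f)}
      = ⋂ w ∈ {w | w ∈ g}, ⋃ v ∈ {v | v ∈ f}, {G : SimpleGraph V | w ∈ ball G r v} := by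
    ext G
    simp only [Set.mem_ofPred_eq, mem_pairs, mem_ballE, Set.mem_iInter, Set.mem_iUnion,
      exists_prop]
  rw [this]
  refine MeasurableSet.biInter (Set.to_countable _) fun w _ => ?_
  exact MeasurableSet.biUnion (Set.to_countable _) fun v _ => measurableSet_mem_ball r v w

lemma exh_eq_iff {G : SimpleGraph V} {r : ℕ} {f : Sym2 V} {S : Finset (Sym2 V)}
    (hS : S.Nonempty) :
    exh G r f = S ↔ ∀ g, (g ∈ pairs (ballE G r f) ↔ g ∈ S) := by
  unfold exh
  constructor
  · intro h g
    by_cases h1 : (pairs (ballE G r f)).Finite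
    · rw [dif_pos h1] at h
      rw [← h, Set.Finite.mem_toFinset]
    · rw [dif_neg h1] at h
      exact absurd h.symm hS.ne_empty
  · intro h
    have h1 : pairs (ballE G r f) = (S : Set (Sym2 V)) := by
      ext g; exact h g
    have h2 : (pairs (ballE G r f)).Finite := by
      rw [h1]; exact S.finite_toSet
    rw [dif_pos h2]
    ext g
    rw [Set.Finite.mem_toFinset]
    exact h g

lemma measurableSet_exh_eq [Countable V] (r : ℕ) (f : Sym2 V) (S : Finset (Sym2 V)) :
    MeasurableSet {G : SimpleGraph V | exh G r f = S} := by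
  have key : ∀ S : Finset (Sym2 V), S.Nonempty →
      MeasurableSet {G : SimpleGraph V | exh G r f = S} := by
    intro S hS
    have : {G : SimpleGraph V | exh G r f = S}
        = ⋂ g : Sym2 V, {G : SimpleGraph V | g ∈ pairs (ballE G r f) ↔ g ∈ S} := by
      ext G
      simp only [Set.mem_ofPred_eq, exh_eq_iff hS, Set.mem_iInter]
    rw [this]
    refine MeasurableSet.iInter fun g => ?_
    by_cases hg : g ∈ S
    · simp only [hg, iff_true]
      exact measurableSet_mem_pairs_ballE r f g
    · simp only [hg, iff_false]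
      exact (measurableSet_mem_pairs_ballE r f g).compl
  by_cases hS : S.Nonempty
  · exact key S hS
  · obtain rfl := Finset.not_nonempty_iff_eq_empty.1 hS
    have : {G : SimpleGraph V | exh G r f = ∅}
        = (⋃ S ∈ {S : Finset (Sym2 V) | S.Nonempty}, {G : SimpleGraph V | exh G r f = S})ᶜ := by
      ext G
      simp only [Set.mem_ofPred_eq, Set.mem_compl_iff, Set.mem_iUnion, exists_prop]
      constructor
      · rintro h ⟨S, hS, h'⟩
        rw [h] at h'
        exact hS.ne_empty h'.symm
      · intro h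
        by_contra h'
        exact h ⟨_, Finset.nonempty_iff_ne_empty.2 h', rfl⟩
    rw [this]
    exact (MeasurableSet.biUnion (Set.to_countable _) fun S hS => key S hS).compl

lemma mem_symEquiv (τ : V ≃ W) (e : Sym2 V) (v : V) : τ v ∈ symEquiv τ e ↔ v ∈ e := by
  rw [symEquiv_apply, Sym2.mem_map]
  constructor
  · rintro ⟨a, ha, h⟩
    rwa [← τ.injective h]
  · intro h
    exact ⟨v, h, rfl⟩

lemma pairs_ballE_map (τ : V ≃ W) (G : SimpleGraph V) (r : ℕ) (e g : Sym2 V) :
    symEquiv τ g ∈ pairs (ballE (G.map τ.toEmbedding) r (symEquiv τ e))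
      ↔ g ∈ pairs (ballE G r e) := by
  simp only [mem_pairs, mem_ballE]
  constructor
  · intro h v hv
    obtain ⟨w, hw, hb⟩ := h (τ v) ((mem_symEquiv τ g v).2 hv)
    obtain ⟨w, rfl⟩ := τ.surjective w
    exact ⟨w, (mem_symEquiv τ e w).1 hw, (mem_ball_map τ G r w v).1 hb⟩
  · intro h v hv
    obtain ⟨v, rfl⟩ := τ.surjective v
    obtain ⟨w, hw, hb⟩ := h v ((mem_symEquiv τ g v).1 hv)
    exact ⟨τ w, (mem_symEquiv τ e w).2 hw, (mem_ball_map τ G r w v).2 hb⟩

lemma exh_map [DecidableEq (Sym2 W)] (τ : V ≃ W) (G : SimpleGraph V) (r : ℕ) (e : Sym2 V) :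
    exh (G.map τ.toEmbedding) r (symEquiv τ e) = (exh G r e).image (symEquiv τ) := by
  have h0 : pairs (ballE (G.map τ.toEmbedding) r (symEquiv τ e))
      = symEquiv τ '' pairs (ballE G r e) := by
    ext g
    obtain ⟨g, rfl⟩ := (symEquiv τ).surjective g
    rw [pairs_ballE_map, (symEquiv τ).injective.mem_set_image]
  unfold exh
  by_cases h : (pairs (ballE G r e)).Finite
  · have h' : (pairs (ballE (G.map τ.toEmbedding) r (symEquiv τ e))).Finite := by
      rw [h0]; exact h.image _
    rw [dif_pos h, dif_pos h']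
    ext g
    rw [Set.Finite.mem_toFinset, h0, Finset.mem_image]
    simp only [Set.Finite.mem_toFinset]
    rfl
  · have h' : ¬ (pairs (ballE (G.map τ.toEmbedding) r (symEquiv τ e))).Finite := by
      rw [h0, Set.finite_image_iff (symEquiv τ).injective.injOn]; exact h
    rw [dif_neg h, dif_neg h', Finset.image_empty]

end Vale.Agent.P143
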