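import Vale.Agent.Lib.P143.FusfExist

/-!
A jointly measurable version of the free uniform spanning forest measure.
-/

set_option linter.unusedSectionVars false

namespace Vale.Agent.P143

open Finset Filter Topology MeasureTheory
open scoped ENNReal

universe u

variable {V : Type u}

lemma measurable_of_restr {α : Type*} [MeasurableSpace α] {F : Set V} (hF : F.Finite)
    (g : SimpleGraph V → α) : Measurable (fun G : SimpleGraph V => g (restr G F)) := by
  classical
  have : Finite F := hF
  set R : SimpleGraph V → (F → F → Prop) := fun G a b => G.Adj a b with hR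
  have hRm : Measurable R := by
    refine measurable_pi_iff.2 fun a => measurable_pi_iff.2 fun b => ?_
    have h1 : Measurable fun G : SimpleGraph V => G.Adj := SimpleGraph.measurable_adj
    exact (measurable_pi_apply (b : V)).comp ((measurable_pi_apply (a : V)).comp h1)
  set dec : (F → F → Prop) → SimpleGraph V := fun P =>
    SimpleGraph.fromRel (fun u v => ∃ (hu : u ∈ F) (hv : v ∈ F), P ⟨u, hu⟩ ⟨v, hv⟩) with hdec
  have hfac : (fun G : SimpleGraph V => g (restr G F)) = (fun P => g (restr (dec P) F)) ∘ R := by
    funext G
    have : restr G F = restr (dec (R G)) F := by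
      ext u v
      rw [restr_adj, restr_adj]
      constructor
      · rintro ⟨h1, h2, h3⟩
        refine ⟨?_, h2, h3⟩
        rw [hdec, SimpleGraph.fromRel_adj]
        exact ⟨h1.ne, Or.inl ⟨h2, h3, h1⟩⟩
      · rintro ⟨h1, h2, h3⟩
        refine ⟨?_, h2, h3⟩
        rw [hdec, SimpleGraph.fromRel_adj] at h1
        rcases h1.2 with ⟨_, _, h4⟩ | ⟨_, _, h4⟩
        · exact h4
        · exact SimpleGraph.Adj.symm h4
    change g (restr G F) = g (restr (dec (R G)) F)
    rw [this]
  rw [hfac]
  exact (Measurable.of_discrete).comp hRm

lemma connected_iff_restr {G : SimpleGraph V} {o : V} {F : ℕ → Set V} (hmono : Monotone F)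
    (hU : ∀ v, ∃ n, v ∈ F n) :
    G.Connected ↔ ∀ v, ∃ n, (restr G (F n)).Reachable o v := by
  constructor
  · intro hG v
    have hv := hG.preconnected o v
    rw [SimpleGraph.reachable_iff_reflTransGen] at hv
    induction hv with
    | refl => exact ⟨0, SimpleGraph.Reachable.refl _⟩
    | @tail b c hb hbc ih =>
      obtain ⟨n, hn⟩ := ih
      obtain ⟨m, hm⟩ := hU b
      obtain ⟨k, hk⟩ := hU c
      refine ⟨max n (max m k), ?_⟩
      refine (hn.mono (restr_mono G (hmono (le_max_left _ _)))).trans ?_
      refine SimpleGraph.Adj.reachable (G := restr G (F (max n (max m k)))) ⟨hbc, ?_, ?_⟩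
      · exact hmono ((le_max_left _ _).trans (le_max_right _ _)) hm
      · exact hmono ((le_max_right _ _).trans (le_max_right _ _)) hk
  · intro h
    rw [SimpleGraph.connected_iff_exists_forall_reachable]
    refine ⟨o, fun v => ?_⟩
    obtain ⟨n, hn⟩ := h v
    have hle : restr G (F n) ≤ G := fun _ _ h' => (restr_adj.mp h').1
    exact hn.mono hle

lemma measurableSet_connected [Countable V] :
    MeasurableSet {G : SimpleGraph V | G.Connected} := by
  rcases isEmpty_or_nonempty V with hV | ⟨⟨o⟩⟩
  · have : {G : SimpleGraph V | G.Connected} = ∅ := by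
      rw [Set.eq_empty_iff_forall_notMem]
      intro G hG
      have h1 : G.Connected := hG
      exact (not_isEmpty_iff.mpr h1.nonempty) hV
    rw [this]
    exact MeasurableSet.empty
  · obtain ⟨F, hF, hmono, _, hU⟩ := exists_finite_exh o
    have : {G : SimpleGraph V | G.Connected} =
        ⋂ v, ⋃ n, {G : SimpleGraph V | (restr G (F n)).Reachable o v} := by
      ext G
      rw [Set.mem_ofPred_eq, connected_iff_restr (o := o) hmono hU]
      simp
    rw [this]
    refine MeasurableSet.iInter fun v => MeasurableSet.iUnion fun n => ?_
    exact measurableSet_setOfPred.2 (measurable_of_restr (hF n) fun K => K.Reachable o v)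

lemma measurableSet_locallyFinite [Countable V] :
    MeasurableSet {G : SimpleGraph V | ∀ v, (G.neighborSet v).Finite} := by
  have : {G : SimpleGraph V | ∀ v, (G.neighborSet v).Finite} =
      ⋂ v, ⋃ s : Finset V, ⋂ u ∈ {u | u ∉ s}, {G : SimpleGraph V | ¬ G.Adj v u} := by
    ext G
    simp only [Set.mem_iInter, Set.mem_iUnion, Set.mem_ofPred_eq]
    refine forall_congr' fun v => ?_
    constructor
    · intro h
      refine ⟨h.toFinset, fun u hu hadj => hu ?_⟩
      rw [Set.Finite.mem_toFinset]
      exact hadj
    · rintro ⟨s, hs⟩
      refine s.finite_toSet.subset fun u hu => ?_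
      by_contra h
      exact hs u h hu
  rw [this]
  refine MeasurableSet.iInter fun v => MeasurableSet.iUnion fun s => ?_
  refine MeasurableSet.biInter (Set.to_countable _) fun u _ => ?_
  refine (measurableSet_setOfPred.2 ?_ : MeasurableSet {G : SimpleGraph V | G.Adj v u}).compl
  have h1 : Measurable fun G : SimpleGraph V => G.Adj := SimpleGraph.measurable_adj
  exact (measurable_pi_apply u).comp ((measurable_pi_apply v).comp h1)

/-- the graphs we consider form a measurable set -/
lemma measurableSet_good [Countable V] :
    MeasurableSet {G : SimpleGraph V | G.Connected ∧ ∀ v, (G.neighborSet v).Finite} :=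
  measurableSet_connected.inter measurableSet_locallyFinite

lemma ustProb_congr {G G' : SimpleGraph V} {H : G.Subgraph} {H' : G'.Subgraph}
    (h1 : H.verts = H'.verts) (h2 : H.edgeSet = H'.edgeSet) (A B : Finset (Sym2 V)) :
    ustProb H A B = ustProb H' A B := by
  have h3 : ∀ T, IsSpanningTree H T ↔ IsSpanningTree H' T := by
    intro T
    unfold IsSpanningTree
    rw [h1, h2]
  unfold ustProb
  simp_rw [h3]

lemma ustProb_cmp {G : SimpleGraph V} {o : V} {F : Set V} (ho : o ∈ F)
    (A B : Finset (Sym2 V)) :
    ustProb (cmp G o F) A B = ustProb (cmp (restr G F) o F) A B := by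
  apply ustProb_congr
  · rw [cmp_verts, cmp_verts, restr_restr]
  · ext e
    induction e using Sym2.ind with
    | _ x y =>
      rw [SimpleGraph.Subgraph.mem_edgeSet, SimpleGraph.Subgraph.mem_edgeSet, cmp_adj' ho,
        cmp_adj' ho, restr_restr]

lemma measurable_ustProb_cmp {o : V} {F : Set V} (hF : F.Finite) (ho : o ∈ F)
    (A B : Finset (Sym2 V)) :
    Measurable fun G : SimpleGraph V => ustProb (cmp G o F) A B := by
  have : (fun G : SimpleGraph V => ustProb (cmp G o F) A B) =
      fun G => ustProb (cmp (restr G F) o F) A B := by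
    funext G
    exact ustProb_cmp ho A B
  rw [this]
  exact measurable_of_restr hF fun K => ustProb (cmp K o F) A B

open Classical in
/-- the free uniform spanning forest measure, with a dummy value off connected graphs -/
noncomputable def fusf [Countable V] (G : SimpleGraph V) : Measure (Set (Sym2 V)) :=
  if h : G.Connected then (exists_isFUSF h).choose else Measure.dirac ∅

lemma isFUSF_fusf [Countable V] {G : SimpleGraph V} (hG : G.Connected) : IsFUSF G (fusf G) := by
  unfold fusf
  rw [dif_pos hG]
  exact (exists_isFUSF hG).choose_spec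

instance isProbabilityMeasure_fusf [Countable V] (G : SimpleGraph V) :
    IsProbabilityMeasure (fusf G) := by
  by_cases hG : G.Connected
  · exact (isFUSF_fusf hG).1
  · unfold fusf
    rw [dif_neg hG]
    infer_instance

theorem measurable_fusf [Countable V] :
    Measurable (fusf : SimpleGraph V → Measure (Set (Sym2 V))) := by
  classical
  rcases isEmpty_or_nonempty V with hV | ⟨⟨o⟩⟩
  · have : (fusf : SimpleGraph V → Measure (Set (Sym2 V))) = fun _ => Measure.dirac ∅ := by
      funext G
      unfold fusf
      rw [dif_neg]
      exact fun h => (not_isEmpty_iff.mpr h.nonempty) hV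
    rw [this]
    exact measurable_const
  · refine Measurable.measure_of_isPiSystem_of_isProbabilityMeasure generateFrom_cyls
      isPiSystem_cyls ?_
    rintro _ ⟨A, B, rfl⟩
    obtain ⟨F, hF, hmono, ho, hU⟩ := exists_finite_exh o
    set g : ℕ → SimpleGraph V → ℝ≥0∞ := fun n G =>
      if G.Connected then ENNReal.ofReal (ustProb (cmp G o (F n)) A B)
      else (Measure.dirac (∅ : Set (Sym2 V))) (cyl A B) with hg
    refine measurable_of_tendsto_metrizable (f := g) (fun n => ?_) ?_
    · refine Measurable.ite measurableSet_connected ?_ measurable_const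
      exact ENNReal.measurable_ofReal.comp (measurable_ustProb_cmp (hF n) (ho n) A B)
    · rw [tendsto_pi_nhds]
      intro G
      by_cases hG : G.Connected
      · have h1 := (isFUSF_fusf hG).2 _ (isExhaustion_cmp hG hF hmono ho hU) A B
        have h2 := (ENNReal.continuous_ofReal.tendsto _).comp h1
        have h3 : ENNReal.ofReal ((fusf G).real {T | (A : Set (Sym2 V)) ⊆ T ∧
            Disjoint (B : Set (Sym2 V)) T}) = fusf G (cyl A B) := by
          rw [measureReal_def, ENNReal.ofReal_toReal (measure_ne_top _ _)]
          rfl
        rw [h3] at h2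
        refine h2.congr fun n => ?_
        simp only [hg, if_pos hG, Function.comp]
      · have h1 : fusf G = Measure.dirac ∅ := by
          unfold fusf
          rw [dif_neg hG]
        rw [h1]
        refine tendsto_const_nhds.congr fun n => ?_
        simp only [hg, if_neg hG]

/-- the jointly measurable kernel -/
theorem exists_fusf_kernel [Countable V] : ∃ κ : SimpleGraph V → Measure (Set (Sym2 V)),
    Measurable κ ∧ (∀ G, IsProbabilityMeasure (κ G)) ∧
      ∀ G : SimpleGraph V, G.Connected → IsFUSF G (κ G) :=
  ⟨fusf, measurable_fusf, isProbabilityMeasure_fusf, fun _ hG => isFUSF_fusf hG⟩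

end Vale.Agent.P143
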