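import Vale.Agent.Lib.P143.Det

/-!
# Tilted marginals and the drift
-/

namespace Vale.Agent.P143

open Filter Topology Set MeasureTheory ProbabilityTheory

variable {E : Type*}

/-- Indicator of `g ∈ x` as a real number. -/
noncomputable def ind (x : Set E) (g : E) : ℝ := x.indicator (fun _ => (1 : ℝ)) g

/-- The tilting weight `exp (∑ g ∈ A, y g * 1[g ∈ x])`. -/
noncomputable def tw (A : Finset E) (y : E → ℝ) (x : Set E) : ℝ :=
  Real.exp (∑ g ∈ A, y g * ind x g)

/-- The probability of `f ∈ x` under the tilted measure. -/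
noncomputable def tilt (μ : Measure (Set E)) (A : Finset E) (y : E → ℝ) (f : E) : ℝ :=
  (∫ x, ind x f * tw A y x ∂μ) / ∫ x, tw A y x ∂μ

/-- Limsup along the exhaustion `A · f` of the tilted marginal of `f`. -/
noncomputable def drift (μ : Measure (Set E)) (A : ℕ → E → Finset E) (f : E) (y : E → ℝ) : ℝ :=
  limsup (fun r => tilt μ (A r f) y f) atTop

lemma ind_nonneg (x : Set E) (g : E) : 0 ≤ ind x g := by
  unfold ind; exact Set.indicator_nonneg (fun _ _ => zero_le_one) _

lemma ind_le_one (x : Set E) (g : E) : ind x g ≤ 1 := by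
  unfold ind; exact Set.indicator_le' (fun _ _ => le_rfl) (fun _ _ => zero_le_one) _

lemma ind_of_mem {x : Set E} {g : E} (h : g ∈ x) : ind x g = 1 := by simp [ind, h]

lemma ind_of_notMem {x : Set E} {g : E} (h : g ∉ x) : ind x g = 0 := by simp [ind, h]

lemma measurable_ind (g : E) : Measurable fun x : Set E => ind x g := by
  classical
  have : (fun x : Set E => ind x g) = fun x => if g ∈ x then (1 : ℝ) else 0 := by
    funext x; simp [ind, Set.indicator_apply]
  rw [this]
  refine Measurable.ite ?_ measurable_const measurable_const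
  exact measurableSet_setOfPred.2 (measurable_set_mem g)

lemma tw_pos (A : Finset E) (y : E → ℝ) (x : Set E) : 0 < tw A y x := Real.exp_pos _

lemma measurable_tw (A : Finset E) :
    Measurable fun p : (E → ℝ) × Set E => tw A p.1 p.2 := by
  unfold tw
  refine Real.measurable_exp.comp (Finset.measurable_sum _ fun g _ => ?_)
  exact ((measurable_pi_apply g).comp measurable_fst).mul ((measurable_ind g).comp measurable_snd)

lemma measurable_tw' (A : Finset E) (y : E → ℝ) : Measurable fun x : Set E => tw A y x :=
  (measurable_tw A).comp (measurable_const.prodMk measurable_id)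

lemma tw_le (A : Finset E) (y : E → ℝ) (x : Set E) :
    tw A y x ≤ Real.exp (∑ g ∈ A, |y g|) := by
  unfold tw
  refine Real.exp_le_exp.2 (Finset.sum_le_sum fun g _ => ?_)
  have h1 := ind_nonneg x g
  have h2 := ind_le_one x g
  have h3 := le_abs_self (y g)
  have h4 := abs_nonneg (y g)
  nlinarith

lemma integrable_tw (μ : Measure (Set E)) [IsFiniteMeasure μ] (A : Finset E) (y : E → ℝ) :
    Integrable (tw A y) μ := by
  refine Integrable.of_bound (measurable_tw' A y).aestronglyMeasurable
    (Real.exp (∑ g ∈ A, |y g|)) (Eventually.of_forall fun x => ?_)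
  rw [Real.norm_eq_abs, abs_of_pos (tw_pos A y x)]
  exact tw_le A y x

lemma integrable_ind_mul_tw (μ : Measure (Set E)) [IsFiniteMeasure μ] (A : Finset E)
    (y : E → ℝ) (f : E) : Integrable (fun x => ind x f * tw A y x) μ := by
  refine Integrable.of_bound
    (((measurable_ind f).mul (measurable_tw' A y))).aestronglyMeasurable
    (Real.exp (∑ g ∈ A, |y g|)) (Eventually.of_forall fun x => ?_)
  rw [Real.norm_eq_abs, abs_of_nonneg (mul_nonneg (ind_nonneg _ _) (tw_pos A y x).le)]
  have h1 := ind_nonneg x f
  have h2 := ind_le_one x f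
  have h3 := tw_le A y x
  have h4 := tw_pos A y x
  nlinarith

lemma integral_tw_pos (μ : Measure (Set E)) [IsProbabilityMeasure μ] (A : Finset E)
    (y : E → ℝ) : 0 < ∫ x, tw A y x ∂μ := by
  have h := integral_pos_iff_support_of_nonneg (μ := μ) (f := tw A y)
    (fun x => (tw_pos A y x).le) (integrable_tw μ A y)
  rw [h]
  have : Function.support (tw A y) = Set.univ := by
    ext x; simp [(tw_pos A y x).ne']
  rw [this]; simp

lemma tilt_mem (μ : Measure (Set E)) [IsProbabilityMeasure μ] (A : Finset E) (y : E → ℝ)
    (f : E) : tilt μ A y f ∈ Icc (0 : ℝ) 1 := by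
  have hpos := integral_tw_pos μ A y
  constructor
  · refine div_nonneg (integral_nonneg fun x => ?_) hpos.le
    exact mul_nonneg (ind_nonneg _ _) (tw_pos A y x).le
  · unfold tilt
    rw [div_le_one hpos]
    refine integral_mono (integrable_ind_mul_tw μ A y f) (integrable_tw μ A y) fun x => ?_
    have h2 := ind_le_one x f
    have h4 := tw_pos A y x
    change ind x f * tw A y x ≤ tw A y x
    nlinarith

lemma limsup_le_limsup_add {a b : ℕ → ℝ} {δ : ℝ} (ha : ∀ r, a r ∈ Icc (0 : ℝ) 1)
    (hb : ∀ r, b r ∈ Icc (0 : ℝ) 1) (h : ∀ r, a r ≤ b r + δ) :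
    limsup a atTop ≤ limsup b atTop + δ := by
  have hbb : IsBoundedUnder (· ≤ ·) atTop b :=
    ⟨1, eventually_map.2 (Eventually.of_forall fun r => (hb r).2)⟩
  have hac : IsCoboundedUnder (· ≤ ·) atTop a :=
    IsBoundedUnder.isCoboundedUnder_le
      ⟨0, eventually_map.2 (Eventually.of_forall fun r => (ha r).1)⟩
  refine le_of_forall_pos_le_add fun ε hε => ?_
  have h1 : ∀ᶠ r in atTop, b r < limsup b atTop + ε :=
    eventually_lt_of_limsup_lt (by linarith) hbb
  refine limsup_le_of_le hac ?_
  filter_upwards [h1] with r hr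
  have := h r
  linarith

lemma limsup_mem {a : ℕ → ℝ} (ha : ∀ r, a r ∈ Icc (0 : ℝ) 1) :
    limsup a atTop ∈ Icc (0 : ℝ) 1 := by
  have hbb : IsBoundedUnder (· ≤ ·) atTop a :=
    ⟨1, eventually_map.2 (Eventually.of_forall fun r => (ha r).2)⟩
  have hac : IsCoboundedUnder (· ≤ ·) atTop a :=
    IsBoundedUnder.isCoboundedUnder_le
      ⟨0, eventually_map.2 (Eventually.of_forall fun r => (ha r).1)⟩
  constructor
  · refine le_limsup_of_frequently_le (Eventually.frequently ?_) hbb
    exact Eventually.of_forall fun r => (ha r).1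
  · exact limsup_le_of_le hac (Eventually.of_forall fun r => (ha r).2)

/-- The influence hypothesis: finitely tilted marginals are `1`-Lipschitz in the tilt for the
supremum norm. -/
def LipTilt (μ : Measure (Set E)) : Prop :=
  ∀ (A : Finset E) (f : E) (y y' : E → ℝ) (δ : ℝ), (∀ g, |y g - y' g| ≤ δ) →
    |tilt μ A y f - tilt μ A y' f| ≤ δ

lemma isDrift_drift {μ : Measure (Set E)} [IsProbabilityMeasure μ] (h : LipTilt μ)
    (A : ℕ → E → Finset E) : IsDrift (drift μ A) where
  mem f y := limsup_mem fun r => tilt_mem μ _ _ _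
  lip f y y' δ hy := by
    rw [abs_le]
    have k : ∀ y y' : E → ℝ, (∀ g, |y g - y' g| ≤ δ) → drift μ A f y ≤ drift μ A f y' + δ := by
      intro y y' hy
      refine limsup_le_limsup_add (fun r => tilt_mem μ _ _ _) (fun r => tilt_mem μ _ _ _)
        fun r => ?_
      have := (abs_le.1 (h (A r f) f y y' δ hy)).2
      linarith
    constructor
    · have := k y' y (fun g => by rw [abs_sub_comm]; exact hy g)
      linarith
    · have := k y y' hy
      linarith

section Measurability

variable {𝒢 : Type*} [MeasurableSpace 𝒢]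

lemma measurable_tilt {κ : 𝒢 → Measure (Set E)} (hκ : Measurable κ)
    (hp : ∀ G, IsProbabilityMeasure (κ G)) (A : Finset E) (f : E) :
    Measurable fun p : 𝒢 × (E → ℝ) => tilt (κ p.1) A p.2 f := by
  let K : Kernel (𝒢 × (E → ℝ)) (Set E) := ⟨fun p => κ p.1, hκ.comp measurable_fst⟩
  have : IsMarkovKernel K := ⟨fun p => hp p.1⟩
  have h1 : StronglyMeasurable fun p : 𝒢 × (E → ℝ) => ∫ x, tw A p.2 x ∂(K p) := by
    refine StronglyMeasurable.integral_kernel_prod_right (κ := K)
      (f := fun p x => tw A p.2 x) ?_
    exact ((measurable_tw A).comp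
      ((measurable_snd.comp measurable_fst).prodMk measurable_snd)).stronglyMeasurable
  have h2 : StronglyMeasurable fun p : 𝒢 × (E → ℝ) => ∫ x, ind x f * tw A p.2 x ∂(K p) := by
    refine StronglyMeasurable.integral_kernel_prod_right (κ := K)
      (f := fun p x => ind x f * tw A p.2 x) ?_
    exact (((measurable_ind f).comp measurable_snd).mul ((measurable_tw A).comp
      ((measurable_snd.comp measurable_fst).prodMk measurable_snd))).stronglyMeasurable
  exact h2.measurable.div h1.measurable

lemma measurable_drift [Countable E] {κ : 𝒢 → Measure (Set E)} (hκ : Measurable κ)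
    (hp : ∀ G, IsProbabilityMeasure (κ G)) {A : 𝒢 → ℕ → E → Finset E}
    (hA : ∀ r f S, MeasurableSet {G | A G r f = S}) (f : E) :
    Measurable fun p : 𝒢 × (E → ℝ) => drift (κ p.1) (A p.1) f p.2 := by
  unfold drift
  refine Measurable.limsup fun r => ?_
  let _ : MeasurableSpace (Finset E) := ⊤
  have h1 : Measurable fun G => A G r f := by
    refine measurable_to_countable' fun S => ?_
    exact hA r f S
  have h2 : Measurable fun q : (𝒢 × (E → ℝ)) × Finset E => tilt (κ q.1.1) q.2 q.1.2 f :=
    measurable_from_prod_countable_left fun S => measurable_tilt hκ hp S f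
  exact h2.comp (measurable_id.prodMk (h1.comp measurable_fst))

end Measurability

section Naturality

variable {E' : Type*} (e : E ≃ E')

lemma ind_image (x : Set E) (g : E) : ind (e '' x) (e g) = ind x g := by
  by_cases h : g ∈ x
  · rw [ind_of_mem h, ind_of_mem (Set.mem_image_of_mem e h)]
  · rw [ind_of_notMem h, ind_of_notMem]
    rwa [e.injective.mem_set_image]

lemma measurable_image : Measurable fun x : Set E => e '' x := by
  rw [measurable_set_iff]
  intro g'
  have : (fun x : Set E => g' ∈ e '' x) = fun x => e.symm g' ∈ x := by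
    funext x
    rw [Equiv.image_eq_preimage_symm]; rfl
  rw [this]
  exact measurable_set_mem _

lemma tilt_natural [DecidableEq E'] (μ : Measure (Set E)) (A : Finset E) (y : E → ℝ) (f : E) :
    tilt (μ.map fun x => e '' x) (A.image e) (y ∘ e.symm) (e f) = tilt μ A y f := by
  have key : ∀ x : Set E, tw (A.image e) (y ∘ e.symm) (e '' x) = tw A y x := by
    intro x
    unfold tw
    rw [Finset.sum_image (fun a _ b _ h => e.injective h)]
    congr 1
    refine Finset.sum_congr rfl fun g _ => ?_
    simp [ind_image]
  unfold tilt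
  congr 1
  · have h1 : Measurable fun x => ind x (e f) * tw (A.image e) (y ∘ e.symm) x :=
      (measurable_ind _).mul (measurable_tw' _ _)
    rw [integral_map (measurable_image e).aemeasurable h1.aestronglyMeasurable]
    simp only [key, ind_image]
  · rw [integral_map (measurable_image e).aemeasurable
      (measurable_tw' _ _).aestronglyMeasurable]
    simp only [key]

lemma drift_natural [DecidableEq E'] (μ : Measure (Set E)) (A : ℕ → E → Finset E)
    (A' : ℕ → E' → Finset E') (hA : ∀ r f, A' r (e f) = (A r f).image e) (f : E) (y : E → ℝ) :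
    drift (μ.map fun x => e '' x) A' (e f) (y ∘ e.symm) = drift μ A f y := by
  unfold drift
  simp_rw [hA, tilt_natural]

end Naturality

end Vale.Agent.P143
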