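import Vale.Agent.Lib.P143.FusfExist
import Vale.Agent.Lib.P143.Tilt

/-!
The free uniform spanning forest satisfies the influence hypothesis `LipTilt`.
-/

set_option linter.unusedSectionVars false

namespace Vale.Agent.P143

open Finset Filter Topology MeasureTheory
open scoped ENNReal

universe u

section Cyl

variable {E : Type*} [DecidableEq E]

lemma ind_eq_of_mem_cyl {F B : Finset E} {x : Set E} (hB : B ⊆ F) (hx : x ∈ cyl B (F \ B))
    {g : E} (hg : g ∈ F) : ind x g = ind (B : Set E) g := by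
  rw [mem_cyl] at hx
  by_cases hgB : g ∈ B
  · rw [ind_of_mem (hx.1 g hgB), ind_of_mem (Finset.mem_coe.mpr hgB)]
  · rw [ind_of_notMem (hx.2 g (Finset.mem_sdiff.mpr ⟨hg, hgB⟩)),
      ind_of_notMem (fun h => hgB (Finset.mem_coe.mp h))]

lemma tw_eq_of_mem_cyl {A F B : Finset E} (hAF : A ⊆ F) {x : Set E} (hB : B ⊆ F)
    (hx : x ∈ cyl B (F \ B)) (y : E → ℝ) : tw A y x = tw A y (B : Set E) := by
  unfold tw
  congr 1
  exact Finset.sum_congr rfl fun g hg => by rw [ind_eq_of_mem_cyl hB hx (hAF hg)]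

lemma exists_unique_cyl (F : Finset E) (x : Set E) :
    ∃ B ∈ F.powerset, x ∈ cyl B (F \ B) ∧ ∀ B' ∈ F.powerset, x ∈ cyl B' (F \ B') → B' = B := by
  classical
  refine ⟨F.filter (fun e => e ∈ x), Finset.mem_powerset.mpr (Finset.filter_subset _ _), ?_, ?_⟩
  · rw [mem_cyl]
    refine ⟨fun e he => (Finset.mem_filter.mp he).2, fun e he hex => ?_⟩
    rw [Finset.mem_sdiff] at he
    exact he.2 (Finset.mem_filter.mpr ⟨he.1, hex⟩)
  · intro B' hB' hx
    rw [mem_cyl] at hx
    rw [Finset.mem_powerset] at hB'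
    ext e
    rw [Finset.mem_filter]
    constructor
    · exact fun h => ⟨hB' h, hx.1 e h⟩
    · rintro ⟨h1, h2⟩
      by_contra h3
      exact hx.2 e (Finset.mem_sdiff.mpr ⟨h1, h3⟩) h2

lemma eq_sum_cyl (F : Finset E) (Φ : Finset E → ℝ) (h : Set E → ℝ)
    (hh : ∀ x (B : Finset E), B ⊆ F → x ∈ cyl B (F \ B) → h x = Φ B) (x : Set E) :
    h x = ∑ B ∈ F.powerset, (cyl B (F \ B)).indicator (fun _ => Φ B) x := by
  obtain ⟨B, hB, hx, huniq⟩ := exists_unique_cyl F x
  rw [Finset.sum_eq_single B]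
  · rw [Set.indicator_of_mem hx, hh x B (Finset.mem_powerset.mp hB) hx]
  · intro B' hB' hne
    rw [Set.indicator_of_notMem]
    exact fun hx' => hne (huniq B' hB' hx')
  · exact fun h => absurd hB h

lemma integral_cylfun (μ : Measure (Set E)) [IsFiniteMeasure μ] (F : Finset E)
    (Φ : Finset E → ℝ) (h : Set E → ℝ)
    (hh : ∀ x (B : Finset E), B ⊆ F → x ∈ cyl B (F \ B) → h x = Φ B) :
    ∫ x, h x ∂μ = ∑ B ∈ F.powerset, Φ B * μ.real (cyl B (F \ B)) := by
  have h1 : h = fun x => ∑ B ∈ F.powerset, (cyl B (F \ B)).indicator (fun _ => Φ B) x :=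
    funext fun x => eq_sum_cyl F Φ h hh x
  rw [h1, integral_finsetSum]
  · refine Finset.sum_congr rfl fun B _ => ?_
    rw [integral_indicator_const _ (measurableSet_cyl _ _), smul_eq_mul, mul_comm]
  · intro B _
    exact (integrable_const _).indicator (measurableSet_cyl _ _)

lemma sum_cylfun (𝒯 : Finset (Finset E)) (F : Finset E) (Φ : Finset E → ℝ) (h : Set E → ℝ)
    (hh : ∀ x (B : Finset E), B ⊆ F → x ∈ cyl B (F \ B) → h x = Φ B) :
    ∑ T ∈ 𝒯, h (T : Set E) = ∑ B ∈ F.powerset,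
      Φ B * ((𝒯.filter (fun T => B ⊆ T ∧ Disjoint (F \ B) T)).card : ℝ) := by
  simp_rw [eq_sum_cyl F Φ h hh]
  rw [Finset.sum_comm]
  refine Finset.sum_congr rfl fun B _ => ?_
  rw [Finset.card_filter]
  push_cast
  rw [Finset.mul_sum]
  refine Finset.sum_congr rfl fun T _ => ?_
  have h1 : (T : Set E) ∈ cyl B (F \ B) ↔ B ⊆ T ∧ Disjoint (F \ B) T := by
    unfold cyl
    rw [Set.mem_ofPred_eq, Finset.coe_subset, Finset.disjoint_coe]
  by_cases h2 : B ⊆ T ∧ Disjoint (F \ B) T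
  · rw [if_pos h2, Set.indicator_of_mem (h1.mpr h2), mul_one]
  · rw [if_neg h2, Set.indicator_of_notMem (fun h3 => h2 (h1.mp h3)), mul_zero]

end Cyl

variable {V : Type u} {G : SimpleGraph V}

lemma tendsto_cylfun [DecidableEq V] {μ : Measure (Set (Sym2 V))} (hμ : IsFUSF G μ)
    {H : ℕ → G.Subgraph} (hH : IsExhaustion G H) (F : Finset (Sym2 V))
    (Φ : Finset (Sym2 V) → ℝ) (h : Set (Sym2 V) → ℝ)
    (hh : ∀ x (B : Finset (Sym2 V)), B ⊆ F → x ∈ cyl B (F \ B) → h x = Φ B) :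
    Tendsto (fun n => (∑ T ∈ spTrees (H n), h (T : Set (Sym2 V))) / ((spTrees (H n)).card : ℝ))
      atTop (𝓝 (∫ x, h x ∂μ)) := by
  have := hμ.1
  rw [integral_cylfun μ F Φ h hh]
  have h1 : ∀ n, (∑ T ∈ spTrees (H n), h (T : Set (Sym2 V))) / ((spTrees (H n)).card : ℝ) =
      ∑ B ∈ F.powerset, Φ B * ustProb (H n) B (F \ B) := by
    intro n
    rw [sum_cylfun _ F Φ h hh, Finset.sum_div]
    refine Finset.sum_congr rfl fun B _ => ?_
    rw [ustProb_eq (hH.finite n), cylP, mul_div_assoc]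
  simp_rw [h1]
  exact tendsto_finsetSum _ fun B _ => (hμ.2 H hH B (F \ B)).const_mul _

lemma wt_eq_tw [DecidableEq V] (A : Finset (Sym2 V)) (y : Sym2 V → ℝ) (T : Finset (Sym2 V)) :
    wt (fun g => Real.exp (if g ∈ A then y g else 0)) T = tw A y (T : Set (Sym2 V)) := by
  unfold wt tw
  rw [← Real.exp_sum]
  congr 1
  have h1 : ∀ g, y g * ind (T : Set (Sym2 V)) g = if g ∈ T then y g else 0 := by
    intro g
    by_cases h : g ∈ T
    · rw [ind_of_mem (Finset.mem_coe.mpr h), if_pos h, mul_one]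
    · rw [ind_of_notMem (fun h' => h (Finset.mem_coe.mp h')), if_neg h, mul_zero]
  simp_rw [h1]
  rw [← Finset.sum_filter, ← Finset.sum_filter]
  refine Finset.sum_congr ?_ fun _ _ => rfl
  ext g
  simp only [Finset.mem_filter]
  tauto

lemma tendsto_pin_tilt [DecidableEq V] {μ : Measure (Set (Sym2 V))} (hμ : IsFUSF G μ)
    {H : ℕ → G.Subgraph} (hH : IsExhaustion G H) (A : Finset (Sym2 V)) (y : Sym2 V → ℝ)
    (f : Sym2 V) :
    Tendsto (fun n => pin (spTrees (H n)) (fun g => Real.exp (if g ∈ A then y g else 0)) f)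
      atTop (𝓝 (tilt μ A y f)) := by
  have := hμ.1
  have h1 := tendsto_cylfun hμ hH (insert f A) (fun B => tw A y (B : Set (Sym2 V)))
    (fun x => tw A y x) (fun x B hB hx => tw_eq_of_mem_cyl (Finset.subset_insert f A) hB hx y)
  have h2 := tendsto_cylfun hμ hH (insert f A)
    (fun B => ind (B : Set (Sym2 V)) f * tw A y (B : Set (Sym2 V)))
    (fun x => ind x f * tw A y x) (fun x B hB hx => by
      rw [tw_eq_of_mem_cyl (Finset.subset_insert f A) hB hx y,
        ind_eq_of_mem_cyl hB hx (Finset.mem_insert_self f A)])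
  have h3 := h2.div h1 (integral_tw_pos μ A y).ne'
  refine h3.congr fun n => ?_
  have hcard : ((spTrees (H n)).card : ℝ) ≠ 0 := by
    have := Finset.card_pos.mpr (spTrees_nonempty (hH.finite n) (hH.connected n))
    positivity
  rw [Pi.div_apply, div_div_div_cancel_right₀ hcard]
  unfold pin
  congr 1
  · unfold Zin
    rw [Finset.sum_filter]
    refine Finset.sum_congr rfl fun T _ => ?_
    rw [wt_eq_tw]
    by_cases h : f ∈ T
    · rw [ind_of_mem (Finset.mem_coe.mpr h), if_pos h, one_mul]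
    · rw [ind_of_notMem (fun h' => h (Finset.mem_coe.mp h')), if_neg h, zero_mul]
  · unfold ZZ
    refine Finset.sum_congr rfl fun T _ => ?_
    rw [wt_eq_tw]

/-- The influence hypothesis holds for the free uniform spanning forest. -/
theorem IsFUSF.lipTilt [Countable V] (hG : G.Connected) {μ : Measure (Set (Sym2 V))}
    (hμ : IsFUSF G μ) : LipTilt μ := by
  classical
  intro A f y y' δ hδ
  obtain ⟨H, hH⟩ := exists_isExhaustion hG
  have hδ0 : 0 ≤ δ := (abs_nonneg _).trans (hδ f)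
  have h1 := tendsto_pin_tilt hμ hH A y f
  have h2 := tendsto_pin_tilt hμ hH A y' f
  refine le_of_tendsto (h1.sub h2).abs (Eventually.of_forall fun n => ?_)
  refine abs_pin_sub_le (hH.finite n) (hH.connected n) hδ0 (fun g => ?_) f
  by_cases hg : g ∈ A
  · rw [if_pos hg, if_pos hg]; exact hδ g
  · rw [if_neg hg, if_neg hg, sub_zero, abs_zero]; exact hδ0

end Vale.Agent.P143
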