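import Vale.Agent.Lib.P143.Defs

/-!
Splitting one uniform label into countably many, and laws of random relabellings.
-/

namespace Vale.Agent.P143

open MeasureTheory ProbabilityTheory
open scoped unitInterval

universe u v

/-- i.i.d. uniform labels indexed by `J` -/
noncomputable def unif (J : Type*) : Measure (J → I) :=
  Measure.infinitePi (fun _ : J => (volume : Measure I))

instance instProbUnif (J : Type*) : IsProbabilityMeasure (unif J) := by
  unfold unif; infer_instance

lemma exists_splitI : ∃ s : I → (Option (ℕ × ℕ) → I), Measurable s ∧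
    (volume : Measure I).map s = unif (Option (ℕ × ℕ)) :=
  Measure.exists_measurable_map_eq _

/-- split one uniform variable into countably many -/
noncomputable def splitI : I → (Option (ℕ × ℕ) → I) := exists_splitI.choose

lemma measurable_splitI : Measurable splitI := exists_splitI.choose_spec.1

lemma map_splitI : (volume : Measure I).map splitI = unif (Option (ℕ × ℕ)) :=
  exists_splitI.choose_spec.2

/-- A random injection of labels, independent of the labels, produces i.i.d. labels. -/
lemma law_of_random_injection {Θ : Type*} [MeasurableSpace Θ] (ν : Measure Θ)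
    [IsProbabilityMeasure ν] {J K : Type*} (L : Θ × (J → I) → (K → I)) (hL : Measurable L)
    (h : ∀ᵐ θ ∂ν, ∃ i : K → J, Function.Injective i ∧ ∀ X k, L (θ, X) k = X (i k)) :
    (ν.prod (unif J)).map L = unif K := by
  refine Measure.eq_infinitePi _ fun s t ht => ?_
  have hm : MeasurableSet (Set.pi (s : Set K) t) :=
    MeasurableSet.pi s.countable_toSet fun _ _ => ht _
  rw [Measure.map_apply hL hm, Measure.prod_apply (hL hm)]
  have h1 : ∀ᵐ θ ∂ν, unif J (Prod.mk θ ⁻¹' (L ⁻¹' (Set.pi (s : Set K) t))) =
      ∏ k ∈ s, (volume : Measure I) (t k) := by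
    filter_upwards [h] with θ hθ
    obtain ⟨i, hi, hLi⟩ := hθ
    have h2 : Prod.mk θ ⁻¹' (L ⁻¹' (Set.pi (s : Set K) t)) =
        (fun (X : J → I) (k : K) => X (i k)) ⁻¹' (Set.pi (s : Set K) t) := by
      ext X
      simp only [Set.mem_preimage, Set.mem_pi, hLi]
    have h3 : (unif J).map (fun (X : J → I) (k : K) => X (i k)) = unif K :=
      Measure.map_infinitePi_infinitePi_of_inj hi
    have h4 : Measurable (fun (X : J → I) (k : K) => X (i k)) :=
      measurable_pi_lambda _ fun k => measurable_pi_apply _
    rw [h2, ← Measure.map_apply h4 hm, h3]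
    exact Measure.infinitePi_pi _ fun k _ => ht k
  rw [lintegral_congr_ae h1]
  simp

variable {V : Type u}

/-- tie-break labels and arrays read off from the vertex labels -/
noncomputable def unzipL (U : V → I) : (V → I) × (V × (ℕ × ℕ) → I) :=
  (fun v => splitI (U v) none, fun j => splitI (U j.1) (some j.2))

lemma measurable_unzipL : Measurable (unzipL : (V → I) → _) := by
  refine Measurable.prodMk (measurable_pi_lambda _ fun v => ?_)
    (measurable_pi_lambda _ fun j => ?_)
  · exact (measurable_pi_apply none).comp (measurable_splitI.comp (measurable_pi_apply v))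
  · exact (measurable_pi_apply (some j.2)).comp (measurable_splitI.comp (measurable_pi_apply j.1))

/-- combine the two families of labels into one -/
def zipL {A : Type*} (p : (V → I) × (V × A → I)) : V × Option A → I
  | (v, none) => p.1 v
  | (v, some a) => p.2 (v, a)

lemma measurable_zipL {A : Type*} : Measurable (zipL : (V → I) × (V × A → I) → _) := by
  refine measurable_pi_lambda _ fun j => ?_
  rcases j with ⟨v, _ | a⟩
  · exact (measurable_pi_apply v).comp measurable_fst
  · exact (measurable_pi_apply (v, a)).comp measurable_snd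

lemma map_zipL {A : Type*} :
    ((unif V).prod (unif (V × A))).map zipL = unif (V × Option A) := by
  classical
  refine Measure.eq_infinitePi _ fun s t ht => ?_
  have hm : MeasurableSet (Set.pi (s : Set (V × Option A)) t) :=
    MeasurableSet.pi s.countable_toSet fun _ _ => ht _
  set e1 : V ↪ V × Option A := ⟨fun v => (v, none), fun a b h => (Prod.mk.inj h).1⟩ with he1
  set e2 : V × A ↪ V × Option A := ⟨fun p => (p.1, some p.2), fun a b h => by
    obtain ⟨h1, h2⟩ := Prod.mk.inj h
    exact Prod.ext h1 (Option.some.inj h2)⟩ with he2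
  set s1 : Finset V := s.preimage e1 e1.injective.injOn with hs1
  set s2 : Finset (V × A) := s.preimage e2 e2.injective.injOn with hs2
  have hs : s = s1.map e1 ∪ s2.map e2 := by
    ext ⟨v, o⟩
    rw [Finset.mem_union, Finset.mem_map, Finset.mem_map]
    constructor
    · intro h
      rcases o with _ | a
      · exact Or.inl ⟨v, Finset.mem_preimage.mpr h, rfl⟩
      · exact Or.inr ⟨(v, a), Finset.mem_preimage.mpr h, rfl⟩
    · rintro (⟨v', h, h'⟩ | ⟨p, h, h'⟩)
      · rw [← h']; exact Finset.mem_preimage.mp h
      · rw [← h']; exact Finset.mem_preimage.mp h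
  have hdisj : Disjoint (s1.map e1) (s2.map e2) := by
    rw [Finset.disjoint_left]
    intro x hx hx'
    obtain ⟨v, _, rfl⟩ := Finset.mem_map.mp hx
    obtain ⟨p, _, hp⟩ := Finset.mem_map.mp hx'
    have h0 : (some p.2 : Option A) = none := congrArg Prod.snd hp
    exact Option.some_ne_none _ h0
  have hpre : zipL ⁻¹' (Set.pi (s : Set (V × Option A)) t) =
      (Set.pi (s1 : Set V) fun v => t (e1 v)) ×ˢ (Set.pi (s2 : Set (V × A)) fun p => t (e2 p)) := by
    ext ⟨x, y⟩
    simp only [Set.mem_preimage, Set.mem_pi, Set.mem_prod, Finset.mem_coe]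
    constructor
    · intro h
      refine ⟨fun v hv => h (e1 v) ?_, fun p hp => h (e2 p) ?_⟩
      · exact Finset.mem_preimage.mp hv
      · exact Finset.mem_preimage.mp hp
    · rintro ⟨h1, h2⟩ ⟨v, o⟩ hj
      rcases o with _ | a
      · exact h1 v (Finset.mem_preimage.mpr hj)
      · exact h2 (v, a) (Finset.mem_preimage.mpr hj)
  rw [Measure.map_apply measurable_zipL hm, hpre, Measure.prod_prod]
  unfold unif
  rw [Measure.infinitePi_pi _ fun v _ => ht _, Measure.infinitePi_pi _ fun p _ => ht _]
  conv_rhs => rw [hs]
  rw [Finset.prod_union hdisj, Finset.prod_map, Finset.prod_map]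

/-- read off the two families from the combined family -/
def unzip' {A : Type*} (ω : V × Option A → I) : (V → I) × (V × A → I) :=
  (fun v => ω (v, none), fun j => ω (j.1, some j.2))

lemma measurable_unzip' {A : Type*} : Measurable (unzip' : (V × Option A → I) → _) :=
  Measurable.prodMk (measurable_pi_lambda _ fun _ => measurable_pi_apply _)
    (measurable_pi_lambda _ fun _ => measurable_pi_apply _)

lemma unzip'_zipL {A : Type*} (p : (V → I) × (V × A → I)) : unzip' (zipL p) = p := rfl

/-- the joint law of tie-break labels and arrays -/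
theorem map_unzipL : (unif V).map unzipL = (unif V).prod (unif (V × (ℕ × ℕ))) := by
  have h1 : (unif V).map (fun (U : V → I) (v : V) => splitI (U v)) =
      Measure.infinitePi (fun _ : V => unif (Option (ℕ × ℕ))) := by
    unfold unif
    rw [Measure.infinitePi_map_pi _ fun _ => measurable_splitI]
    congr 1
    funext _
    exact map_splitI
  have hm1 : Measurable (fun (U : V → I) (v : V) => splitI (U v)) :=
    measurable_pi_lambda _ fun v => measurable_splitI.comp (measurable_pi_apply v)
  have h2 : (Measure.infinitePi (fun _ : V => unif (Option (ℕ × ℕ)))).map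
      (MeasurableEquiv.curry V (Option (ℕ × ℕ)) I).symm = unif (V × Option (ℕ × ℕ)) :=
    Measure.infinitePi_map_curry_symm (fun (_ : V) (_ : Option (ℕ × ℕ)) => (volume : Measure I))
  have h3 : (unif (V × Option (ℕ × ℕ))).map unzip' =
      (unif V).prod (unif (V × (ℕ × ℕ))) := by
    rw [← map_zipL, Measure.map_map measurable_unzip' measurable_zipL]
    have : (unzip' ∘ zipL : (V → I) × (V × (ℕ × ℕ) → I) → _) = id := by
      funext p; exact unzip'_zipL p
    rw [this, Measure.map_id]
  rw [← h3, ← h2, ← h1, Measure.map_map (MeasurableEquiv.measurable _) hm1,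
    Measure.map_map measurable_unzip' ((MeasurableEquiv.measurable _).comp hm1)]
  rfl

/-- i.i.d. uniform labels on a countable set are almost surely distinct -/
lemma ae_injective [Countable V] : ∀ᵐ U ∂(unif V), Function.Injective U := by
  have h : ∀ v w : V, v ≠ w → ∀ᵐ U ∂(unif V), U v ≠ U w := by
    intro v w hvw
    have h1 : (unif V).map (fun U => (U v, U w)) = (volume : Measure I).prod volume :=
      Measure.infinitePi_map_eval_prod hvw
    have h2 : Measurable (fun U : V → I => (U v, U w)) :=
      (measurable_pi_apply v).prodMk (measurable_pi_apply w)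
    have hd : MeasurableSet {p : I × I | p.1 = p.2} :=
      measurableSet_eq_fun measurable_fst measurable_snd
    have h3 : unif V {U | U v = U w} = 0 := by
      have h4 : {U : V → I | U v = U w} = (fun U : V → I => (U v, U w)) ⁻¹'
          {p : I × I | p.1 = p.2} := rfl
      rw [h4, ← Measure.map_apply h2 hd, h1, Measure.prod_apply hd]
      have h5 : ∀ x : I, (volume : Measure I) (Prod.mk x ⁻¹' {p : I × I | p.1 = p.2}) = 0 := by
        intro x
        have : Prod.mk x ⁻¹' {p : I × I | p.1 = p.2} = {x} := by
          ext y
          simp [eq_comm]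
        rw [this]
        exact measure_singleton x
      rw [lintegral_congr h5]
      simp
    rw [ae_iff]
    simpa using h3
  have h' : ∀ᵐ U ∂(unif V), ∀ v w : V, v ≠ w → U v ≠ U w := by
    rw [ae_all_iff]
    intro v
    rw [ae_all_iff]
    intro w
    by_cases hvw : v = w
    · exact Filter.Eventually.of_forall fun U h => absurd hvw h
    · filter_upwards [h v w hvw] with U hU _ using hU
  filter_upwards [h'] with U hU v w hvw
  by_contra hne
  exact hU v w hne hvw

end Vale.Agent.P143
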