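import Vale.Agent.Lib.P143.Ball
import Vale.Agent.Lib.P143.LabelsLaw
import Vale.Agent.Lib.P143.Bayes

/-!
I.i.d. uniform labels on all pairs of vertices from i.i.d. uniform labels on the vertices of a
connected locally finite graph, in a measurable and natural way.
-/

set_option linter.unusedSectionVars false

namespace Vale.Agent.P143

open MeasureTheory ProbabilityTheory
open scoped unitInterval

universe u v

section Generic

variable {α : Type*} [MeasurableSpace α]

lemma measurable_sInf_nat (S : α → ℕ → Prop) (h : ∀ n, MeasurableSet {a | S a n}) :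
    Measurable (fun a => sInf {n | S a n}) := by
  refine measurable_to_countable' fun n => ?_
  have h1 : (fun a => sInf {n | S a n}) ⁻¹' {n} =
      ({a | S a n} ∩ ⋂ m ∈ {m | m < n}, {a | S a m}ᶜ) ∪
        ((⋂ m, {a | S a m}ᶜ) ∩ {_a | n = 0}) := by
    ext a
    simp only [Set.mem_preimage, Set.mem_singleton_iff, Set.mem_union, Set.mem_inter_iff,
      Set.mem_ofPred_eq, Set.mem_iInter, Set.mem_compl_iff]
    constructor
    · intro ha
      rcases Set.eq_empty_or_nonempty {n | S a n} with he | hne
      · right
        refine ⟨fun m hm => ?_, ?_⟩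
        · have : m ∈ {n | S a n} := hm
          rw [he] at this
          exact this
        · rw [he, Nat.sInf_empty] at ha
          exact ha.symm
      · left
        refine ⟨?_, fun m hm hS => ?_⟩
        · have := Nat.sInf_mem hne
          rw [ha] at this
          exact this
        · have : sInf {n | S a n} ≤ m := Nat.sInf_le hS
          omega
    · rintro (⟨h1, h2⟩ | ⟨h1, h2⟩)
      · refine le_antisymm (Nat.sInf_le h1) ?_
        by_contra hlt
        push Not at hlt
        exact h2 _ hlt (Nat.sInf_mem ⟨n, h1⟩)
      · have : {n | S a n} = ∅ := Set.eq_empty_iff_forall_notMem.mpr h1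
        rw [this, Nat.sInf_empty, h2]
  rw [h1]
  refine MeasurableSet.union ((h n).inter ?_) (MeasurableSet.inter ?_ (MeasurableSet.const _))
  · exact MeasurableSet.biInter (Set.to_countable _) fun m _ => (h m).compl
  · exact MeasurableSet.iInter fun m => (h m).compl

lemma measurable_ncard {β : Type*} [Countable β] (S : α → Set β)
    (h : ∀ b, MeasurableSet {a | b ∈ S a}) : Measurable (fun a => (S a).ncard) := by
  have hpos : ∀ n, n ≠ 0 → MeasurableSet ((fun a => (S a).ncard) ⁻¹' {n}) := by
    intro n hn
    have h1 : (fun a => (S a).ncard) ⁻¹' {n} =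
        ⋃ t ∈ {t : Finset β | t.card = n}, {a | S a = (t : Set β)} := by
      ext a
      simp only [Set.mem_preimage, Set.mem_singleton_iff, Set.mem_iUnion, Set.mem_ofPred_eq,
        exists_prop]
      constructor
      · intro ha
        have hfin : (S a).Finite := Set.finite_of_ncard_ne_zero (by rw [ha]; exact hn)
        refine ⟨hfin.toFinset, ?_, by simp⟩
        rw [← ha, Set.ncard_eq_toFinset_card _ hfin]
      · rintro ⟨t, ht, hS⟩
        rw [hS, Set.ncard_coe_finset, ht]
    rw [h1]
    refine MeasurableSet.biUnion (Set.to_countable _) fun t _ => ?_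
    have h2 : {a | S a = (t : Set β)} =
        (⋂ b ∈ {b | b ∈ t}, {a | b ∈ S a}) ∩ ⋂ b ∈ {b | b ∉ t}, {a | b ∈ S a}ᶜ := by
      ext a
      simp only [Set.mem_ofPred_eq, Set.mem_inter_iff, Set.mem_iInter, Set.mem_compl_iff]
      constructor
      · intro hS
        refine ⟨fun b hb => ?_, fun b hb hbS => hb ?_⟩
        · rw [hS]; exact Finset.mem_coe.mpr hb
        · rw [hS] at hbS; exact Finset.mem_coe.mp hbS
      · rintro ⟨h3, h4⟩
        ext b
        constructor
        · intro hb
          by_contra hbt
          exact h4 b (fun h' => hbt (Finset.mem_coe.mpr h')) hb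
        · exact fun hb => h3 b (Finset.mem_coe.mp hb)
    rw [h2]
    exact (MeasurableSet.biInter (Set.to_countable _) fun b _ => h b).inter
      (MeasurableSet.biInter (Set.to_countable _) fun b _ => (h b).compl)
  refine measurable_to_countable' fun n => ?_
  by_cases hn : n = 0
  · subst hn
    have h1 : (fun a => (S a).ncard) ⁻¹' {0} =
        ⋂ n ∈ {n : ℕ | n ≠ 0}, ((fun a => (S a).ncard) ⁻¹' {n})ᶜ := by
      ext a
      simp only [Set.mem_preimage, Set.mem_singleton_iff, Set.mem_iInter, Set.mem_compl_iff,
        Set.mem_ofPred_eq]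
      constructor
      · intro ha n hn h'
        exact hn (h'.symm.trans ha)
      · intro h'
        by_contra hne
        exact h' _ hne rfl
    rw [h1]
    exact MeasurableSet.biInter (Set.to_countable _) fun n hn => (hpos n hn).compl
  · exact hpos n hn

end Generic

variable {V : Type u} {W : Type v}

/-- distance to `v`, through balls -/
noncomputable def level (G : SimpleGraph V) (v w : V) : ℕ := sInf {n | w ∈ ball G n v}

/-- the exploration order around `v`, ties broken by `u` -/
def before (G : SimpleGraph V) (u : V → I) (v w' w : V) : Prop :=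
  level G v w' < level G v w ∨ (level G v w' = level G v w ∧ u w' < u w)

/-- the rank of `w` in the exploration order around `v` -/
noncomputable def rank (G : SimpleGraph V) (u : V → I) (v w : V) : ℕ :=
  {w' | before G u v w' w}.ncard

lemma level_map (τ : V ≃ W) (G : SimpleGraph V) (v w : V) :
    level (G.map τ.toEmbedding) (τ v) (τ w) = level G v w := by
  unfold level
  simp only [mem_ball_map]

lemma rank_map (τ : V ≃ W) (G : SimpleGraph V) (u : V → I) (v w : V) :
    rank (G.map τ.toEmbedding) (fun x => u (τ.symm x)) (τ v) (τ w) = rank G u v w := by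
  unfold rank
  have h : {w' | before (G.map τ.toEmbedding) (fun x => u (τ.symm x)) (τ v) w' (τ w)} =
      τ '' {w' | before G u v w' w} := by
    ext x
    obtain ⟨x', rfl⟩ := τ.surjective x
    rw [τ.injective.mem_set_image]
    simp only [Set.mem_ofPred_eq, before, level_map, Equiv.symm_apply_apply]
  rw [h, Set.ncard_image_of_injective _ τ.injective]

lemma measurable_level [Countable V] (v w : V) :
    Measurable (fun G : SimpleGraph V => level G v w) :=
  measurable_sInf_nat (fun G n => w ∈ ball G n v) fun n => measurableSet_mem_ball n v w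

lemma measurableSet_before [Countable V] (v w' w : V) :
    MeasurableSet {p : SimpleGraph V × (V → I) | before p.1 p.2 v w' w} := by
  have h1 : Measurable (fun p : SimpleGraph V × (V → I) => level p.1 v w') :=
    (measurable_level v w').comp measurable_fst
  have h2 : Measurable (fun p : SimpleGraph V × (V → I) => level p.1 v w) :=
    (measurable_level v w).comp measurable_fst
  have h3 : Measurable (fun p : SimpleGraph V × (V → I) => p.2 w') :=
    (measurable_pi_apply w').comp measurable_snd
  have h4 : Measurable (fun p : SimpleGraph V × (V → I) => p.2 w) :=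
    (measurable_pi_apply w).comp measurable_snd
  have h5 : MeasurableSet {p : SimpleGraph V × (V → I) | p.2 w' < p.2 w} :=
    measurableSet_lt h3 h4
  exact (measurableSet_lt h1 h2).union ((measurableSet_eq_fun h1 h2).inter h5)

lemma measurable_rank [Countable V] (v w : V) :
    Measurable (fun p : SimpleGraph V × (V → I) => rank p.1 p.2 v w) :=
  measurable_ncard (fun p : SimpleGraph V × (V → I) => {w' | before p.1 p.2 v w' w})
    fun w' => measurableSet_before v w' w

section Inj

variable {G : SimpleGraph V}

lemma mem_ball_level (hG : G.Connected) (v w : V) : w ∈ ball G (level G v w) v :=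
  Nat.sInf_mem (exists_mem_ball hG v w)

lemma finite_before (hG : G.Connected) (hf : ∀ v, (G.neighborSet v).Finite) (u : V → I)
    (v w : V) : {w' | before G u v w' w}.Finite := by
  refine (finite_ball hf (level G v w) v).subset fun w' hw' => ?_
  have h1 : level G v w' ≤ level G v w := by
    rcases hw' with h | h
    · exact h.le
    · exact h.1.le
  exact ball_mono G v h1 (mem_ball_level hG v w')

lemma before_trans {u : V → I} {v a b c : V} (h1 : before G u v a b) (h2 : before G u v b c) :
    before G u v a c := by
  rcases h1 with h1 | ⟨h1, h1'⟩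
  · rcases h2 with h2 | ⟨h2, _⟩
    · exact Or.inl (h1.trans h2)
    · exact Or.inl (h1.trans_eq h2)
  · rcases h2 with h2 | ⟨h2, h2'⟩
    · exact Or.inl (h1 ▸ h2)
    · exact Or.inr ⟨h1.trans h2, h1'.trans h2'⟩

lemma before_irrefl {u : V → I} {v a : V} : ¬ before G u v a a := by
  rintro (h | ⟨_, h⟩)
  · exact lt_irrefl _ h
  · exact lt_irrefl _ h

lemma rank_lt (hG : G.Connected) (hf : ∀ v, (G.neighborSet v).Finite) {u : V → I} {v a b : V}
    (h : before G u v a b) : rank G u v a < rank G u v b := by
  refine Set.ncard_lt_ncard ?_ (finite_before hG hf u v b)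
  refine ⟨fun c hc => before_trans hc h, fun hsub => ?_⟩
  exact before_irrefl (hsub h)

lemma rank_injective (hG : G.Connected) (hf : ∀ v, (G.neighborSet v).Finite) {u : V → I}
    (hu : Function.Injective u) (v : V) : Function.Injective (rank G u v) := by
  intro a b hab
  by_contra hne
  have hune : u a ≠ u b := fun h => hne (hu h)
  rcases lt_trichotomy (level G v a) (level G v b) with h | h | h
  · exact (rank_lt hG hf (Or.inl h)).ne hab
  · rcases lt_or_gt_of_ne hune with h' | h'
    · exact (rank_lt hG hf (Or.inr ⟨h, h'⟩)).ne hab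
    · exact (rank_lt hG hf (Or.inr ⟨h.symm, h'⟩)).ne hab.symm
  · exact (rank_lt hG hf (Or.inl h)).ne hab.symm

end Inj

open Classical in
/-- choose the label owned by the endpoint with the smaller tie-break label -/
noncomputable def pick (a b x y : I) : I :=
  if a < b then x else if b < a then y else min x y

lemma pick_symm (a b x y : I) : pick a b x y = pick b a y x := by
  unfold pick
  rcases lt_trichotomy a b with h | h | h
  · rw [if_pos h, if_neg h.not_gt, if_pos h]
  · rw [h, if_neg (lt_irrefl _), if_neg (lt_irrefl _), if_neg (lt_irrefl _),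
      if_neg (lt_irrefl _), min_comm]
  · rw [if_neg h.not_gt, if_pos h, if_pos h]

lemma measurable_pick {α : Type*} [MeasurableSpace α] {a b x y : α → I} (ha : Measurable a)
    (hb : Measurable b) (hx : Measurable x) (hy : Measurable y) :
    Measurable (fun p => pick (a p) (b p) (x p) (y p)) := by
  have h1 : MeasurableSet {p | a p < b p} := measurableSet_lt ha hb
  have h2 : MeasurableSet {p | b p < a p} := measurableSet_lt hb ha
  exact Measurable.ite h1 hx (Measurable.ite h2 hy (hx.min hy))

/-- the label of the pair `v, w` -/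
noncomputable def lab2 (G : SimpleGraph V) (u : V → I) (X : V × (ℕ × ℕ) → I) (k : ℕ)
    (v w : V) : I :=
  pick (u v) (u w) (X (v, (rank G u v w, k))) (X (w, (rank G u w v, k)))

lemma lab2_symm (G : SimpleGraph V) (u : V → I) (X : V × (ℕ × ℕ) → I) (k : ℕ) (v w : V) :
    lab2 G u X k v w = lab2 G u X k w v :=
  pick_symm _ _ _ _

/-- labels of all pairs, from tie-break labels and arrays -/
noncomputable def labX (G : SimpleGraph V) (u : V → I) (X : V × (ℕ × ℕ) → I)
    (p : ℕ × Sym2 V) : I :=
  Sym2.lift ⟨lab2 G u X p.1, lab2_symm G u X p.1⟩ p.2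

/-- labels of all pairs, from vertex labels -/
noncomputable def lab (G : SimpleGraph V) (U : V → I) : ℕ × Sym2 V → I :=
  labX G (unzipL U).1 (unzipL U).2

lemma measurable_evalX {α : Type*} [MeasurableSpace α] {f : α → ℕ}
    {X : α → (V × (ℕ × ℕ) → I)} (hf : Measurable f) (hX : Measurable X) (v : V) (k : ℕ) :
    Measurable (fun a => X a (v, (f a, k))) := by
  have h1 : Measurable (fun p : ℕ × (V × (ℕ × ℕ) → I) => p.2 (v, (p.1, k))) :=
    measurable_from_prod_countable_right fun n => measurable_pi_apply (v, (n, k))
  exact h1.comp (hf.prodMk hX)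

lemma measurable_rank_comp [Countable V] {α : Type*} [MeasurableSpace α]
    {g : α → SimpleGraph V} {t : α → V → I} (hg : Measurable g) (ht : Measurable t) (v w : V) :
    Measurable fun a => rank (g a) (t a) v w := by
  have h1 : Measurable (fun a => (g a, t a)) := hg.prodMk ht
  have h2 := measurable_rank (V := V) v w
  have h3 : Measurable ((fun p : SimpleGraph V × (V → I) => rank p.1 p.2 v w) ∘
    (fun a => (g a, t a))) := h2.comp h1
  simpa only [Function.comp_def] using h3

lemma measurable_lab2 [Countable V] {α : Type*} [MeasurableSpace α] {g : α → SimpleGraph V}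
    {u : α → V → I} {X : α → (V × (ℕ × ℕ) → I)} (hg : Measurable g) (hu : Measurable u)
    (hX : Measurable X) (k : ℕ) (v w : V) :
    Measurable (fun a => lab2 (g a) (u a) (X a) k v w) := by
  have huv : ∀ v, Measurable fun a => u a v := fun v => (measurable_pi_apply v).comp hu
  have hr : ∀ v w, Measurable fun a => rank (g a) (u a) v w := fun v w =>
    measurable_rank_comp hg hu v w
  have hXv : ∀ v w, Measurable fun a => X a (v, (rank (g a) (u a) v w, k)) := fun v w =>
    measurable_evalX (hr v w) hX v k
  exact measurable_pick (huv v) (huv w) (hXv v w) (hXv w v)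

lemma measurable_labX [Countable V] {α : Type*} [MeasurableSpace α] {g : α → SimpleGraph V}
    {u : α → V → I} {X : α → (V × (ℕ × ℕ) → I)} (hg : Measurable g) (hu : Measurable u)
    (hX : Measurable X) : Measurable (fun a => labX (g a) (u a) (X a)) := by
  refine measurable_pi_lambda _ fun p => ?_
  obtain ⟨k, e⟩ := p
  induction e using Sym2.ind with
  | _ v w => exact measurable_lab2 hg hu hX k v w

/-- (L1) joint measurability -/
theorem measurable_lab [Countable V] :
    Measurable (fun p : SimpleGraph V × (V → I) => lab p.1 p.2) := by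
  have h1 : Measurable (fun p : SimpleGraph V × (V → I) => unzipL p.2) :=
    measurable_unzipL.comp measurable_snd
  exact measurable_labX measurable_fst (measurable_fst.comp h1) (measurable_snd.comp h1)

/-- (L2) naturality -/
theorem lab_map (τ : V ≃ W) (G : SimpleGraph V) (U : V → I) (k : ℕ) (e : Sym2 V) :
    lab (G.map τ.toEmbedding) (fun w => U (τ.symm w)) (k, Sym2.map τ e) = lab G U (k, e) := by
  induction e using Sym2.ind with
  | _ v w =>
    change lab2 (G.map τ.toEmbedding) (fun x => (unzipL U).1 (τ.symm x))
      (fun j => (unzipL U).2 (τ.symm j.1, j.2)) k (τ v) (τ w) =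
        lab2 G (unzipL U).1 (unzipL U).2 k v w
    unfold lab2
    simp only [rank_map, Equiv.symm_apply_apply]

/-- (L3) the labels of the pairs are i.i.d. uniform -/
theorem map_lab [Countable V] {G : SimpleGraph V} (hG : G.Connected)
    (hf : ∀ v, (G.neighborSet v).Finite) :
    (iidUniform V).map (lab G) = noise (Sym2 V) := by
  have hm : Measurable (fun p : (V → I) × (V × (ℕ × ℕ) → I) => labX G p.1 p.2) :=
    measurable_labX measurable_const measurable_fst measurable_snd
  have h1 : lab G = (fun p : (V → I) × (V × (ℕ × ℕ) → I) => labX G p.1 p.2) ∘ unzipL := rfl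
  have h2 : iidUniform V = unif V := rfl
  have h3 : noise (Sym2 V) = unif (ℕ × Sym2 V) := rfl
  rw [h1, h2, h3, ← Measure.map_map hm measurable_unzipL, map_unzipL]
  refine law_of_random_injection (unif V) _ hm ?_
  filter_upwards [ae_injective (V := V)] with u hu
  have hown : ∀ e : Sym2 V, ∃ p : V × V, e = s(p.1, p.2) ∧ u p.1 ≤ u p.2 := by
    intro e
    induction e using Sym2.ind with
    | _ v w =>
      rcases le_total (u v) (u w) with h | h
      · exact ⟨(v, w), rfl, h⟩
      · exact ⟨(w, v), Sym2.eq_swap, h⟩
  choose q hq1 hq2 using hown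
  refine ⟨fun p => ((q p.2).1, (rank G u (q p.2).1 (q p.2).2, p.1)), ?_, ?_⟩
  · rintro ⟨k, e⟩ ⟨k', e'⟩ h
    simp only [Prod.mk.injEq] at h
    obtain ⟨h4, h5, h6⟩ := h
    rw [← h4] at h5
    have h7 := rank_injective hG hf hu _ h5
    rw [Prod.mk.injEq]
    refine ⟨h6, ?_⟩
    rw [hq1 e, hq1 e', h4, h7]
  · rintro X ⟨k, e⟩
    have h4 : labX G u X (k, e) = lab2 G u X k (q e).1 (q e).2 := by
      conv_lhs => rw [hq1 e]
      rfl
    change labX G u X (k, e) = X ((q e).1, (rank G u (q e).1 (q e).2, k))
    rw [h4]
    unfold lab2 pick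
    rcases (hq2 e).lt_or_eq with h5 | h5
    · rw [if_pos h5]
    · have h6 : (q e).1 = (q e).2 := hu h5
      rw [if_neg h5.not_lt, if_neg h5.not_gt, ← h6, min_self]

end Vale.Agent.P143
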