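import Vale.Agent.Lib.P143.CoreMap

/-!
# Randomizing the order: the solution map applied to i.i.d. uniform labels
-/

namespace Vale.Agent.P143

open Filter Topology Set MeasureTheory ProbabilityTheory
open scoped unitInterval

set_option linter.unusedSectionVars false

variable {E : Type*}

/-- Glue the order labels and the innovations to one family of labels. -/
def join (p : (E → I) × (ℕ × E → I)) : ℕ × E → I :=
  fun q => Nat.casesOn q.1 (p.1 q.2) fun k => p.2 (k, q.2)

lemma join_zero (p : (E → I) × (ℕ × E → I)) (f : E) : join p (0, f) = p.1 f := rfl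

lemma join_succ (p : (E → I) × (ℕ × E → I)) (k : ℕ) (f : E) :
    join p (k + 1, f) = p.2 (k, f) := rfl

lemma measurable_join : Measurable (join (E := E)) := by
  refine measurable_pi_lambda _ fun q => ?_
  obtain ⟨k, f⟩ := q
  cases k with
  | zero => exact (measurable_pi_apply f).comp measurable_fst
  | succ k => exact (measurable_pi_apply (k, f)).comp measurable_snd

/-- i.i.d. uniform labels indexed by `E`. -/
noncomputable abbrev unifE (E : Type*) : Measure (E → I) :=
  Measure.infinitePi (fun _ : E => (volume : Measure I))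

lemma map_join : ((unifE E).prod (noise E)).map join = noise E := by
  classical
  have : IsProbabilityMeasure (((unifE E).prod (noise E)).map join) :=
    Measure.isProbabilityMeasure_map measurable_join.aemeasurable
  refine Measure.eq_infinitePi _ fun s t ht => ?_
  have hset : MeasurableSet ((s : Set (ℕ × E)).pi t) := .pi s.countable_toSet fun _ _ => ht _
  rw [Measure.map_apply measurable_join hset]
  set s0 : Finset E := (s.filter fun q => q.1 = 0).image Prod.snd with hs0
  set s1 : Finset (ℕ × E) := (s.filter fun q => ¬ q.1 = 0).image fun q => (q.1 - 1, q.2) with hs1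
  have hpre : join ⁻¹' ((s : Set (ℕ × E)).pi t)
      = ((s0 : Set E).pi fun f => t (0, f)) ×ˢ
        ((s1 : Set (ℕ × E)).pi fun q => t (q.1 + 1, q.2)) := by
    ext p
    simp only [Set.mem_preimage, Set.mem_pi, Set.mem_prod, Finset.mem_coe]
    constructor
    · intro h
      refine ⟨fun f hf => ?_, fun q hq => ?_⟩
      · rw [hs0, Finset.mem_image] at hf
        obtain ⟨q, hq, rfl⟩ := hf
        rw [Finset.mem_filter] at hq
        have h1 := h q hq.1
        obtain ⟨k, f⟩ := q
        obtain rfl : k = 0 := hq.2
        exact h1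
      · rw [hs1, Finset.mem_image] at hq
        obtain ⟨q', hq', rfl⟩ := hq
        rw [Finset.mem_filter] at hq'
        obtain ⟨k, f⟩ := q'
        obtain ⟨k, rfl⟩ := Nat.exists_eq_succ_of_ne_zero hq'.2
        exact h (k + 1, f) hq'.1
    · rintro ⟨h0, h1⟩ ⟨k, f⟩ hq
      cases k with
      | zero =>
        refine h0 f ?_
        rw [hs0, Finset.mem_image]
        exact ⟨(0, f), Finset.mem_filter.2 ⟨hq, rfl⟩, rfl⟩
      | succ k =>
        refine h1 (k, f) ?_
        rw [hs1, Finset.mem_image]
        exact ⟨(k + 1, f), Finset.mem_filter.2 ⟨hq, Nat.succ_ne_zero k⟩, rfl⟩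
  have e0 : unifE E ((s0 : Set E).pi fun f => t (0, f)) = ∏ f ∈ s0, (volume : Measure I) (t (0, f)) :=
    Measure.infinitePi_pi _ (fun i _ => ht _)
  have e1 : noise E ((s1 : Set (ℕ × E)).pi fun q => t (q.1 + 1, q.2))
      = ∏ q ∈ s1, (volume : Measure I) (t (q.1 + 1, q.2)) :=
    Measure.infinitePi_pi _ (fun i _ => ht _)
  rw [hpre, Measure.prod_prod, e0, e1, hs0, hs1, Finset.prod_image, Finset.prod_image,
    ← Finset.prod_filter_mul_prod_filter_not s (fun q => q.1 = 0)]
  · refine congrArg₂ _ (Finset.prod_congr rfl fun q hq => ?_)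
      (Finset.prod_congr rfl fun q hq => ?_)
    · rw [Finset.mem_filter] at hq
      obtain ⟨k, f⟩ := q
      obtain rfl : k = 0 := hq.2
      rfl
    · rw [Finset.mem_filter] at hq
      obtain ⟨k, f⟩ := q
      obtain ⟨k, rfl⟩ := Nat.exists_eq_succ_of_ne_zero hq.2
      rfl
  · rintro ⟨k, f⟩ hq ⟨k', f'⟩ hq' h
    rw [Finset.mem_coe, Finset.mem_filter] at hq hq'
    obtain ⟨k, rfl⟩ := Nat.exists_eq_succ_of_ne_zero hq.2
    obtain ⟨k', rfl⟩ := Nat.exists_eq_succ_of_ne_zero hq'.2
    simpa using h
  · rintro ⟨k, f⟩ hq ⟨k', f'⟩ hq' h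
    rw [Finset.mem_coe, Finset.mem_filter] at hq hq'
    obtain rfl : k = 0 := hq.2
    obtain rfl : k' = 0 := hq'.2
    simpa using h

/-- i.i.d. uniform labels are almost surely pairwise distinct. -/
lemma ae_injective_unifE [Countable E] : ∀ᵐ T ∂(unifE E), Function.Injective T := by
  have h : ∀ p : E × E, p.1 ≠ p.2 → ∀ᵐ T ∂(unifE E), T p.1 ≠ T p.2 := by
    intro p hp
    have hind : iIndepFun (fun (f : E) (T : E → I) => T f) (unifE E) :=
      iIndepFun_infinitePi (P := fun _ : E => (volume : Measure I)) (X := fun _ v => v)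
        fun _ => measurable_id
    have h2 := hind.indepFun hp
    rw [indepFun_iff_map_prod_eq_prod_map_map (measurable_pi_apply _).aemeasurable
      (measurable_pi_apply _).aemeasurable] at h2
    have e1 : (unifE E).map (fun T : E → I => T p.1) = volume :=
      Measure.infinitePi_map_eval (fun _ : E => (volume : Measure I)) p.1
    have e2 : (unifE E).map (fun T : E → I => T p.2) = volume :=
      Measure.infinitePi_map_eval (fun _ : E => (volume : Measure I)) p.2
    rw [e1, e2] at h2
    have hm : Measurable fun T : E → I => (T p.1, T p.2) :=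
      (measurable_pi_apply _).prodMk (measurable_pi_apply _)
    have hd : MeasurableSet {x : I × I | x.1 = x.2} := measurableSet_eq_fun measurable_fst
      measurable_snd
    have h3 : ((volume : Measure I).prod (volume : Measure I)) {x : I × I | x.1 = x.2} = 0 := by
      rw [Measure.measure_prod_null hd]
      refine Eventually.of_forall fun a => ?_
      have : Prod.mk a ⁻¹' {x : I × I | x.1 = x.2} = {a} := by
        ext b; simp [eq_comm]
      change (volume : Measure I) (Prod.mk a ⁻¹' {x : I × I | x.1 = x.2}) = 0
      rw [this]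
      simp
    rw [← h2, Measure.map_apply hm hd] at h3
    rw [ae_iff]
    convert h3 using 2
    ext T; simp
  have h1 : ∀ᵐ T ∂(unifE E), ∀ p : E × E, p.1 ≠ p.2 → T p.1 ≠ T p.2 := by
    rw [ae_all_iff]
    intro p
    by_cases hp : p.1 = p.2
    · exact Eventually.of_forall fun T h => absurd hp h
    · filter_upwards [h p hp] with T hT _ using hT
  filter_upwards [h1] with T hT a b hab
  by_contra hne
  exact hT (a, b) hne hab

/-- The solution map applied to one family of labels. -/
noncomputable def outL (d : E → (E → ℝ) → ℝ) (L : ℕ × E → I) : Set E :=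
  out d (fun f => (L (0, f) : ℝ)) (fun k f => (L (k + 1, f) : ℝ))

lemma measurable_outL {𝒢 α : Type*} [MeasurableSpace 𝒢] [MeasurableSpace α]
    {d : 𝒢 → E → (E → ℝ) → ℝ} (hd : ∀ f, Measurable fun p : 𝒢 × (E → ℝ) => d p.1 f p.2)
    {G : α → 𝒢} (hG : Measurable G) {L : α → ℕ × E → I} (hL : Measurable L) :
    Measurable fun a => outL (d (G a)) (L a) := by
  unfold outL
  exact measurable_out hd hG
    (T := fun a f => (L a (0, f) : ℝ)) (V := fun a k f => (L a (k + 1, f) : ℝ))
    (fun g => measurable_subtype_coe.comp ((measurable_pi_apply _).comp hL))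
    (fun k g => measurable_subtype_coe.comp ((measurable_pi_apply _).comp hL))

lemma outL_join (d : E → (E → ℝ) → ℝ) (T : E → I) (V : ℕ × E → I) :
    outL d (join (T, V)) = out d (fun f => (T f : ℝ)) (fun k f => (V (k, f) : ℝ)) := rfl

lemma measurable_drift_one [DecidableEq E] (μ : Measure (Set E)) [IsProbabilityMeasure μ]
    (A : ℕ → E → Finset E) (f : E) : Measurable fun p : Unit × (E → ℝ) => drift μ A f p.2 := by
  unfold drift
  exact Measurable.limsup fun r => (measurable_tilt' μ _ _).comp measurable_snd

/-- **Core theorem, randomized.** The solution map applied to i.i.d. uniform labels has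
law `μ`. -/
theorem map_outL [Countable E] [DecidableEq E] (μ : Measure (Set E)) [IsProbabilityMeasure μ]
    (hL : LipTilt μ) (A : ℕ → E → Finset E) (hmono : ∀ f, Monotone fun r => A r f)
    (hex : ∀ f g, ∃ r, g ∈ A r f) :
    (noise E).map (fun L => outL (drift μ A) L) = μ := by
  have hOm : Measurable fun L : ℕ × E → I => outL (drift μ A) L :=
    measurable_outL (𝒢 := Unit) (d := fun _ => drift μ A) (measurable_drift_one μ A)
      (G := fun _ => ()) measurable_const measurable_id
  rw [← map_join, Measure.map_map hOm measurable_join]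
  have hFm : Measurable fun p : (E → I) × (ℕ × E → I) => outL (drift μ A) (join p) :=
    hOm.comp measurable_join
  have hcomp : ((fun L : ℕ × E → I => outL (drift μ A) L) ∘ join)
      = fun p : (E → I) × (ℕ × E → I) => outL (drift μ A) (join p) := rfl
  rw [hcomp]
  ext S hS
  rw [Measure.map_apply hFm hS, Measure.prod_apply (hFm hS)]
  have hae : ∀ᵐ T ∂(unifE E), (noise E) (Prod.mk T ⁻¹'
      ((fun p : (E → I) × (ℕ × E → I) => outL (drift μ A) (join p)) ⁻¹' S)) = μ S := by
    filter_upwards [ae_injective_unifE (E := E)] with T hT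
    have h1 := map_out μ hL A hmono hex (fun f => (T f : ℝ))
      (Subtype.val_injective.comp hT)
    have h2 : Measurable fun V : ℕ × E → I => outL (drift μ A) (join (T, V)) :=
      hFm.comp measurable_prodMk_left
    have h3 : (noise E).map (fun V : ℕ × E → I => outL (drift μ A) (join (T, V))) = μ := by
      simp only [outL_join]
      exact h1
    have h4 : (noise E).map (fun V : ℕ × E → I => outL (drift μ A) (join (T, V))) S = μ S := by
      rw [h3]
    rw [Measure.map_apply h2 hS] at h4
    exact h4
  rw [lintegral_congr_ae hae]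
  simp

end Vale.Agent.P143
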