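import Vale.Agent.Lib.P143.Exh
import Vale.Agent.Lib.P143.RandT
import Vale.Agent.Lib.P143.FusfKernel
import Vale.Agent.Lib.P143.FusfLip
import Vale.Agent.Lib.P143.Labels

/-!
# The free uniform spanning forest as an explicit factor of i.i.d. vertex labels
-/

namespace Vale.Agent.P143

open Set MeasureTheory
open scoped unitInterval

universe u v

variable {V : Type u} {W : Type v}

lemma connected_map_iff (τ : V ≃ W) (G : SimpleGraph V) :
    (G.map τ.toEmbedding).Connected ↔ G.Connected :=
  (SimpleGraph.Iso.map τ G).connected_iff.symm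

/-- The free uniform spanning forest law commutes with relabellings, for all graphs. -/
lemma fusf_map [Countable V] [Countable W] (τ : V ≃ W) (G : SimpleGraph V) :
    fusf (G.map τ.toEmbedding) = (fusf G).map (fun T => Sym2.map τ '' T) := by
  by_cases hG : G.Connected
  · have h1 : (G.map τ.toEmbedding).Connected := (connected_map_iff τ G).2 hG
    exact IsFUSF.unique h1 (isFUSF_fusf h1) ((isFUSF_fusf hG).map τ)
  · have h1 : ¬ (G.map τ.toEmbedding).Connected := fun h => hG ((connected_map_iff τ G).1 h)
    unfold fusf
    rw [dif_neg hG, dif_neg h1, Measure.map_dirac' (measurable_image_symEquiv τ)]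
    simp

/-- The universal factor map. -/
noncomputable def factor [Countable V] (p : SimpleGraph V × (V → I)) : Set (Sym2 V) :=
  outL (drift (fusf p.1) (exh p.1)) (lab p.1 p.2)

theorem measurable_factor [Countable V] : Measurable (factor (V := V)) := by
  unfold factor
  exact measurable_outL (d := fun G : SimpleGraph V => drift (fusf G) (exh G))
    (fun f => measurable_drift measurable_fusf isProbabilityMeasure_fusf
      (fun r f S => measurableSet_exh_eq r f S) f) measurable_fst measurable_lab

theorem factor_map [Countable V] [Countable W] (τ : V ≃ W) (G : SimpleGraph V) (U : V → I) :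
    factor (G.map τ.toEmbedding, fun w => U (τ.symm w)) = Sym2.map τ '' factor (G, U) := by
  classical
  have hd : ∀ f y, drift (fusf (G.map τ.toEmbedding)) (exh (G.map τ.toEmbedding))
      (symEquiv τ f) (y ∘ (symEquiv τ).symm) = drift (fusf G) (exh G) f y := by
    intro f y
    rw [fusf_map τ G]
    exact drift_natural (symEquiv τ) (fusf G) (exh G) _ (fun r f => exh_map τ G r f) f y
  have hl : ∀ k (e : Sym2 W), lab (G.map τ.toEmbedding) (fun w => U (τ.symm w)) (k, e)
      = lab G U (k, (symEquiv τ).symm e) := by
    intro k e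
    obtain ⟨e, rfl⟩ := (symEquiv τ).surjective e
    rw [Equiv.symm_apply_apply, symEquiv_apply]
    exact lab_map τ G U k e
  have h := out_natural (symEquiv τ) hd (fun f => (lab G U (0, f) : ℝ))
    (fun k f => (lab G U (k + 1, f) : ℝ))
  unfold factor outL
  simp only [hl]
  exact h

theorem map_factor [Countable V] {G : SimpleGraph V} (hG : G.Connected)
    (hf : ∀ v, (G.neighborSet v).Finite) :
    (iidUniform V).map (fun U => factor (G, U)) = fusf G := by
  classical
  have hL : LipTilt (fusf G) := (isFUSF_fusf hG).lipTilt hG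
  have h1 := map_outL (fusf G) hL (exh G) (exh_mono hf) (exists_mem_exh hG hf)
  have h2 : Measurable (lab G) :=
    measurable_lab.comp (measurable_prodMk_left : Measurable fun U : V → I => (G, U))
  have h3 : Measurable fun L : ℕ × Sym2 V → I => outL (drift (fusf G) (exh G)) L :=
    measurable_outL (𝒢 := Unit) (d := fun _ => drift (fusf G) (exh G))
      (measurable_drift_one (fusf G) (exh G)) (G := fun _ => ()) measurable_const measurable_id
  rw [← map_lab hG hf, Measure.map_map h3 h2] at h1
  exact h1

/-- The universal statement. -/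
theorem isFUSF_factor [Countable V] {G : SimpleGraph V} (hG : G.Connected)
    (hf : ∀ v, (G.neighborSet v).Finite) :
    IsFUSF G ((iidUniform V).map (fun U => factor (G, U))) := by
  rw [map_factor hG hf]
  exact isFUSF_fusf hG

/-- The unimodular case (no unimodularity is needed). -/
theorem fusfIsGraphFactorOfIID (P : Measure (SimpleGraph ℕ × ℕ))
    (hP : ∀ᵐ x ∂P, x.1.Connected ∧ ∀ v, (x.1.neighborSet v).Finite) :
    FUSFIsGraphFactorOfIID P := by
  refine ⟨factor, measurable_factor, fun τ G U => factor_map τ G U, ?_⟩
  filter_upwards [hP] with x hx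
  exact isFUSF_factor hx.1 hx.2

/-- Left multiplication preserves the Cayley graph. -/
lemma map_mulCayley {Γ : Type u} [Group Γ] (S : Set Γ) (γ : Γ) :
    (SimpleGraph.mulCayley S).map (Equiv.mulLeft γ).toEmbedding = SimpleGraph.mulCayley S := by
  ext a b
  obtain ⟨a, rfl⟩ := (Equiv.mulLeft γ).surjective a
  obtain ⟨b, rfl⟩ := (Equiv.mulLeft γ).surjective b
  have h := SimpleGraph.map_adj_apply (G := SimpleGraph.mulCayley S)
    (f := (Equiv.mulLeft γ).toEmbedding) (a := a) (b := b)
  refine h.trans ?_
  simp only [SimpleGraph.mulCayley_adj', Equiv.coe_mulLeft, ne_eq, mul_right_inj, mul_assoc]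

lemma connected_mulCayley {Γ : Type u} [Group Γ] (S : Set Γ)
    (hS : Subgroup.closure S = ⊤) : (SimpleGraph.mulCayley S).Connected := by
  have step : ∀ (a s : Γ), s ∈ S → (SimpleGraph.mulCayley S).Reachable a (a * s) := by
    intro a s hs
    by_cases h : a = a * s
    · rw [← h]
    · exact SimpleGraph.Adj.reachable ((SimpleGraph.mulCayley_adj' S a (a * s)).2
        ⟨h, s, hs, Or.inl rfl⟩)
  have key : ∀ g : Γ, ∀ a : Γ, (SimpleGraph.mulCayley S).Reachable a (a * g) := by
    intro g
    have hg : g ∈ Subgroup.closure S := by rw [hS]; trivial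
    induction hg using Subgroup.closure_induction with
    | mem x hx => exact fun a => step a x hx
    | one => intro a; rw [mul_one]
    | mul x y _ _ hx hy =>
      intro a
      rw [← mul_assoc]
      exact (hx a).trans (hy (a * x))
    | inv x _ hx =>
      intro a
      have := hx (a * x⁻¹)
      rw [inv_mul_cancel_right] at this
      exact this.symm
  have : Nonempty Γ := ⟨1⟩
  refine ⟨fun a b => ?_⟩
  have := key (a⁻¹ * b) a
  rwa [mul_inv_cancel_left] at this

lemma locallyFinite_mulCayley {Γ : Type u} [Group Γ] (S : Finset Γ) (v : Γ) :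
    ((SimpleGraph.mulCayley (S : Set Γ)).neighborSet v).Finite := by
  classical
  refine (((S.image fun s => v * s) ∪ (S.image fun s => v * s⁻¹)).finite_toSet).subset
    fun w hw => ?_
  rw [SimpleGraph.mem_neighborSet, SimpleGraph.mulCayley_adj'] at hw
  obtain ⟨_, s, hs, h⟩ := hw
  rw [Finset.mem_coe, Finset.mem_union, Finset.mem_image, Finset.mem_image]
  rcases h with h | h
  · exact Or.inl ⟨s, hs, h⟩
  · exact Or.inr ⟨s, hs, by rw [h]; group⟩

/-- A connected locally finite graph is countable. -/
lemma countable_of_connected {G : SimpleGraph V} (hG : G.Connected)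
    (hf : ∀ v, (G.neighborSet v).Finite) : Countable V := by
  obtain ⟨o⟩ := hG.nonempty
  have h : (Set.univ : Set V) = ⋃ n, ball G n o := by
    ext v
    simpa using exists_mem_ball hG o v
  rw [← Set.countable_univ_iff, h]
  exact Set.countable_iUnion fun n => (finite_ball hf n o).countable

theorem isGroupFactorOfIID_mulCayley {Γ : Type u} [Group Γ] (S : Finset Γ)
    (hS : Subgroup.closure (S : Set Γ) = ⊤) :
    ∃ μ, IsFUSF (SimpleGraph.mulCayley (S : Set Γ)) μ ∧ IsGroupFactorOfIID Γ μ := by
  have h1 := connected_mulCayley (S : Set Γ) hS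
  have h2 := locallyFinite_mulCayley S
  have hc : Countable Γ := countable_of_connected h1 h2
  refine ⟨_, isFUSF_factor h1 h2, fun U => factor (SimpleGraph.mulCayley (S : Set Γ), U),
    measurable_factor.comp measurable_prodMk_left, ?_, rfl⟩
  intro γ U
  have h := factor_map (Equiv.mulLeft γ) (SimpleGraph.mulCayley (S : Set Γ)) U
  rw [map_mulCayley] at h
  exact h

end Vale.Agent.P143
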