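import Vale.Agent.Lib.P143.TreeRes

/-!
Exhaustions: existence on a countable vertex set, and absorption of finite subgraphs.
-/

set_option linter.unusedSectionVars false

namespace Vale.Agent.P143

open Finset Filter Topology

universe u

variable {V : Type u}

/-- keep only the edges of `G` inside `F` -/
def restr (G : SimpleGraph V) (F : Set V) : SimpleGraph V where
  Adj u v := G.Adj u v ∧ u ∈ F ∧ v ∈ F
  symm := ⟨fun _ _ h => ⟨h.1.symm, h.2.2, h.2.1⟩⟩
  loopless := ⟨fun _ h => h.1.ne rfl⟩

lemma restr_adj {G : SimpleGraph V} {F : Set V} {u v : V} :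
    (restr G F).Adj u v ↔ G.Adj u v ∧ u ∈ F ∧ v ∈ F := Iff.rfl

lemma restr_restr (G : SimpleGraph V) (F : Set V) : restr (restr G F) F = restr G F := by
  ext u v
  simp only [restr_adj]
  tauto

lemma restr_mono (G : SimpleGraph V) {F F' : Set V} (h : F ⊆ F') : restr G F ≤ restr G F' :=
  fun _ _ h' => ⟨h'.1, h h'.2.1, h h'.2.2⟩

/-- the connected component of `o` in `G` restricted to `F`, as a subgraph of `G` -/
def cmp (G : SimpleGraph V) (o : V) (F : Set V) : G.Subgraph :=
  (⊤ : G.Subgraph).induce {v | (restr G F).Reachable o v}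

lemma cmp_verts (G : SimpleGraph V) (o : V) (F : Set V) :
    (cmp G o F).verts = {v | (restr G F).Reachable o v} := rfl

lemma cmp_adj {G : SimpleGraph V} {o : V} {F : Set V} {u v : V} :
    (cmp G o F).Adj u v ↔
      (restr G F).Reachable o u ∧ (restr G F).Reachable o v ∧ G.Adj u v := Iff.rfl

lemma cmp_verts_subset (G : SimpleGraph V) {o : V} {F : Set V} (ho : o ∈ F) :
    (cmp G o F).verts ⊆ F := by
  intro v hv
  rw [cmp_verts, Set.mem_ofPred_eq, SimpleGraph.reachable_iff_reflTransGen] at hv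
  cases hv with
  | refl => exact ho
  | tail _ h => exact h.2.2

lemma cmp_adj' {G : SimpleGraph V} {o : V} {F : Set V} (ho : o ∈ F) {u v : V} :
    (cmp G o F).Adj u v ↔ (restr G F).Reachable o u ∧ (restr G F).Adj u v := by
  rw [cmp_adj]
  constructor
  · rintro ⟨h1, h2, h3⟩
    exact ⟨h1, h3, cmp_verts_subset G ho h1, cmp_verts_subset G ho h2⟩
  · rintro ⟨h1, h2⟩
    exact ⟨h1, h1.trans h2.reachable, h2.1⟩

lemma cmp_connected (G : SimpleGraph V) {o : V} {F : Set V} (ho : o ∈ F) :
    (cmp G o F).Connected := by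
  rw [SimpleGraph.Subgraph.connected_iff', SimpleGraph.connected_iff_exists_forall_reachable]
  have ho' : o ∈ (cmp G o F).verts := SimpleGraph.Reachable.refl o
  refine ⟨⟨o, ho'⟩, ?_⟩
  rintro ⟨v, hv⟩
  have key : ∀ v, (restr G F).Reachable o v → ∃ hv : v ∈ (cmp G o F).verts,
      (cmp G o F).coe.Reachable ⟨o, ho'⟩ ⟨v, hv⟩ := by
    intro v hv
    rw [SimpleGraph.reachable_iff_reflTransGen] at hv
    induction hv with
    | refl => exact ⟨ho', SimpleGraph.Reachable.refl _⟩
    | @tail b c hb hbc ih =>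
      obtain ⟨hb', hr⟩ := ih
      have hadj : (cmp G o F).Adj b c := (cmp_adj' ho).mpr ⟨hb', hbc⟩
      refine ⟨hadj.snd_mem, hr.trans ?_⟩
      exact SimpleGraph.Adj.reachable (G := (cmp G o F).coe) hadj
  exact (key v hv).2

lemma cmp_mono (G : SimpleGraph V) (o : V) {F F' : Set V} (h : F ⊆ F') :
    cmp G o F ≤ cmp G o F' := by
  unfold cmp
  exact SimpleGraph.Subgraph.induce_mono_right fun v hv => hv.mono (restr_mono G h)

lemma isExhaustion_cmp {G : SimpleGraph V} (hG : G.Connected) {o : V} {F : ℕ → Set V}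
    (hF : ∀ n, (F n).Finite) (hmono : Monotone F) (ho : ∀ n, o ∈ F n)
    (hU : ∀ v, ∃ n, v ∈ F n) : IsExhaustion G (fun n => cmp G o (F n)) := by
  have hreach : ∀ v, ∃ n, (restr G (F n)).Reachable o v := by
    intro v
    have hv := hG.preconnected o v
    rw [SimpleGraph.reachable_iff_reflTransGen] at hv
    induction hv with
    | refl => exact ⟨0, SimpleGraph.Reachable.refl _⟩
    | @tail b c hb hbc ih =>
      obtain ⟨n, hn⟩ := ih
      obtain ⟨m, hm⟩ := hU b
      obtain ⟨k, hk⟩ := hU c
      refine ⟨max n (max m k), ?_⟩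
      refine (hn.mono (restr_mono G (hmono (le_max_left _ _)))).trans ?_
      refine SimpleGraph.Adj.reachable (G := restr G (F (max n (max m k)))) ⟨hbc, ?_, ?_⟩
      · exact hmono ((le_max_left _ _).trans (le_max_right _ _)) hm
      · exact hmono ((le_max_right _ _).trans (le_max_right _ _)) hk
  refine ⟨fun n => (hF n).subset (cmp_verts_subset G (ho n)), fun n => cmp_connected G (ho n),
    fun m n h => cmp_mono G o (hmono h), ?_⟩
  rw [eq_top_iff]
  refine ⟨?_, ?_⟩
  · intro v _
    rw [SimpleGraph.Subgraph.verts_iSup, Set.mem_iUnion]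
    exact hreach v
  · intro u v huv
    rw [SimpleGraph.Subgraph.iSup_adj]
    obtain ⟨n, hn⟩ := hreach u
    obtain ⟨m, hm⟩ := hreach v
    refine ⟨max n m, ?_, ?_, huv⟩
    · exact hn.mono (restr_mono G (hmono (le_max_left _ _)))
    · exact hm.mono (restr_mono G (hmono (le_max_right _ _)))

/-- an increasing sequence of finite sets with union `V`, containing a given point -/
lemma exists_finite_exh [Countable V] (o : V) : ∃ F : ℕ → Set V, (∀ n, (F n).Finite) ∧
    Monotone F ∧ (∀ n, o ∈ F n) ∧ ∀ v, ∃ n, v ∈ F n := by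
  have : Nonempty V := ⟨o⟩
  obtain ⟨f, hf⟩ := exists_surjective_nat V
  refine ⟨fun n => insert o (f '' Set.Iic n), fun n => ?_, ?_, fun n => Set.mem_insert _ _, ?_⟩
  · exact ((Set.finite_Iic n).image f).insert o
  · intro m n h
    exact Set.insert_subset_insert (Set.image_mono (Set.Iic_subset_Iic.mpr h))
  · intro v
    obtain ⟨n, rfl⟩ := hf v
    exact ⟨n, Set.mem_insert_of_mem _ ⟨n, Set.mem_Iic.mpr le_rfl, rfl⟩⟩

lemma exists_isExhaustion [Countable V] {G : SimpleGraph V} (hG : G.Connected) :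
    ∃ H : ℕ → G.Subgraph, IsExhaustion G H := by
  obtain ⟨o⟩ := hG.nonempty
  obtain ⟨F, h1, h2, h3, h4⟩ := exists_finite_exh o
  exact ⟨_, isExhaustion_cmp hG h1 h2 h3 h4⟩

lemma IsExhaustion.exists_mem {G : SimpleGraph V} {H : ℕ → G.Subgraph} (hH : IsExhaustion G H)
    (v : V) : ∃ n, v ∈ (H n).verts := by
  have : v ∈ (⨆ n, H n).verts := by rw [hH.union]; trivial
  rw [SimpleGraph.Subgraph.verts_iSup, Set.mem_iUnion] at this
  exact this

lemma IsExhaustion.exists_edge {G : SimpleGraph V} {H : ℕ → G.Subgraph} (hH : IsExhaustion G H)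
    {e : Sym2 V} (he : e ∈ G.edgeSet) : ∃ n, e ∈ (H n).edgeSet := by
  induction e using Sym2.ind with
  | _ x y =>
    have : (⨆ n, H n).Adj x y := by rw [hH.union]; exact he
    rw [SimpleGraph.Subgraph.iSup_adj] at this
    exact this

/-- every finite subgraph is contained in some member of an exhaustion -/
lemma IsExhaustion.exists_le {G : SimpleGraph V} {H : ℕ → G.Subgraph} (hH : IsExhaustion G H)
    {K : G.Subgraph} (hK : K.verts.Finite) : ∃ n, K ≤ H n := by
  classical
  have h1 : ∃ n, ∀ v ∈ hK.toFinset, v ∈ (H n).verts := by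
    induction hK.toFinset using Finset.induction with
    | empty => exact ⟨0, by simp⟩
    | insert a s _ ih =>
      obtain ⟨n, hn⟩ := ih
      obtain ⟨m, hm⟩ := hH.exists_mem a
      refine ⟨max n m, fun v hv => ?_⟩
      rcases Finset.mem_insert.mp hv with rfl | hv
      · exact (hH.mono (le_max_right n m)).1 hm
      · exact (hH.mono (le_max_left n m)).1 (hn v hv)
  have h2 : ∃ n, ∀ e ∈ (edgeSet_finite hK).toFinset, e ∈ (H n).edgeSet := by
    have : ∀ e ∈ (edgeSet_finite hK).toFinset, e ∈ G.edgeSet := by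
      intro e he
      rw [Set.Finite.mem_toFinset] at he
      exact K.edgeSet_subset he
    revert this
    induction (edgeSet_finite hK).toFinset using Finset.induction with
    | empty => exact fun _ => ⟨0, by simp⟩
    | insert a s _ ih =>
      intro this
      obtain ⟨n, hn⟩ := ih fun e he => this e (Finset.mem_insert_of_mem he)
      obtain ⟨m, hm⟩ := hH.exists_edge (this a (Finset.mem_insert_self a s))
      refine ⟨max n m, fun v hv => ?_⟩
      rcases Finset.mem_insert.mp hv with rfl | hv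
      · exact SimpleGraph.Subgraph.edgeSet_mono (hH.mono (le_max_right n m)) hm
      · exact SimpleGraph.Subgraph.edgeSet_mono (hH.mono (le_max_left n m)) (hn v hv)
  obtain ⟨n, hn⟩ := h1
  obtain ⟨m, hm⟩ := h2
  refine ⟨max n m, ?_, ?_⟩
  · intro v hv
    exact (hH.mono (le_max_left n m)).1 (hn v (hK.mem_toFinset.mpr hv))
  · intro u v huv
    have : s(u, v) ∈ (H m).edgeSet := hm _ ((edgeSet_finite hK).mem_toFinset.mpr huv)
    exact (hH.mono (le_max_right n m)).2 this

end Vale.Agent.P143
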