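import Vale.Agent.Lib.P143.FusfLimit

/-!
Existence and uniqueness of the free uniform spanning forest measure.
-/

set_option linter.unusedSectionVars false

namespace Vale.Agent.P143

open Finset Filter Topology MeasureTheory
open scoped ENNReal

universe u

variable {V : Type u} {G : SimpleGraph V}

/-- the cylinder event: all edges of `A` and no edge of `B` -/
def cyl {E : Type*} (A B : Finset E) : Set (Set E) :=
  {T | (A : Set E) ⊆ T ∧ Disjoint (B : Set E) T}

lemma mem_cyl {E : Type*} {A B : Finset E} {T : Set E} :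
    T ∈ cyl A B ↔ (∀ e ∈ A, e ∈ T) ∧ ∀ e ∈ B, e ∉ T := by
  unfold cyl
  rw [Set.mem_ofPred_eq, Set.disjoint_left]
  rfl

lemma measurableSet_cyl {E : Type*} (A B : Finset E) : MeasurableSet (cyl A B) := by
  have h : cyl A B = (⋂ e ∈ A, {T : Set E | e ∈ T}) ∩ ⋂ e ∈ B, {T : Set E | e ∉ T} := by
    ext T
    rw [mem_cyl]
    simp
  rw [h]
  refine MeasurableSet.inter ?_ ?_
  · exact Finset.measurableSet_biInter _ fun e _ => measurableSet_mem e
  · exact Finset.measurableSet_biInter _ fun e _ => measurableSet_notMem e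

/-- the collection of all cylinder events -/
def cyls (E : Type*) : Set (Set (Set E)) := {S | ∃ A B : Finset E, S = cyl A B}

lemma isPiSystem_cyls {E : Type*} : IsPiSystem (cyls E) := by
  classical
  rintro _ ⟨A, B, rfl⟩ _ ⟨A', B', rfl⟩ _
  refine ⟨A ∪ A', B ∪ B', ?_⟩
  ext T
  simp only [Set.mem_inter_iff, mem_cyl, Finset.mem_union]
  constructor
  · rintro ⟨⟨h1, h2⟩, h3, h4⟩
    exact ⟨fun e he => he.elim (h1 e) (h3 e), fun e he => he.elim (h2 e) (h4 e)⟩
  · rintro ⟨h1, h2⟩
    exact ⟨⟨fun e he => h1 e (Or.inl he), fun e he => h2 e (Or.inl he)⟩,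
      fun e he => h1 e (Or.inr he), fun e he => h2 e (Or.inr he)⟩

lemma generateFrom_cyls {E : Type*} :
    (inferInstance : MeasurableSpace (Set E)) = MeasurableSpace.generateFrom (cyls E) := by
  apply le_antisymm
  · have h : @Measurable _ _ (MeasurableSpace.generateFrom (cyls E)) _ (id : Set E → Set E) := by
      rw [@measurable_set_iff]
      intro e
      refine (@measurableSet_setOfPred _ (MeasurableSpace.generateFrom (cyls E)) _).1 ?_
      refine MeasurableSpace.measurableSet_generateFrom ⟨{e}, ∅, ?_⟩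
      ext T
      rw [mem_cyl]
      simp
    intro s hs
    exact h hs
  · refine MeasurableSpace.generateFrom_le ?_
    rintro _ ⟨A, B, rfl⟩
    exact measurableSet_cyl A B

lemma ext_cyl {E : Type*} {μ ν : Measure (Set E)} [IsProbabilityMeasure μ]
    [IsProbabilityMeasure ν] (h : ∀ A B : Finset E, μ.real (cyl A B) = ν.real (cyl A B)) :
    μ = ν := by
  refine ext_of_generate_finite (cyls E) generateFrom_cyls isPiSystem_cyls ?_ (by simp)
  rintro _ ⟨A, B, rfl⟩
  have := h A B
  rw [measureReal_def, measureReal_def, ENNReal.toReal_eq_toReal_iff' (by finiteness)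
    (by finiteness)] at this
  exact this

/-- read off an edge set from a `0/1` configuration -/
def toSet {E : Type*} (φ : E → Bool) : Set E := {e | φ e = true}

lemma measurable_toSet {E : Type*} : Measurable (toSet : (E → Bool) → Set E) := by
  rw [measurable_set_iff]
  intro e
  refine measurableSet_setOfPred.1 ?_
  exact measurableSet_eq_fun (measurable_pi_apply e) measurable_const

lemma toSet_preimage_cyl {E : Type*} (A B : Finset E) :
    toSet ⁻¹' (cyl A B) = {φ : E → Bool | (∀ e ∈ A, φ e = true) ∧ ∀ e ∈ B, φ e = false} := by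
  ext φ
  rw [Set.mem_preimage, mem_cyl]
  simp [toSet]

lemma isClopen_cyl {E : Type*} (A B : Finset E) :
    IsClopen ((toSet : (E → Bool) → Set E) ⁻¹' (cyl A B)) := by
  have h : (toSet : (E → Bool) → Set E) ⁻¹' (cyl A B) =
      (⋂ e ∈ A, {φ : E → Bool | φ e = true}) ∩ ⋂ e ∈ B, {φ : E → Bool | φ e = false} := by
    rw [toSet_preimage_cyl]
    ext φ
    simp
  rw [h]
  refine IsClopen.inter ?_ ?_
  · refine isClopen_biInter_finset fun e _ => ?_
    exact (isClopen_discrete {true}).preimage (continuous_apply e)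
  · refine isClopen_biInter_finset fun e _ => ?_
    exact (isClopen_discrete {false}).preimage (continuous_apply e)

/-- the uniform measure on a nonempty finite family of finite sets -/
noncomputable def unifLaw {E : Type*} [DecidableEq E] (𝒯 : Finset (Finset E)) : Measure (E → Bool) :=
  (𝒯.card : ℝ≥0∞)⁻¹ • ∑ T ∈ 𝒯, Measure.dirac (fun e => decide (e ∈ T))

lemma unifLaw_apply {E : Type*} [DecidableEq E] (𝒯 : Finset (Finset E)) (A B : Finset E) :
    unifLaw 𝒯 (toSet ⁻¹' (cyl A B)) =
      (𝒯.card : ℝ≥0∞)⁻¹ * ((𝒯.filter (fun T => A ⊆ T ∧ Disjoint B T)).card : ℝ≥0∞) := by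
  have hm : MeasurableSet ((toSet : (E → Bool) → Set E) ⁻¹' (cyl A B)) :=
    measurable_toSet (measurableSet_cyl A B)
  unfold unifLaw
  rw [Measure.smul_apply, Measure.finsetSum_apply, smul_eq_mul]
  congr 1
  rw [Finset.card_filter]
  push_cast
  refine Finset.sum_congr rfl fun T _ => ?_
  rw [Measure.dirac_apply' _ hm]
  by_cases h : A ⊆ T ∧ Disjoint B T
  · rw [if_pos h, Set.indicator_of_mem]
    · rfl
    · rw [toSet_preimage_cyl]
      refine ⟨fun e he => decide_eq_true (h.1 he), fun e he => decide_eq_false ?_⟩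
      exact Finset.disjoint_left.mp h.2 he
  · rw [if_neg h, Set.indicator_of_notMem]
    intro h'
    rw [toSet_preimage_cyl] at h'
    refine h ⟨fun e he => of_decide_eq_true (h'.1 e he), ?_⟩
    exact Finset.disjoint_left.mpr fun e he => of_decide_eq_false (h'.2 e he)

lemma isProbabilityMeasure_unifLaw {E : Type*} [DecidableEq E] {𝒯 : Finset (Finset E)}
    (h : 𝒯.Nonempty) : IsProbabilityMeasure (unifLaw 𝒯) := by
  constructor
  have h1 := unifLaw_apply 𝒯 ∅ ∅
  have h2 : (toSet : (E → Bool) → Set E) ⁻¹' (cyl ∅ ∅) = Set.univ := by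
    rw [toSet_preimage_cyl]
    ext φ
    simp
  rw [h2, Finset.filter_true_of_mem (fun T _ => by simp)] at h1
  rw [h1]
  refine ENNReal.inv_mul_cancel ?_ (ENNReal.natCast_ne_top _)
  exact_mod_cast (Finset.card_pos.mpr h).ne'

theorem exists_isFUSF [Countable V] (hG : G.Connected) : ∃ μ, IsFUSF G μ := by
  classical
  obtain ⟨H, hH⟩ := exists_isExhaustion hG
  have hne : ∀ n, (spTrees (H n)).Nonempty := fun n =>
    spTrees_nonempty (hH.finite n) (hH.connected n)
  set ν : ℕ → ProbabilityMeasure (Sym2 V → Bool) := fun n =>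
    ⟨unifLaw (spTrees (H n)), isProbabilityMeasure_unifLaw (hne n)⟩ with hν
  have hcount : Countable (Sym2 V) := inferInstance
  have hmet : TopologicalSpace.MetrizableSpace (Sym2 V → Bool) :=
    TopologicalSpace.metrizableSpace_of_t3_secondCountable _
  obtain ⟨μ', -, hμ'⟩ := (isCompact_univ : IsCompact
    (Set.univ : Set (ProbabilityMeasure (Sym2 V → Bool)))).ultrafilter_le_nhds
      ((Filter.hyperfilter ℕ).map ν) (by simp)
  have hlim : Tendsto ν (Filter.hyperfilter ℕ : Filter ℕ) (𝓝 μ') := hμ'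
  refine ⟨(μ' : Measure (Sym2 V → Bool)).map toSet,
    Measure.isProbabilityMeasure_map measurable_toSet.aemeasurable, ?_⟩
  intro H' hH' A B
  have key : ((μ' : Measure (Sym2 V → Bool)).map toSet).real (cyl A B) =
      (μ' (toSet ⁻¹' (cyl A B)) : ℝ) := by
    rw [measureReal_def, Measure.map_apply measurable_toSet (measurableSet_cyl A B)]
    rfl
  obtain ⟨l, hl⟩ := conv_ustProb (G := G) A B
  have h1 : Tendsto (fun n => ((ν n (toSet ⁻¹' (cyl A B)) : NNReal) : ℝ))
      (Filter.hyperfilter ℕ : Filter ℕ) (𝓝 (μ' (toSet ⁻¹' (cyl A B)) : ℝ)) :=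
    (NNReal.tendsto_coe.mpr
      (ProbabilityMeasure.tendsto_measure_of_isClopen_of_tendsto hlim (isClopen_cyl A B)))
  have h2 : ∀ n, ((ν n (toSet ⁻¹' (cyl A B)) : NNReal) : ℝ) = ustProb (H n) A B := by
    intro n
    rw [ustProb_eq (hH.finite n)]
    have h3 : ((ν n (toSet ⁻¹' (cyl A B)) : NNReal) : ℝ) =
        (unifLaw (spTrees (H n)) (toSet ⁻¹' (cyl A B))).toReal := rfl
    rw [h3, unifLaw_apply, ENNReal.toReal_mul, ENNReal.toReal_inv, ENNReal.toReal_natCast,
      ENNReal.toReal_natCast, cylP]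
    rw [inv_mul_eq_div]
  simp_rw [h2] at h1
  have h4 : Tendsto (fun n => ustProb (H n) A B) (Filter.hyperfilter ℕ : Filter ℕ) (𝓝 l) :=
    (hl H hH).mono_left (by
      rw [← Nat.cofinite_eq_atTop]; exact Filter.hyperfilter_le_cofinite)
  have h5 : l = (μ' (toSet ⁻¹' (cyl A B)) : ℝ) := tendsto_nhds_unique h4 h1
  have h6 := hl H' hH'
  rw [h5, ← key] at h6
  exact h6

theorem IsFUSF.unique [Countable V] (hG : G.Connected) {μ ν : Measure (Set (Sym2 V))}
    (hμ : IsFUSF G μ) (hν : IsFUSF G ν) : μ = ν := by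
  obtain ⟨H, hH⟩ := exists_isExhaustion hG
  have := hμ.1
  have := hν.1
  refine ext_cyl fun A B => ?_
  exact tendsto_nhds_unique (hμ.2 H hH A B) (hν.2 H hH A B)

end Vale.Agent.P143
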