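import Vale.Agent.Lib.P143.FusfExh

/-!
Convergence of the spanning tree measures along exhaustions; the limit does not depend on the
exhaustion.
-/

set_option linter.unusedSectionVars false

namespace Vale.Agent.P143

open Finset Filter Topology

universe u

variable {V : Type u} [DecidableEq V] {G : SimpleGraph V}

/-- `f` converges along every exhaustion, with a limit not depending on the exhaustion -/
def Conv (G : SimpleGraph V) (f : G.Subgraph → ℝ) : Prop :=
  ∃ l : ℝ, ∀ H : ℕ → G.Subgraph, IsExhaustion G H → Tendsto (fun n => f (H n)) atTop (𝓝 l)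

lemma Conv.const (c : ℝ) : Conv G (fun _ => c) := ⟨c, fun _ _ => tendsto_const_nhds⟩

lemma Conv.add {f g : G.Subgraph → ℝ} (hf : Conv G f) (hg : Conv G g) :
    Conv G (fun H => f H + g H) := by
  obtain ⟨a, ha⟩ := hf
  obtain ⟨b, hb⟩ := hg
  exact ⟨a + b, fun H hH => (ha H hH).add (hb H hH)⟩

lemma Conv.mul {f g : G.Subgraph → ℝ} (hf : Conv G f) (hg : Conv G g) :
    Conv G (fun H => f H * g H) := by
  obtain ⟨a, ha⟩ := hf
  obtain ⟨b, hb⟩ := hg
  exact ⟨a * b, fun H hH => (ha H hH).mul (hb H hH)⟩

lemma Conv.sub {f g : G.Subgraph → ℝ} (hf : Conv G f) (hg : Conv G g) :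
    Conv G (fun H => f H - g H) := by
  obtain ⟨a, ha⟩ := hf
  obtain ⟨b, hb⟩ := hg
  exact ⟨a - b, fun H hH => (ha H hH).sub (hb H hH)⟩

lemma Conv.sum {ι : Type*} {s : Finset ι} {f : ι → G.Subgraph → ℝ}
    (hf : ∀ i ∈ s, Conv G (f i)) : Conv G (fun H => ∑ i ∈ s, f i H) := by
  classical
  induction s using Finset.induction with
  | empty => simpa using Conv.const 0
  | insert a s ha ih =>
    have h1 := hf a (Finset.mem_insert_self a s)
    have h2 := ih fun i hi => hf i (Finset.mem_insert_of_mem hi)
    have h3 := h1.add h2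
    simpa [Finset.sum_insert ha] using h3

lemma Conv.congr {f g : G.Subgraph → ℝ} (hf : Conv G f)
    (h : ∀ H : G.Subgraph, H.verts.Finite → H.Connected → f H = g H) : Conv G g := by
  obtain ⟨a, ha⟩ := hf
  refine ⟨a, fun H hH => (ha H hH).congr fun n => h _ (hH.finite n) (hH.connected n)⟩

/-- one edge marginals converge -/
lemma conv_pin {w : Sym2 V → ℝ} (hw : ∀ e, 0 < w e) (e : Sym2 V) :
    Conv G (fun H => pin (spTrees H) w e) := by
  set S : Set ℝ := {R | ∃ K : G.Subgraph, K.verts.Finite ∧ K.Connected ∧ e ∈ K.edgeSet ∧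
    R = pin (spTrees K) w e / w e} with hS
  refine ⟨sInf S * w e, fun H hH => ?_⟩
  by_cases he : e ∈ G.edgeSet
  · obtain ⟨n0, hn0⟩ := hH.exists_edge he
    have hmemn : ∀ n, n0 ≤ n → e ∈ (H n).edgeSet := fun n hn =>
      SimpleGraph.Subgraph.edgeSet_mono (hH.mono hn) hn0
    have hbdd : BddBelow S := by
      refine ⟨0, ?_⟩
      rintro _ ⟨K, hK, hKc, heK, rfl⟩
      exact div_nonneg (pin_nonneg _ (fun g => (hw g).le) _) (hw e).le
    have hne : S.Nonempty := ⟨_, H n0, hH.finite n0, hH.connected n0, hn0, rfl⟩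
    have h1 : Tendsto (fun n => pin (spTrees (H n)) w e / w e) atTop (𝓝 (sInf S)) := by
      rw [Metric.tendsto_atTop]
      intro ε hε
      obtain ⟨R, ⟨K, hK, hKc, heK, rfl⟩, hR⟩ := exists_lt_of_csInf_lt hne
        (lt_add_of_pos_right (sInf S) hε)
      obtain ⟨m, hm⟩ := hH.exists_le hK
      refine ⟨max n0 m, fun n hn => ?_⟩
      have hle : K ≤ H n := hm.trans (hH.mono ((le_max_right _ _).trans hn))
      have h2 := pin_div_anti (hH.finite n) hKc (hH.connected n) hle hw (fun g => le_rfl) heK
      have h3 : sInf S ≤ pin (spTrees (H n)) w e / w e :=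
        csInf_le hbdd ⟨H n, hH.finite n, hH.connected n,
          hmemn n ((le_max_left _ _).trans hn), rfl⟩
      rw [Real.dist_eq, abs_of_nonneg (by linarith)]
      linarith
    have h2 := h1.mul_const (w e)
    refine h2.congr fun n => ?_
    rw [div_mul_cancel₀ _ (hw e).ne']
  · have h1 : S = ∅ := by
      rw [Set.eq_empty_iff_forall_notMem]
      rintro _ ⟨K, _, _, heK, _⟩
      exact he (K.edgeSet_subset heK)
    rw [h1, Real.sInf_empty, zero_mul]
    refine tendsto_const_nhds.congr fun n => ?_
    exact (pin_eq_zero (hH.finite n) w fun h => he ((H n).edgeSet_subset h)).symm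

lemma ZZ_update (𝒯 : Finset (Finset (Sym2 V))) {w : Sym2 V → ℝ} (hw : ∀ e, 0 < w e)
    (hZ : 0 < ZZ 𝒯 w) (e : Sym2 V) (c : ℝ) :
    ZZ 𝒯 (Function.update w e c) / ZZ 𝒯 w = 1 + (c / w e - 1) * pin 𝒯 w e := by
  have h0 := (hw e).ne'
  have h1 : ZZ 𝒯 (Function.update w e ((c / w e) * w e)) =
      ZZ 𝒯 w + (c / w e - 1) * Zin 𝒯 w e := by
    rw [← Zin_add_Zout 𝒯 (Function.update w e ((c / w e) * w e)) e, ← Zin_add_Zout 𝒯 w e,
      Zin_update_self]
    have h2 : ∑ S ∈ 𝒯 with e ∉ S, wt (Function.update w e ((c / w e) * w e)) S =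
        ∑ S ∈ 𝒯 with e ∉ S, wt w S :=
      Finset.sum_congr rfl fun S hS => wt_update_of_notMem (Finset.mem_filter.mp hS).2 _
    rw [h2]
    ring
  rw [div_mul_cancel₀ _ h0] at h1
  rw [h1, pin]
  field_simp

/-- generating functions converge -/
lemma conv_ratio (F : Finset (Sym2 V)) : ∀ (w : Sym2 V → ℝ), (∀ e, 0 < w e) →
    (∀ e ∉ F, w e = 1) → Conv G (fun H => ZZ (spTrees H) w / ZZ (spTrees H) (fun _ => 1)) := by
  induction F using Finset.induction with
  | empty =>
    intro w _ h1
    have : w = fun _ => 1 := funext fun e => h1 e (Finset.notMem_empty e)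
    subst this
    refine (Conv.const 1).congr fun H hfin hc => ?_
    rw [div_self]
    exact (ZZ_pos (spTrees_nonempty hfin hc) fun _ => one_pos).ne'
  | insert a F ha ih =>
    intro w hw h1
    set w' := Function.update w a 1 with hw'
    have hw'pos : ∀ e, 0 < w' e := by
      intro e
      by_cases he : e = a
      · subst he; rw [hw', Function.update_self]; exact one_pos
      · rw [hw', Function.update_of_ne he]; exact hw e
    have hw'1 : ∀ e ∉ F, w' e = 1 := by
      intro e he
      by_cases hea : e = a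
      · subst hea; rw [hw', Function.update_self]
      · rw [hw', Function.update_of_ne hea]
        exact h1 e fun h => (Finset.mem_insert.mp h).elim hea he
    have h2 := ih w' hw'pos hw'1
    have h3 : Conv G (fun H => 1 + (w a / w' a - 1) * pin (spTrees H) w' a) :=
      (Conv.const 1).add ((Conv.const _).mul (conv_pin hw'pos a))
    refine (h3.mul h2).congr fun H hfin hc => ?_
    have hZ : 0 < ZZ (spTrees H) w' := ZZ_pos (spTrees_nonempty hfin hc) hw'pos
    rw [← ZZ_update (spTrees H) hw'pos hZ a (w a)]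
    have h4 : Function.update w' a (w a) = w := by
      rw [hw', Function.update_idem, Function.update_eq_self]
    rw [h4]
    have hZ1 : 0 < ZZ (spTrees H) (fun _ => (1 : ℝ)) :=
      ZZ_pos (spTrees_nonempty hfin hc) fun _ => one_pos
    field_simp

/-- proportion of the spanning trees containing `A` and disjoint from `B` -/
noncomputable def cylP (H : G.Subgraph) (A B : Finset (Sym2 V)) : ℝ :=
  (((spTrees H).filter (fun T => A ⊆ T ∧ Disjoint B T)).card : ℝ) / ((spTrees H).card : ℝ)

lemma ustProb_eq {H : G.Subgraph} (hfin : H.verts.Finite) (A B : Finset (Sym2 V)) :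
    ustProb H A B = cylP H A B := by
  classical
  have h1 : ∀ p : Set (Sym2 V) → Prop, ∀ q : Finset (Sym2 V) → Prop,
      (∀ T : Finset (Sym2 V), p T ↔ q T) → ∀ [DecidablePred q],
      {T : Set (Sym2 V) | IsSpanningTree H T ∧ p T}.ncard = ((spTrees H).filter q).card := by
    intro p q hpq _
    have h2 : {T : Set (Sym2 V) | IsSpanningTree H T ∧ p T} =
        ((((spTrees H).filter q).image (fun T : Finset (Sym2 V) => (T : Set (Sym2 V))) :
          Finset (Set (Sym2 V))) : Set (Set (Sym2 V))) := by
      ext T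
      rw [Finset.coe_image, Set.mem_image]
      constructor
      · rintro ⟨hT, hp⟩
        have hTf : T.Finite := (edgeSet_finite hfin).subset hT.1
        refine ⟨hTf.toFinset, ?_, by simp⟩
        rw [Finset.mem_coe, Finset.mem_filter, mem_spTrees hfin]
        refine ⟨by simpa using hT, ?_⟩
        rw [← hpq]
        simpa using hp
      · rintro ⟨S, hS, rfl⟩
        rw [Finset.mem_coe, Finset.mem_filter, mem_spTrees hfin] at hS
        exact ⟨hS.1, (hpq S).mpr hS.2⟩
    rw [h2, Set.ncard_coe_finset, Finset.card_image_of_injective _ Finset.coe_injective]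
  have h3 := h1 (fun T => (A : Set (Sym2 V)) ⊆ T ∧ Disjoint (B : Set (Sym2 V)) T)
    (fun T => A ⊆ T ∧ Disjoint B T) (fun T => by
      rw [Finset.coe_subset, Finset.disjoint_coe])
  have h4 := h1 (fun T => True) (fun T => True) (fun T => Iff.rfl)
  simp only [and_true] at h4
  rw [Finset.filter_true_of_mem (fun _ _ => trivial)] at h4
  unfold ustProb cylP
  rw [h3, h4]

lemma cylP_split (H : G.Subgraph) (A B : Finset (Sym2 V)) (b : Sym2 V) :
    cylP H A (insert b B) = cylP H A B - cylP H (insert b A) B := by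
  unfold cylP
  rw [← sub_div]
  congr 1
  have h1 : (spTrees H).filter (fun T => A ⊆ T ∧ Disjoint B T) =
      (spTrees H).filter (fun T => A ⊆ T ∧ Disjoint (insert b B) T) ∪
      (spTrees H).filter (fun T => insert b A ⊆ T ∧ Disjoint B T) := by
    ext T
    simp only [Finset.mem_union, Finset.mem_filter, Finset.disjoint_insert_left,
      Finset.insert_subset_iff]
    tauto
  have h2 : Disjoint ((spTrees H).filter (fun T => A ⊆ T ∧ Disjoint (insert b B) T))
      ((spTrees H).filter (fun T => insert b A ⊆ T ∧ Disjoint B T)) := by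
    rw [Finset.disjoint_left]
    intro T hT hT'
    simp only [Finset.mem_filter, Finset.disjoint_insert_left, Finset.insert_subset_iff] at hT hT'
    exact hT.2.2.1 hT'.2.1.1
  rw [h1, Finset.card_union_of_disjoint h2]
  push_cast
  ring

/-- `2 ^ |T ∩ A|` expanded over subsets -/
lemma ratio_two (H : G.Subgraph) (A : Finset (Sym2 V)) :
    ZZ (spTrees H) (fun e => if e ∈ A then 2 else 1) / ZZ (spTrees H) (fun _ => 1) =
      ∑ B ∈ A.powerset, cylP H B ∅ := by
  have h1 : ZZ (spTrees H) (fun _ => (1 : ℝ)) = (spTrees H).card := by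
    simp [ZZ, wt]
  have h2 : ZZ (spTrees H) (fun e => if e ∈ A then (2 : ℝ) else 1) =
      ∑ B ∈ A.powerset, ((spTrees H).filter (fun T => B ⊆ T ∧ Disjoint ∅ T)).card := by
    have h3 : ∀ T : Finset (Sym2 V), wt (fun e => if e ∈ A then (2 : ℝ) else 1) T =
        ∑ B ∈ A.powerset, if B ⊆ T ∧ Disjoint ∅ T then (1 : ℝ) else 0 := by
      intro T
      unfold wt
      rw [Finset.prod_ite, Finset.prod_const, Finset.prod_const_one, mul_one]
      rw [Finset.sum_ite, Finset.sum_const_zero, add_zero, Finset.sum_const, nsmul_eq_mul, mul_one]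
      have h4 : A.powerset.filter (fun B => B ⊆ T ∧ Disjoint ∅ T) =
          (T.filter (fun e => e ∈ A)).powerset := by
        ext B
        simp only [Finset.mem_filter, Finset.mem_powerset, Finset.disjoint_empty_left, and_true]
        constructor
        · rintro ⟨h5, h6⟩ x hx
          exact Finset.mem_filter.mpr ⟨h6 hx, h5 hx⟩
        · intro h5
          exact ⟨fun x hx => (Finset.mem_filter.mp (h5 hx)).2,
            fun x hx => (Finset.mem_filter.mp (h5 hx)).1⟩
      rw [h4, Finset.card_powerset]
      push_cast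
      rfl
    unfold ZZ
    simp_rw [h3]
    rw [Finset.sum_comm]
    push_cast
    refine Finset.sum_congr rfl fun B _ => ?_
    rw [Finset.sum_boole]
  rw [h1, h2]
  push_cast
  rw [Finset.sum_div]
  rfl

lemma conv_cylP_empty : ∀ (n : ℕ) (A : Finset (Sym2 V)), A.card ≤ n →
    Conv G (fun H => cylP H A ∅) := by
  intro n
  induction n with
  | zero =>
    intro A hA
    have hA' : A = ∅ := Finset.card_eq_zero.mp (Nat.le_zero.mp hA)
    subst hA'
    refine (Conv.const 1).congr fun H hfin hc => ?_
    have h1 : 0 < (spTrees H).card := Finset.card_pos.mpr (spTrees_nonempty hfin hc)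
    unfold cylP
    rw [Finset.filter_true_of_mem (fun T _ => by simp)]
    rw [div_self]
    positivity
  | succ n ih =>
    intro A hA
    have h1 : Conv G (fun H => ZZ (spTrees H) (fun e => if e ∈ A then 2 else 1) /
        ZZ (spTrees H) (fun _ => 1)) := by
      refine conv_ratio A _ (fun e => ?_) (fun e he => if_neg he)
      split_ifs <;> norm_num
    have h2 : Conv G (fun H => ∑ B ∈ A.powerset.erase A, cylP H B ∅) := by
      refine Conv.sum fun B hB => ih B ?_
      rw [Finset.mem_erase, Finset.mem_powerset] at hB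
      have := Finset.card_lt_card (hB.2.ssubset_of_ne hB.1)
      omega
    refine (h1.sub h2).congr fun _ _ _ => ?_
    rw [ratio_two, ← Finset.add_sum_erase _ _ (Finset.mem_powerset_self A)]
    ring

lemma conv_cylP (A B : Finset (Sym2 V)) : Conv G (fun H => cylP H A B) := by
  induction B using Finset.induction generalizing A with
  | empty => exact conv_cylP_empty A.card A le_rfl
  | insert b B _ ih =>
    refine ((ih A).sub (ih (insert b A))).congr fun H _ _ => ?_
    rw [cylP_split]

lemma conv_ustProb (A B : Finset (Sym2 V)) : Conv G (fun H => ustProb H A B) :=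
  (conv_cylP A B).congr fun H hfin _ => (ustProb_eq hfin A B).symm

end Vale.Agent.P143
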