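import Vale.Agent.Lib.P143.Bayes

/-!
# The posterior mean given all earlier signals is the drift
-/

namespace Vale.Agent.P143

open Filter Topology Set MeasureTheory ProbabilityTheory
open scoped unitInterval

set_option linter.unusedSectionVars false

variable {E : Type*} [DecidableEq E]

/-- Signal `p` comes before signal `q` (rounds first, then the order `T`). -/
def prec (T : E → ℝ) (p q : ℕ × E) : Prop := p.1 < q.1 ∨ (p.1 = q.1 ∧ T p.2 < T q.2)

/-- Keep only the signals before `q`. -/
noncomputable def past (T : E → ℝ) (q : ℕ × E) (z : ℕ × E → ℝ) (p : ℕ × E) : ℝ := by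
  classical exact if prec T p q then z p else 0

/-- The finite set of signals of sites in `A` before `q`. -/
noncomputable def Sr (T : E → ℝ) (q : ℕ × E) (A : Finset E) : Finset (ℕ × E) := by
  classical exact ((Finset.range (q.1 + 1)) ×ˢ A).filter fun p => prec T p q

/-- Keep only the signals in `S`. -/
noncomputable def keep (S : Finset (ℕ × E)) (z : ℕ × E → ℝ) (p : ℕ × E) : ℝ :=
  if p ∈ S then z p else 0

lemma mem_Sr {T : E → ℝ} {q : ℕ × E} {A : Finset E} {p : ℕ × E} :
    p ∈ Sr T q A ↔ p.2 ∈ A ∧ prec T p q := by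
  classical
  unfold Sr
  rw [Finset.mem_filter, Finset.mem_product, Finset.mem_range]
  constructor
  · rintro ⟨⟨_, h2⟩, h3⟩; exact ⟨h2, h3⟩
  · rintro ⟨h2, h3⟩
    refine ⟨⟨?_, h2⟩, h3⟩
    rcases h3 with h | h <;> omega

lemma measurable_keep (S : Finset (ℕ × E)) : Measurable (keep S) := by
  refine measurable_pi_lambda _ fun p => ?_
  unfold keep
  split_ifs
  · exact measurable_pi_apply p
  · exact measurable_const

lemma measurable_past (T : E → ℝ) (q : ℕ × E) : Measurable (past T q) := by
  classical
  refine measurable_pi_lambda _ fun p => ?_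
  unfold past
  by_cases h : prec T p q
  · simp only [h, if_true]; exact measurable_pi_apply p
  · simp only [h, if_false]; exact measurable_const

/-- `pastLog` on a finite set is the sum over the finitely many relevant signals. -/
lemma pastLog_eq_yS (T : E → ℝ) (z : ℕ × E → ℝ) (q : ℕ × E) (A : Finset E) {g : E} (hg : g ∈ A) :
    pastLog T (fun k f => z (k, f)) q.1 q.2 g = yS (Sr T q A) z g := by
  classical
  obtain ⟨k, f⟩ := q
  have h1 : yS (Sr T (k, f) A) z g
      = ∑ j ∈ Finset.range (k + 1), if prec T (j, g) (k, f) then llr (z (j, g)) else 0 := by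
    unfold yS
    rw [← Finset.sum_filter]
    refine Finset.sum_nbij' (fun p => p.1) (fun j => (j, g)) ?_ ?_ ?_ ?_ ?_
    · rintro ⟨j, g'⟩ hp
      rw [Finset.mem_filter, mem_Sr] at hp
      obtain ⟨⟨_, h3⟩, rfl⟩ := hp
      rw [Finset.mem_filter, Finset.mem_range]
      refine ⟨?_, h3⟩
      rcases h3 with h | h <;> simp only at h <;> omega
    · intro j hj
      rw [Finset.mem_filter] at hj
      rw [Finset.mem_filter, mem_Sr]
      exact ⟨⟨hg, hj.2⟩, rfl⟩
    · rintro ⟨j, g'⟩ hp
      rw [Finset.mem_filter, mem_Sr] at hp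
      obtain ⟨_, rfl⟩ := hp
      rfl
    · intro j _; rfl
    · rintro ⟨j, g'⟩ hp
      rw [Finset.mem_filter, mem_Sr] at hp
      obtain ⟨_, rfl⟩ := hp
      rfl
  rw [h1, Finset.sum_range_succ]
  simp only [pastLog, seen]
  congr 1
  · refine Finset.sum_congr rfl fun j hj => ?_
    have : prec T (j, g) (k, f) := Or.inl (Finset.mem_range.1 hj)
    rw [if_pos this]
  · by_cases h : T g < T f
    · rw [if_pos h, if_pos (show prec T (k, g) (k, f) from Or.inr ⟨rfl, h⟩)]
    · rw [if_neg h, if_neg]
      rintro (h' | h')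
      · exact lt_irrefl _ h'
      · exact h h'.2

lemma tilt_congr (μ : Measure (Set E)) (A : Finset E) {y y' : E → ℝ} (h : ∀ g ∈ A, y g = y' g)
    (f : E) : tilt μ A y f = tilt μ A y' f := by
  have : tw A y = tw A y' := by
    funext x
    unfold tw
    congr 1
    exact Finset.sum_congr rfl fun g hg => by rw [h g hg]
  unfold tilt
  rw [this]

/-- the log-weights before `q` depend only on the past of `q` -/
lemma pastLog_congr (T : E → ℝ) (q : ℕ × E) {z z' : ℕ × E → ℝ}
    (h : ∀ p, prec T p q → z p = z' p) :
    pastLog T (fun k f => z (k, f)) q.1 q.2 = pastLog T (fun k f => z' (k, f)) q.1 q.2 := by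
  classical
  funext g
  rw [pastLog_eq_yS T z q {g} (Finset.mem_singleton_self g),
    pastLog_eq_yS T z' q {g} (Finset.mem_singleton_self g)]
  rw [yS_congr fun p hp => h p (mem_Sr.1 hp).2]

variable (μ : Measure (Set E)) [IsProbabilityMeasure μ]

/-- Posterior mean of `q.2` given the signals before `q`. -/
noncomputable def postMean (μ : Measure (Set E)) (A : ℕ → E → Finset E) (T : E → ℝ) (q : ℕ × E)
    (z : ℕ × E → ℝ) : ℝ :=
  drift μ A q.2 (pastLog T (fun k f => z (k, f)) q.1 q.2)

lemma postMean_mem (A : ℕ → E → Finset E) (T : E → ℝ) (q : ℕ × E) (z : ℕ × E → ℝ) :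
    postMean μ A T q z ∈ Icc (0 : ℝ) 1 :=
  limsup_mem fun _ => tilt_mem μ _ _ _

lemma measurable_pastLog (T : E → ℝ) (q : ℕ × E) :
    Measurable fun z : ℕ × E → ℝ => pastLog T (fun k f => z (k, f)) q.1 q.2 := by
  classical
  refine measurable_pi_lambda _ fun g => ?_
  have : (fun z : ℕ × E → ℝ => pastLog T (fun k f => z (k, f)) q.1 q.2 g)
      = fun z => yS (Sr T q {g}) z g := by
    funext z
    exact pastLog_eq_yS T z q {g} (Finset.mem_singleton_self g)
  rw [this]
  exact (measurable_pi_apply g).comp (measurable_yS _)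

lemma measurable_postMean (A : ℕ → E → Finset E) (T : E → ℝ) (q : ℕ × E) :
    Measurable (postMean μ A T q) := by
  unfold postMean drift
  exact Measurable.limsup fun r => (measurable_tilt' μ _ _).comp (measurable_pastLog T q)

lemma postMean_congr (A : ℕ → E → Finset E) (T : E → ℝ) (q : ℕ × E) {z z' : ℕ × E → ℝ}
    (h : ∀ p, prec T p q → z p = z' p) : postMean μ A T q z = postMean μ A T q z' := by
  unfold postMean
  rw [pastLog_congr T q h]

/-- **Posterior mean.** -/
theorem integral_ind_mul_past (A : ℕ → E → Finset E) (hmono : ∀ f, Monotone fun r => A r f)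
    (hex : ∀ f g, ∃ r, g ∈ A r f) (T : E → ℝ) (q : ℕ × E) {h : (ℕ × E → ℝ) → ℝ}
    (hh : Measurable h) {C : ℝ} (hC : ∀ z, |h z| ≤ C) :
    ∫ ω, ind ω.1 q.2 * h (past T q (Ys ω.1 ω.2)) ∂(μ.prod (noise E))
      = ∫ ω, postMean μ A T q (Ys ω.1 ω.2) * h (past T q (Ys ω.1 ω.2)) ∂(μ.prod (noise E)) := by
  classical
  set P := μ.prod (noise E) with hP
  set Y : Set E × (ℕ × E → I) → (ℕ × E → ℝ) := fun ω => Ys ω.1 ω.2 with hY
  have hYm : Measurable Y := measurable_Ys
  set X : Set E × (ℕ × E → I) → ℝ := fun ω => ind ω.1 q.2 with hX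
  have hXm : Measurable X := (measurable_ind q.2).comp measurable_fst
  have hXi : Integrable X P := Integrable.of_bound hXm.aestronglyMeasurable 1
    (Eventually.of_forall fun ω => by
      rw [Real.norm_eq_abs, abs_of_nonneg (ind_nonneg _ _)]; exact ind_le_one _ _)
  set S : ℕ → Finset (ℕ × E) := fun r => Sr T q (A r q.2) with hS
  have hSmono : Monotone S := by
    intro r r' hr p hp
    rw [hS] at hp ⊢
    simp only [mem_Sr] at hp ⊢
    exact ⟨hmono q.2 hr hp.1, hp.2⟩
  set Z : ℕ → (Set E × (ℕ × E → I)) → (ℕ × E → ℝ) := fun r ω => keep (S r) (Y ω) with hZ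
  have hZm : ∀ r, Measurable (Z r) := fun r => (measurable_keep _).comp hYm
  let ℱ : Filtration ℕ (inferInstance : MeasurableSpace (Set E × (ℕ × E → I))) :=
    { seq := fun r => MeasurableSpace.comap (Z r) inferInstance
      mono' := by
        intro r r' hr
        have : Z r = keep (S r) ∘ Z r' := by
          funext ω
          funext p
          simp only [hZ, Function.comp_apply, keep]
          by_cases hp : p ∈ S r
          · simp [hp, hSmono hr hp]
          · simp [hp]
        change MeasurableSpace.comap (Z r) _ ≤ MeasurableSpace.comap (Z r') _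
        rw [this, ← MeasurableSpace.comap_comp]
        exact MeasurableSpace.comap_mono (measurable_keep _).comap_le
      le' := fun r => (hZm r).comap_le }
  -- finite posterior
  have hfin : ∀ r, (fun ω => tilt μ (A r q.2) (yS (S r) (Y ω)) q.2) =ᵐ[P] P[X | ℱ r] := by
    intro r
    have htm : Measurable fun ω => tilt μ (A r q.2) (yS (S r) (Y ω)) q.2 :=
      ((measurable_tilt' μ _ _).comp (measurable_yS _)).comp hYm
    have hti : Integrable (fun ω => tilt μ (A r q.2) (yS (S r) (Y ω)) q.2) P :=
      Integrable.of_bound htm.aestronglyMeasurable 1 (Eventually.of_forall fun ω => by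
        have := tilt_mem μ (A r q.2) (yS (S r) (Y ω)) q.2
        rw [Real.norm_eq_abs, abs_of_nonneg this.1]; exact this.2)
    refine ae_eq_condExp_of_forall_setIntegral_eq (ℱ.le r) hXi (fun s _ _ => hti.integrableOn)
      ?_ ?_
    · rintro s ⟨B, hB, rfl⟩ _
      have hms : MeasurableSet (Z r ⁻¹' B) := hZm r hB
      set φ : (ℕ × E → ℝ) → ℝ := fun z => B.indicator (fun _ => (1 : ℝ)) (keep (S r) z) with hφ
      have hφm : Measurable φ := (measurable_const.indicator hB).comp (measurable_keep _)
      have hφb : ∀ z, |φ z| ≤ 1 := by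
        intro z
        rw [hφ]
        simp only
        by_cases hz : keep (S r) z ∈ B <;> simp [hz]
      have hdep : ∀ z z', (∀ p ∈ S r, z p = z' p) → φ z = φ z' := by
        intro z z' hzz
        have : keep (S r) z = keep (S r) z' := by
          funext p
          unfold keep
          by_cases hp : p ∈ S r
          · simp [hp, hzz p hp]
          · simp [hp]
        simp only [hφ, this]
      have hb := bayes μ (S r) (A r q.2) (fun p hp => (mem_Sr.1 hp).1) q.2 hφm hφb hdep
      have e1 : ∀ F : Set E × (ℕ × E → I) → ℝ, ∫ ω in Z r ⁻¹' B, F ω ∂P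
          = ∫ ω, F ω * φ (Y ω) ∂P := by
        intro F
        rw [← integral_indicator hms]
        congr 1
        funext ω
        by_cases hω : ω ∈ Z r ⁻¹' B
        · rw [Set.indicator_of_mem hω]
          have hω' : keep (S r) (Y ω) ∈ B := hω
          have : φ (Y ω) = 1 := by
            simp only [hφ]; exact Set.indicator_of_mem hω' _
          rw [this, mul_one]
        · rw [Set.indicator_of_notMem hω]
          have hω' : keep (S r) (Y ω) ∉ B := hω
          have : φ (Y ω) = 0 := by
            simp only [hφ]; exact Set.indicator_of_notMem hω' _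
          rw [this, mul_zero]
      have hφY : Measurable fun ω => φ (Y ω) := hφm.comp hYm
      have ia : Integrable (fun ω => X ω * φ (Y ω)) P :=
        Integrable.of_bound (hXm.mul hφY).aestronglyMeasurable 1 (Eventually.of_forall fun ω => by
          have h1 := ind_mem ω.1 q.2
          have h2 := hφb (Y ω)
          rw [Real.norm_eq_abs, abs_mul, abs_of_nonneg h1.1]
          nlinarith [h1.1, h1.2, abs_nonneg (φ (Y ω))])
      have ib : Integrable (fun ω => tilt μ (A r q.2) (yS (S r) (Y ω)) q.2 * φ (Y ω)) P :=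
        Integrable.of_bound (htm.mul hφY).aestronglyMeasurable 1 (Eventually.of_forall fun ω => by
          have h1 := tilt_mem μ (A r q.2) (yS (S r) (Y ω)) q.2
          have h2 := hφb (Y ω)
          rw [Real.norm_eq_abs, abs_mul, abs_of_nonneg h1.1]
          nlinarith [h1.1, h1.2, abs_nonneg (φ (Y ω))])
      rw [e1, e1, hP, integral_prod _ ia, integral_prod _ ib]
      exact hb.symm
    · refine StronglyMeasurable.aestronglyMeasurable ?_
      have : (fun ω => tilt μ (A r q.2) (yS (S r) (Y ω)) q.2)
          = (fun z => tilt μ (A r q.2) (yS (S r) z) q.2) ∘ Z r := by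
        funext ω
        simp only [Function.comp_apply]
        congr 1
        exact yS_congr fun p hp => by simp [hZ, keep, hp]
      rw [this]
      exact (((measurable_tilt' μ _ _).comp (measurable_yS _)).comp
        (comap_measurable (Z r))).stronglyMeasurable
  -- the limit
  have hlim : (fun ω => postMean μ A T q (Y ω)) =ᵐ[P] P[X | ⨆ r, ℱ r] := by
    filter_upwards [tendsto_ae_condExp (μ := P) (ℱ := ℱ) X, ae_all_iff.2 hfin] with ω h1 h2
    have h3 : ∀ r, tilt μ (A r q.2) (pastLog T (fun k f => Y ω (k, f)) q.1 q.2) q.2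
        = (P[X | ℱ r]) ω := by
      intro r
      rw [← h2 r]
      exact tilt_congr μ _ (fun g hg => pastLog_eq_yS T (Y ω) q _ hg) _
    unfold postMean drift
    simp_rw [h3]
    exact h1.limsup_eq
  -- the past is measurable with respect to the limit sigma-algebra
  have hle : (⨆ r, ℱ r) ≤ (inferInstance : MeasurableSpace (Set E × (ℕ × E → I))) :=
    iSup_le fun r => ℱ.le r
  have hpm : Measurable[⨆ r, ℱ r] fun ω => past T q (Y ω) := by
    refine @measurable_pi_lambda _ _ _ (⨆ r, ℱ r) _ _ fun p => ?_
    by_cases hp : prec T p q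
    · obtain ⟨r, hr⟩ := hex q.2 p.2
      have hpS : p ∈ S r := mem_Sr.2 ⟨hr, hp⟩
      have e : (fun ω => past T q (Y ω) p) = fun ω => Z r ω p := by
        funext ω
        simp [past, hp, hZ, keep, hpS]
      rw [e]
      have : Measurable[ℱ r] fun ω => Z r ω p :=
        (measurable_pi_apply p).comp (comap_measurable (Z r))
      exact this.mono (le_iSup (fun r => ℱ.seq r) r) le_rfl
    · have e : (fun ω => past T q (Y ω) p) = fun _ => 0 := by
        funext ω
        simp [past, hp]
      rw [e]
      exact measurable_const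
  have hHm : StronglyMeasurable[⨆ r, ℱ r] fun ω => h (past T q (Y ω)) :=
    (hh.comp hpm).stronglyMeasurable
  have hHm' : Measurable fun ω => h (past T q (Y ω)) := hh.comp ((measurable_past T q).comp hYm)
  have hXH : Integrable (X * fun ω => h (past T q (Y ω))) P :=
    Integrable.of_bound (hXm.mul hHm').aestronglyMeasurable C (Eventually.of_forall fun ω => by
      have h1 := ind_mem ω.1 q.2
      have h2 := hC (past T q (Y ω))
      simp only [Pi.mul_apply, hX]
      rw [Real.norm_eq_abs, abs_mul, abs_of_nonneg h1.1]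
      nlinarith [h1.1, h1.2, abs_nonneg (h (past T q (Y ω)))])
  have e1 := condExp_mul_of_stronglyMeasurable_right (m := ⨆ r, ℱ r) (μ := P) hHm hXH hXi
  calc ∫ ω, X ω * h (past T q (Y ω)) ∂P
      = ∫ ω, (P[X * (fun ω => h (past T q (Y ω))) | ⨆ r, ℱ r]) ω ∂P :=
        (integral_condExp hle).symm
    _ = ∫ ω, postMean μ A T q (Y ω) * h (past T q (Y ω)) ∂P := by
        refine integral_congr_ae ?_
        filter_upwards [e1, hlim] with ω h1 h2
        rw [h1, Pi.mul_apply, ← h2]

end Vale.Agent.P143
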