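import Vale.Agent.Lib.P143.CauchyBinet

/-!
Weighted matrix-tree theorem for a finite multigraph given by endpoint maps `src tgt : E → V`.
-/

set_option linter.unusedSectionVars false

namespace Vale.Agent.P143

open Finset Matrix

variable {V E : Type*} [Fintype V] [DecidableEq V] [Fintype E] [DecidableEq E]

/-- `x` and `y` are joined by a path of edges in `S`. -/
def Joined (src tgt : E → V) (S : Finset E) (x y : V) : Prop :=
  Relation.EqvGen (fun a b => ∃ e ∈ S, src e = a ∧ tgt e = b) x y

/-- `S` is a spanning tree of the multigraph. -/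
def IsSpTree (src tgt : E → V) (S : Finset E) : Prop :=
  S.card + 1 = Fintype.card V ∧ ∀ x y, Joined src tgt S x y

/-- reduced incidence vector of the edge `e` -/
def inc (R : Type*) [CommRing R] (src tgt : E → V) (r : V) (e : E) : {v : V // v ≠ r} → R :=
  fun v => (if src e = v then 1 else 0) - (if tgt e = v then 1 else 0)

lemma card_ι (r : V) : Fintype.card {v : V // v ≠ r} + 1 = Fintype.card V := by
  have := Fintype.card_subtype_compl (fun v : V => v = r)
  simp only [Fintype.card_unique] at this
  have h2 : 0 < Fintype.card V := Fintype.card_pos_iff.mpr ⟨r⟩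
  have h3 : Fintype.card {v : V // v ≠ r} = Fintype.card V - 1 := by
    convert this using 1
  omega

/-- if `S` is connected, every difference of indicator vectors is in the integer span. -/
lemma single_sub_mem_span (src tgt : E → V) (r : V) (S : Finset E) (x y : V)
    (h : Joined src tgt S x y) :
    (fun v : {v : V // v ≠ r} => (if x = v then (1 : ℤ) else 0) - (if y = v then 1 else 0)) ∈
      Submodule.span ℤ ((fun e => inc ℤ src tgt r e) '' (S : Set E)) := by
  unfold Joined at h
  induction h with
  | rel a b hab =>
    obtain ⟨e, he, rfl, rfl⟩ := hab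
    exact Submodule.subset_span ⟨e, he, rfl⟩
  | refl a =>
    convert Submodule.zero_mem _ using 1
    ext v; simp
  | symm a b _ ih =>
    convert Submodule.neg_mem _ ih using 1
    ext v; simp
  | trans a b c _ _ ih1 ih2 =>
    convert Submodule.add_mem _ ih1 ih2 using 1
    ext v; simp

lemma rowDet_int_cast (src tgt : E → V) (r : V) (g : {v : V // v ≠ r} → E) :
    rowDet (inc ℝ src tgt r) g = ((rowDet (inc ℤ src tgt r) g : ℤ) : ℝ) := by
  unfold rowDet
  have h := RingHom.map_det (Int.castRingHom ℝ) (Matrix.of fun i j => inc ℤ src tgt r (g i) j)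
  rw [show ((Matrix.of fun i j => inc ℤ src tgt r (g i) j).det : ℝ) =
    (Int.castRingHom ℝ) (Matrix.of fun i j => inc ℤ src tgt r (g i) j).det from rfl, h]
  congr 1
  ext i j
  simp [inc, Matrix.map_apply]

lemma rowDet_sq_eq_one (src tgt : E → V) (r : V) (S : Finset E)
    (hconn : ∀ x y, Joined src tgt S x y)
    (g : {v : V // v ≠ r} → E) (hS : univ.image g = S) :
    rowDet (inc ℝ src tgt r) g ^ 2 = 1 := by
  set M : Matrix {v : V // v ≠ r} {v : V // v ≠ r} ℤ :=
    Matrix.of fun i j => inc ℤ src tgt r (g i) j with hM
  have hspan : ∀ v : {v : V // v ≠ r}, (Pi.single v (1 : ℤ)) ∈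
      Submodule.span ℤ (Set.range fun i => M i) := by
    intro v
    have h1 := single_sub_mem_span src tgt r S v r (hconn v r)
    have h2 : ((fun e => inc ℤ src tgt r e) '' (S : Set E)) ⊆ Set.range fun i => M i := by
      rintro _ ⟨e, he, rfl⟩
      rw [← hS] at he
      simp only [Finset.coe_image, Finset.coe_univ, Set.image_univ, Set.mem_range] at he
      obtain ⟨i, rfl⟩ := he
      exact ⟨i, rfl⟩
    have h3 := Submodule.span_mono h2 h1
    convert h3 using 1
    ext u
    have hu : ¬ (r = (u : V)) := fun h => u.2 h.symm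
    simp only [hu, if_false, sub_zero, Pi.single_apply]
    by_cases huv : u = v
    · subst huv; simp
    · have : ¬ ((v : V) = (u : V)) := fun h => huv (Subtype.ext h.symm)
      simp [huv, this]
  have hB : ∃ B : Matrix {v : V // v ≠ r} {v : V // v ≠ r} ℤ, B * M = 1 := by
    have h4 : ∀ v, ∃ c : {v : V // v ≠ r} → ℤ, ∑ i, c i • M i = Pi.single v (1 : ℤ) := by
      intro v
      exact (Submodule.mem_span_range_iff_exists_fun ℤ).mp (hspan v)
    choose c hc using h4
    refine ⟨Matrix.of c, ?_⟩
    ext v u
    have := congrFun (hc v) u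
    rw [Matrix.mul_apply]
    simp only [Finset.sum_apply, Pi.smul_apply, smul_eq_mul] at this
    rw [Matrix.one_apply]
    simp only [Matrix.of_apply]
    rw [this, Pi.single_apply]
    by_cases h : u = v
    · subst h; simp
    · simp [h, Ne.symm h]
  obtain ⟨B, hBM⟩ := hB
  have hdet : IsUnit M.det := by
    have := congrArg Matrix.det hBM
    rw [Matrix.det_mul, Matrix.det_one] at this
    exact IsUnit.of_mul_eq_one _ (by rw [mul_comm]; exact this)
  rw [rowDet_int_cast]
  have h5 : rowDet (inc ℤ src tgt r) g = M.det := rfl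
  rw [h5]
  rcases Int.isUnit_iff.mp hdet with h | h <;> rw [h] <;> norm_num

lemma rowDet_eq_zero_of_not_joined (src tgt : E → V) (r : V) (S : Finset E)
    (hconn : ¬ ∀ x y, Joined src tgt S x y)
    (g : {v : V // v ≠ r} → E) (hS : univ.image g = S) :
    rowDet (inc ℝ src tgt r) g = 0 := by
  classical
  -- some vertex is not joined to `r`
  have hex : ∃ v, ¬ Joined src tgt S r v := by
    by_contra hcon
    push Not at hcon
    exact hconn fun x y => ((hcon x).symm _ _).trans _ _ _ (hcon y)
  obtain ⟨v₀, hv₀⟩ := hex
  unfold rowDet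
  rw [← Matrix.exists_mulVec_eq_zero_iff]
  refine ⟨fun v => if Joined src tgt S r v then 0 else 1, ?_, ?_⟩
  · intro h
    have hne : v₀ ≠ r := by
      rintro rfl
      exact hv₀ (Relation.EqvGen.refl _)
    have := congrFun h ⟨v₀, hne⟩
    simp [hv₀] at this
  · ext i
    rw [Matrix.mulVec, dotProduct]
    simp only [Matrix.of_apply, inc, Pi.zero_apply, sub_mul]
    rw [Finset.sum_sub_distrib, sub_eq_zero]
    have hgi : g i ∈ S := by
      rw [← hS]; exact Finset.mem_image_of_mem _ (Finset.mem_univ _)
    have key : ∀ z : V, ∑ x : {v : V // v ≠ r}, (if z = (x : V) then (1 : ℝ) else 0) *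
        (if Joined src tgt S r x then 0 else 1) = if Joined src tgt S r z then 0 else 1 := by
      intro z
      by_cases hz : z = r
      · subst hz
        have : Joined src tgt S z z := Relation.EqvGen.refl _
        simp only [this, if_true]
        refine Finset.sum_eq_zero fun x _ => ?_
        have : ¬ (z = (x : V)) := fun h => x.2 h.symm
        simp [this]
      · rw [Finset.sum_eq_single (⟨z, hz⟩ : {v : V // v ≠ r})]
        · simp
        · intro b _ hb
          have : ¬ (z = (b : V)) := fun h => hb (Subtype.ext h.symm)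
          simp [this]
        · intro h; exact absurd (Finset.mem_univ _) h
    rw [key, key]
    have hst : Joined src tgt S (src (g i)) (tgt (g i)) := Relation.EqvGen.rel _ _ ⟨g i, hgi, rfl, rfl⟩
    by_cases h1 : Joined src tgt S r (src (g i))
    · have h2 : Joined src tgt S r (tgt (g i)) := h1.trans _ _ _ hst
      simp [h1, h2]
    · have h2 : ¬ Joined src tgt S r (tgt (g i)) := fun h => h1 (h.trans _ _ _ (hst.symm _ _))
      simp [h1, h2]

open Classical in
/-- Weighted matrix-tree theorem. -/
theorem matrix_tree (src tgt : E → V) (r : V) (w : E → ℝ) :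
    (gram (inc ℝ src tgt r) w).det =
      ∑ S : Finset E with IsSpTree src tgt S, ∏ e ∈ S, w e := by
  rw [gram_det_eq_sum, Finset.sum_filter]
  refine Finset.sum_congr rfl fun S _ => ?_
  by_cases hcard : S.card = Fintype.card {v : V // v ≠ r}
  · have hcard' : S.card + 1 = Fintype.card V := by rw [hcard, card_ι]
    -- choose an enumeration
    have hc : Fintype.card {v : V // v ≠ r} = Fintype.card S := by simp [hcard]
    let g : {v : V // v ≠ r} → E := fun i => ((Fintype.equivOfCardEq hc) i : E)
    have hginj : Function.Injective g := fun i j h =>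
      (Fintype.equivOfCardEq hc).injective (Subtype.ext h)
    have hgS : univ.image g = S := by
      ext e
      simp only [Finset.mem_image, Finset.mem_univ, true_and, g]
      constructor
      · rintro ⟨i, rfl⟩; exact ((Fintype.equivOfCardEq hc) i).2
      · intro he
        exact ⟨(Fintype.equivOfCardEq hc).symm ⟨e, he⟩, by simp⟩
    rw [minorSq_eq_sq _ S g hginj hgS]
    by_cases hconn : ∀ x y, Joined src tgt S x y
    · rw [rowDet_sq_eq_one src tgt r S hconn g hgS, if_pos ⟨hcard', hconn⟩, mul_one]
    · rw [rowDet_eq_zero_of_not_joined src tgt r S hconn g hgS, if_neg (fun h => hconn h.2)]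
      simp
  · rw [minorSq_eq_zero_of_card_ne _ S hcard, if_neg, mul_zero]
    rintro ⟨h, _⟩
    have := card_ι r
    omega

end Vale.Agent.P143
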