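import Vale.Agent.Lib.P143.MatrixTree

/-!
Negative correlation of edges in the weighted spanning tree measure of a finite multigraph.
-/

set_option linter.unusedSectionVars false

namespace Vale.Agent.P143

open Finset Matrix

section LinAlg

variable {ι E : Type*} [Fintype ι] [DecidableEq ι] [Fintype E] [DecidableEq E]

lemma gram_update (a : E → ι → ℝ) (w : E → ℝ) (e : E) (c : ℝ) :
    gram a (Function.update w e c) = gram a w + (c - w e) • vecMulVec (a e) (a e) := by
  ext i j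
  simp only [gram, Matrix.of_apply, Matrix.add_apply, Matrix.smul_apply, vecMulVec_apply,
    smul_eq_mul]
  rw [← Finset.add_sum_erase _ _ (Finset.mem_univ e), ← Finset.add_sum_erase univ
    (fun x => w x * a x i * a x j) (Finset.mem_univ e)]
  have : ∑ x ∈ univ.erase e, Function.update w e c x * a x i * a x j
      = ∑ x ∈ univ.erase e, w x * a x i * a x j := by
    refine Finset.sum_congr rfl fun x hx => ?_
    rw [Function.update_of_ne (Finset.ne_of_mem_erase hx)]
  rw [this, Function.update_self]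
  ring

lemma gram_symm (a : E → ι → ℝ) (w : E → ℝ) : (gram a w)ᵀ = gram a w := by
  ext i j
  simp only [gram, Matrix.transpose_apply, Matrix.of_apply]
  refine Finset.sum_congr rfl fun e _ => ?_
  ring

/-- rank two update formula -/
lemma det_rank_two (L : Matrix ι ι ℝ) (hL : IsUnit L.det) (hs : Lᵀ = L) (x y : ι → ℝ) (s t : ℝ) :
    (L + s • vecMulVec x x + t • vecMulVec y y).det =
      L.det * ((1 + s * (x ⬝ᵥ (L⁻¹ *ᵥ x))) * (1 + t * (y ⬝ᵥ (L⁻¹ *ᵥ y)))
        - s * t * (x ⬝ᵥ (L⁻¹ *ᵥ y)) ^ 2) := by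
  let U : Matrix ι (Fin 2) ℝ := Matrix.of fun i k => if k = 0 then s * x i else t * y i
  let W : Matrix (Fin 2) ι ℝ := Matrix.of fun k i => if k = 0 then x i else y i
  have h1 : L + s • vecMulVec x x + t • vecMulVec y y = L + U * W := by
    rw [add_assoc]
    congr 1
    ext i j
    simp [U, W, Matrix.mul_apply, vecMulVec_apply, Fin.sum_univ_two]
    ring
  rw [h1, Matrix.det_add_mul U W hL]
  congr 1
  have hsym : (L⁻¹)ᵀ = L⁻¹ := by rw [Matrix.transpose_nonsing_inv, hs]
  have hyx : y ⬝ᵥ (L⁻¹ *ᵥ x) = x ⬝ᵥ (L⁻¹ *ᵥ y) := by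
    rw [Matrix.dotProduct_mulVec, ← Matrix.mulVec_transpose, hsym, dotProduct_comm]
  have hentry : ∀ k l, (W * L⁻¹ * U) k l = (W k) ⬝ᵥ (L⁻¹ *ᵥ (fun i => U i l)) := by
    intro k l
    rw [Matrix.mul_assoc, Matrix.mul_apply]
    rfl
  have hU0 : (fun i => U i 0) = s • x := by ext i; simp [U]
  have hU1 : (fun i => U i 1) = t • y := by ext i; simp [U]
  have hW0 : W 0 = x := by ext i; simp [W]
  have hW1 : W 1 = y := by ext i; simp [W]
  rw [Matrix.det_fin_two]
  simp only [Matrix.add_apply, hentry, hU0, hU1, hW0, hW1, Matrix.mulVec_smul, dotProduct_smul,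
    smul_eq_mul, Matrix.one_apply_eq, hyx]
  simp
  ring

lemma det_rank_one (L : Matrix ι ι ℝ) (hL : IsUnit L.det) (hs : Lᵀ = L) (x : ι → ℝ) (s : ℝ) :
    (L + s • vecMulVec x x).det = L.det * (1 + s * (x ⬝ᵥ (L⁻¹ *ᵥ x))) := by
  have := det_rank_two L hL hs x x s 0
  simpa using this

/-- negative correlation, in terms of determinants -/
lemma gram_det_neg_corr (a : E → ι → ℝ) (w : E → ℝ) (hw : ∀ e, 0 ≤ w e) (e f : E) (hef : e ≠ f)
    (hL : (gram a w).det ≠ 0) :
    (gram a w).det * (gram a (Function.update (Function.update w e 0) f 0)).det ≤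
      (gram a (Function.update w e 0)).det * (gram a (Function.update w f 0)).det := by
  have hU : IsUnit (gram a w).det := isUnit_iff_ne_zero.mpr hL
  have h1 := gram_update a w e 0
  have h2 := gram_update a w f 0
  have h3 := gram_update a (Function.update w e 0) f 0
  rw [Function.update_of_ne hef.symm] at h3
  rw [h3, h1, h2, det_rank_two _ hU (gram_symm a w), det_rank_one _ hU (gram_symm a w),
    det_rank_one _ hU (gram_symm a w)]
  have h4 : 0 ≤ (gram a w).det ^ 2 * ((w e * w f) * (a e ⬝ᵥ ((gram a w)⁻¹ *ᵥ a f)) ^ 2) :=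
    mul_nonneg (sq_nonneg _) (mul_nonneg (mul_nonneg (hw e) (hw f)) (sq_nonneg _))
  nlinarith [h4]

end LinAlg

section Family

variable {E : Type*} [DecidableEq E]

/-- weight of a set of edges -/
def wt (w : E → ℝ) (S : Finset E) : ℝ := ∏ e ∈ S, w e

/-- partition function of a family of edge sets -/
def ZZ (𝒯 : Finset (Finset E)) (w : E → ℝ) : ℝ := ∑ S ∈ 𝒯, wt w S

/-- total weight of the members of the family containing `e` -/
def Zin (𝒯 : Finset (Finset E)) (w : E → ℝ) (e : E) : ℝ := ∑ S ∈ 𝒯 with e ∈ S, wt w S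

/-- probability of `e ∈ T` under the weighted measure -/
noncomputable def pin (𝒯 : Finset (Finset E)) (w : E → ℝ) (e : E) : ℝ := Zin 𝒯 w e / ZZ 𝒯 w

/-- a family of sets of constant cardinality with pairwise negative correlation for all
nonnegative weights. -/
structure Rayleigh (𝒯 : Finset (Finset E)) : Prop where
  nonempty : 𝒯.Nonempty
  card : ∃ k, ∀ S ∈ 𝒯, S.card = k
  neg : ∀ w : E → ℝ, (∀ e, 0 ≤ w e) → ∀ e f, e ≠ f →
    (∑ S ∈ 𝒯 with e ∉ S ∧ f ∉ S, wt w S) * ZZ 𝒯 w ≤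
      (∑ S ∈ 𝒯 with e ∉ S, wt w S) * (∑ S ∈ 𝒯 with f ∉ S, wt w S)

lemma wt_nonneg {w : E → ℝ} (hw : ∀ e, 0 ≤ w e) (S : Finset E) : 0 ≤ wt w S :=
  Finset.prod_nonneg fun e _ => hw e

lemma wt_pos {w : E → ℝ} (hw : ∀ e, 0 < w e) (S : Finset E) : 0 < wt w S :=
  Finset.prod_pos fun e _ => hw e

lemma ZZ_pos {𝒯 : Finset (Finset E)} (h𝒯 : 𝒯.Nonempty) {w : E → ℝ} (hw : ∀ e, 0 < w e) :
    0 < ZZ 𝒯 w :=
  Finset.sum_pos (fun S _ => wt_pos hw S) h𝒯

lemma Zin_nonneg (𝒯 : Finset (Finset E)) {w : E → ℝ} (hw : ∀ e, 0 ≤ w e) (e : E) :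
    0 ≤ Zin 𝒯 w e :=
  Finset.sum_nonneg fun S _ => wt_nonneg hw S

lemma Zin_add_Zout (𝒯 : Finset (Finset E)) (w : E → ℝ) (e : E) :
    Zin 𝒯 w e + ∑ S ∈ 𝒯 with e ∉ S, wt w S = ZZ 𝒯 w :=
  Finset.sum_filter_add_sum_filter_not _ _ _

lemma wt_update_of_notMem {w : E → ℝ} {e : E} {S : Finset E} (he : e ∉ S) (c : ℝ) :
    wt (Function.update w e c) S = wt w S := by
  unfold wt
  refine Finset.prod_congr rfl fun x hx => ?_
  rw [Function.update_of_ne]
  rintro rfl
  exact he hx

lemma wt_update_of_mem {w : E → ℝ} {e : E} {S : Finset E} (he : e ∈ S) (c : ℝ) :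
    wt (Function.update w e c) S = c * wt (Function.update w e 1) S := by
  unfold wt
  rw [← Finset.mul_prod_erase _ _ he, ← Finset.mul_prod_erase S (Function.update w e 1) he]
  simp only [Function.update_self, one_mul]
  congr 1
  refine Finset.prod_congr rfl fun x hx => ?_
  rw [Function.update_of_ne (Finset.ne_of_mem_erase hx),
    Function.update_of_ne (Finset.ne_of_mem_erase hx)]

end Family

end Vale.Agent.P143
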