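import Vale.Agent.Lib.P143.Defs
import Vale.Agent.Lib.P143.NegCorr

/-!
Bridge between spanning trees of a finite connected subgraph `H : G.Subgraph` and the
multigraph spanning trees of `MatrixTree.lean`.
-/

set_option linter.unusedSectionVars false

namespace Vale.Agent.P143

open Finset

universe u

variable {V : Type u} {G : SimpleGraph V}

lemma edgeSet_finite {H : G.Subgraph} (hfin : H.verts.Finite) : H.edgeSet.Finite := by
  refine ((hfin.prod hfin).image (fun p : V × V => s(p.1, p.2))).subset ?_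
  intro e he
  induction e using Sym2.ind with
  | _ x y =>
    exact ⟨(x, y), ⟨H.edge_vert he, H.edge_vert (H.adj_symm he)⟩, rfl⟩

/-- the finite set of edges of a finite subgraph -/
noncomputable def edgeF (H : G.Subgraph) : Finset (Sym2 V) := by
  classical
  exact if h : H.edgeSet.Finite then h.toFinset else ∅

lemma mem_edgeF {H : G.Subgraph} (hfin : H.verts.Finite) {e : Sym2 V} :
    e ∈ edgeF H ↔ e ∈ H.edgeSet := by
  unfold edgeF
  rw [dif_pos (edgeSet_finite hfin)]
  simp

open Classical in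
/-- the finite set of spanning trees of a finite subgraph -/
noncomputable def spTrees (H : G.Subgraph) : Finset (Finset (Sym2 V)) :=
  (edgeF H).powerset.filter (fun T => IsSpanningTree H (T : Set (Sym2 V)))

lemma mem_spTrees {H : G.Subgraph} (hfin : H.verts.Finite) {T : Finset (Sym2 V)} :
    T ∈ spTrees H ↔ IsSpanningTree H (T : Set (Sym2 V)) := by
  classical
  unfold spTrees
  rw [Finset.mem_filter, Finset.mem_powerset]
  constructor
  · exact fun h => h.2
  · intro h
    exact ⟨fun e he => (mem_edgeF hfin).mpr (h.1 he), h⟩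

lemma exists_ends (H : G.Subgraph) (e : H.edgeSet) :
    ∃ p : H.verts × H.verts, (e : Sym2 V) = s((p.1 : V), (p.2 : V)) ∧ H.Adj p.1 p.2 := by
  obtain ⟨e, he⟩ := e
  induction e using Sym2.ind with
  | _ x y =>
    exact ⟨(⟨x, H.edge_vert he⟩, ⟨y, H.edge_vert (H.adj_symm he)⟩), rfl, he⟩

/-- first endpoint of an edge -/
noncomputable def eSrc (H : G.Subgraph) (e : H.edgeSet) : H.verts := (exists_ends H e).choose.1

/-- second endpoint of an edge -/
noncomputable def eTgt (H : G.Subgraph) (e : H.edgeSet) : H.verts := (exists_ends H e).choose.2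

lemma edge_eq (H : G.Subgraph) (e : H.edgeSet) :
    (e : Sym2 V) = s((eSrc H e : V), (eTgt H e : V)) :=
  (exists_ends H e).choose_spec.1

lemma edge_adj (H : G.Subgraph) (e : H.edgeSet) : H.Adj (eSrc H e) (eTgt H e) :=
  (exists_ends H e).choose_spec.2

/-- push a finite set of edges of `H` to a finite set in `Sym2 V`. -/
def pushE (H : G.Subgraph) (S : Finset H.edgeSet) : Finset (Sym2 V) :=
  S.map (Function.Embedding.subtype _)

lemma mem_pushE {H : G.Subgraph} {S : Finset H.edgeSet} {e : Sym2 V} :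
    e ∈ pushE H S ↔ ∃ h : e ∈ H.edgeSet, (⟨e, h⟩ : H.edgeSet) ∈ S := by
  simp [pushE]

lemma induce_adj_iff (H : G.Subgraph) (S : Finset H.edgeSet) (x y : H.verts) :
    ((SimpleGraph.fromEdgeSet (pushE H S : Set (Sym2 V))).induce H.verts).Adj x y ↔
      ∃ e ∈ S, (eSrc H e = x ∧ eTgt H e = y) ∨ (eSrc H e = y ∧ eTgt H e = x) := by
  rw [SimpleGraph.induce_adj, SimpleGraph.fromEdgeSet_adj, Finset.mem_coe, mem_pushE]
  constructor
  · rintro ⟨⟨h, hS⟩, hne⟩
    refine ⟨_, hS, ?_⟩
    have h1 := edge_eq H ⟨s((x : V), (y : V)), h⟩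
    simp only [Sym2.eq_iff] at h1
    rcases h1 with ⟨h2, h3⟩ | ⟨h2, h3⟩
    · left; exact ⟨Subtype.ext h2.symm, Subtype.ext h3.symm⟩
    · right; exact ⟨Subtype.ext h3.symm, Subtype.ext h2.symm⟩
  · rintro ⟨e, he, h⟩
    have h1 := edge_eq H e
    have h2 := (edge_adj H e).ne
    rcases h with ⟨rfl, rfl⟩ | ⟨rfl, rfl⟩
    · refine ⟨⟨h1 ▸ e.2, ?_⟩, h2⟩
      convert he using 1
      exact Subtype.ext h1.symm
    · refine ⟨⟨?_, ?_⟩, h2.symm⟩
      · rw [Sym2.eq_swap, ← h1]; exact e.2
      · convert he using 1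
        exact Subtype.ext (Sym2.eq_swap.trans h1.symm)

lemma joined_iff (H : G.Subgraph) (S : Finset H.edgeSet) (x y : H.verts) :
    Joined (eSrc H) (eTgt H) S x y ↔
      ((SimpleGraph.fromEdgeSet (pushE H S : Set (Sym2 V))).induce H.verts).Reachable x y := by
  constructor
  · intro h
    unfold Joined at h
    induction h with
    | rel a b hab =>
      obtain ⟨e, he, h1, h2⟩ := hab
      exact SimpleGraph.Adj.reachable ((induce_adj_iff H S a b).mpr ⟨e, he, Or.inl ⟨h1, h2⟩⟩)
    | refl a => exact SimpleGraph.Reachable.refl _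
    | symm a b _ ih => exact ih.symm
    | trans a b c _ _ ih1 ih2 => exact ih1.trans ih2
  · intro h
    rw [SimpleGraph.reachable_iff_reflTransGen] at h
    induction h with
    | refl => exact Relation.EqvGen.refl _
    | tail _ hbc ih =>
      refine ih.trans _ _ _ ?_
      obtain ⟨e, he, h⟩ := (induce_adj_iff H S _ _).mp hbc
      rcases h with ⟨h1, h2⟩ | ⟨h1, h2⟩
      · exact Relation.EqvGen.rel _ _ ⟨e, he, h1, h2⟩
      · exact (Relation.EqvGen.rel _ _ ⟨e, he, h1, h2⟩).symm

lemma card_edgeSet_induce (H : G.Subgraph) (S : Finset H.edgeSet) :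
    Nat.card ((SimpleGraph.fromEdgeSet (pushE H S : Set (Sym2 V))).induce H.verts).edgeSet =
      S.card := by
  have hmem : ∀ e : S, s(eSrc H e, eTgt H e) ∈
      ((SimpleGraph.fromEdgeSet (pushE H S : Set (Sym2 V))).induce H.verts).edgeSet := by
    intro e
    rw [SimpleGraph.mem_edgeSet]
    exact (induce_adj_iff H S _ _).mpr ⟨e, e.2, Or.inl ⟨rfl, rfl⟩⟩
  have hbij : Function.Bijective (fun e : S => (⟨s(eSrc H e, eTgt H e), hmem e⟩ :
      ((SimpleGraph.fromEdgeSet (pushE H S : Set (Sym2 V))).induce H.verts).edgeSet)) := by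
    constructor
    · intro e f hef
      have h1 : s(eSrc H e, eTgt H e) = s(eSrc H f, eTgt H f) := congrArg Subtype.val hef
      have h2 := congrArg (Sym2.map (Subtype.val : H.verts → V)) h1
      simp only [Sym2.map_mk] at h2
      have h3 := edge_eq H e
      have h4 := edge_eq H f
      apply Subtype.ext
      apply Subtype.ext
      rw [h3, h4]
      exact h2
    · rintro ⟨e, he⟩
      induction e using Sym2.ind with
      | _ x y =>
        rw [SimpleGraph.mem_edgeSet] at he
        obtain ⟨e, heS, h⟩ := (induce_adj_iff H S _ _).mp he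
        refine ⟨⟨e, heS⟩, ?_⟩
        apply Subtype.ext
        simp only
        rcases h with ⟨h1, h2⟩ | ⟨h1, h2⟩
        · rw [h1, h2]
        · rw [h1, h2, Sym2.eq_swap]
  rw [← Nat.card_congr (Equiv.ofBijective _ hbij)]
  simp

lemma pushE_subset (H : G.Subgraph) (S : Finset H.edgeSet) :
    (pushE H S : Set (Sym2 V)) ⊆ H.edgeSet := by
  intro e he
  exact (mem_pushE.mp (Finset.mem_coe.mp he)).choose

theorem isSpTree_iff (H : G.Subgraph) [Fintype H.verts] (hne : H.verts.Nonempty)
    (S : Finset H.edgeSet) :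
    IsSpTree (eSrc H) (eTgt H) S ↔ IsSpanningTree H (pushE H S : Set (Sym2 V)) := by
  unfold IsSpTree IsSpanningTree
  rw [SimpleGraph.isTree_iff_connected_and_card, card_edgeSet_induce, Nat.card_eq_fintype_card]
  have hne' : Nonempty H.verts := hne.to_subtype
  constructor
  · rintro ⟨h1, h2⟩
    refine ⟨pushE_subset H S, ?_, h1⟩
    rw [SimpleGraph.connected_iff]
    exact ⟨fun x y => (joined_iff H S x y).mp (h2 x y), hne'⟩
  · rintro ⟨_, h2, h1⟩
    exact ⟨h1, fun x y => (joined_iff H S x y).mpr (h2.preconnected x y)⟩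

/-- every finite set of edges inside `H` is a push. -/
lemma exists_pushE_eq (H : G.Subgraph) (T : Finset (Sym2 V)) (hT : (T : Set (Sym2 V)) ⊆ H.edgeSet) :
    ∃ S : Finset H.edgeSet, pushE H S = T := by
  classical
  refine ⟨T.subtype (fun e => e ∈ H.edgeSet), ?_⟩
  unfold pushE
  exact Finset.subtype_map_of_mem fun e he => hT he

lemma pushE_injective (H : G.Subgraph) : Function.Injective (pushE H) :=
  Finset.map_injective _

end Vale.Agent.P143
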