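import Vale.Agent.Lib.P143.TreeBridge

/-!
One-edge marginals of the weighted spanning tree measure of a finite connected subgraph:
`P(e ∈ T) = w e * R`, with `R` the effective resistance (least constant in the energy inequality).
-/

set_option linter.unusedSectionVars false

namespace Vale.Agent.P143

open Finset Matrix

universe u

section LinAlg

variable {ι E : Type*} [Fintype ι] [DecidableEq ι] [Fintype E] [DecidableEq E]

lemma gram_quad (a : E → ι → ℝ) (w : E → ℝ) (ξ : ι → ℝ) :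
    ξ ⬝ᵥ (gram a w *ᵥ ξ) = ∑ e, w e * (a e ⬝ᵥ ξ) ^ 2 := by
  simp only [dotProduct, mulVec, gram, Matrix.of_apply]
  have h1 : ∀ e, w e * (∑ i, a e i * ξ i) ^ 2 = ∑ i, ∑ j, ξ i * (w e * a e i * a e j * ξ j) := by
    intro e
    rw [sq, Finset.sum_mul_sum, Finset.mul_sum]
    refine Finset.sum_congr rfl fun i _ => ?_
    rw [Finset.mul_sum]
    refine Finset.sum_congr rfl fun j _ => ?_
    ring
  simp_rw [h1]
  rw [Finset.sum_comm]
  refine Finset.sum_congr rfl fun i _ => ?_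
  rw [Finset.sum_comm, Finset.mul_sum]
  refine Finset.sum_congr rfl fun j _ => ?_
  rw [Finset.sum_mul, Finset.mul_sum]

lemma gram_cs (a : E → ι → ℝ) (w : E → ℝ) (hw : ∀ e, 0 ≤ w e) (hL : (gram a w).det ≠ 0)
    (b ξ : ι → ℝ) :
    (b ⬝ᵥ ξ) ^ 2 ≤ (b ⬝ᵥ ((gram a w)⁻¹ *ᵥ b)) * (ξ ⬝ᵥ (gram a w *ᵥ ξ)) := by
  set L := gram a w with hLdef
  have hU : IsUnit L.det := isUnit_iff_ne_zero.mpr hL
  have hs : Lᵀ = L := gram_symm a w
  set x0 := L⁻¹ *ᵥ b with hx0
  have hLx0 : L *ᵥ x0 = b := by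
    rw [hx0, Matrix.mulVec_mulVec, Matrix.mul_nonsing_inv L hU, Matrix.one_mulVec]
  have hsym : ∀ u v : ι → ℝ, u ⬝ᵥ (L *ᵥ v) = v ⬝ᵥ (L *ᵥ u) := by
    intro u v
    rw [Matrix.dotProduct_mulVec, ← Matrix.mulVec_transpose, hs, dotProduct_comm]
  have hq : ∀ t : ℝ, 0 ≤ (b ⬝ᵥ x0) * (t * t) + (-2 * (b ⬝ᵥ ξ)) * t + ξ ⬝ᵥ (L *ᵥ ξ) := by
    intro t
    have h1 : 0 ≤ (ξ - t • x0) ⬝ᵥ (L *ᵥ (ξ - t • x0)) := by
      rw [hLdef, gram_quad]
      exact Finset.sum_nonneg fun e _ => mul_nonneg (hw e) (sq_nonneg _)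
    have h2 : (ξ - t • x0) ⬝ᵥ (L *ᵥ (ξ - t • x0)) =
        (b ⬝ᵥ x0) * (t * t) + (-2 * (b ⬝ᵥ ξ)) * t + ξ ⬝ᵥ (L *ᵥ ξ) := by
      rw [Matrix.mulVec_sub, Matrix.mulVec_smul, hLx0, dotProduct_sub, sub_dotProduct,
        sub_dotProduct, smul_dotProduct, smul_dotProduct, dotProduct_smul, dotProduct_smul,
        hsym x0 ξ, hLx0, dotProduct_comm ξ b, dotProduct_comm x0 b]
      simp only [smul_eq_mul]
      ring
    rw [← h2]; exact h1
  have := discrim_le_zero hq
  unfold discrim at this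
  nlinarith [this]

lemma gram_cs_eq (a : E → ι → ℝ) (w : E → ℝ) (hL : (gram a w).det ≠ 0) (b : ι → ℝ) :
    ((gram a w)⁻¹ *ᵥ b) ⬝ᵥ (gram a w *ᵥ ((gram a w)⁻¹ *ᵥ b)) = b ⬝ᵥ ((gram a w)⁻¹ *ᵥ b) := by
  have hU : IsUnit (gram a w).det := isUnit_iff_ne_zero.mpr hL
  rw [Matrix.mulVec_mulVec, Matrix.mul_nonsing_inv _ hU, Matrix.one_mulVec, dotProduct_comm]

end LinAlg

variable {V : Type u} {G : SimpleGraph V}

/-- squared gradient of a function along an edge -/
def gsq (x : V → ℝ) : Sym2 V → ℝ :=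
  Sym2.lift ⟨fun a b => (x a - x b) ^ 2, fun a b => by ring⟩

@[simp] lemma gsq_mk (x : V → ℝ) (a b : V) : gsq x s(a, b) = (x a - x b) ^ 2 := rfl

lemma gsq_nonneg (x : V → ℝ) (e : Sym2 V) : 0 ≤ gsq x e := by
  induction e using Sym2.ind with
  | _ a b => exact sq_nonneg _

/-- Dirichlet energy on the edges of `H`. -/
noncomputable def energy (H : G.Subgraph) (w : Sym2 V → ℝ) (x : V → ℝ) : ℝ :=
  ∑ e ∈ edgeF H, w e * gsq x e

lemma energy_nonneg (H : G.Subgraph) {w : Sym2 V → ℝ} (hw : ∀ e, 0 ≤ w e) (x : V → ℝ) :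
    0 ≤ energy H w x :=
  Finset.sum_nonneg fun e _ => mul_nonneg (hw e) (gsq_nonneg x e)

lemma energy_mono {H H' : G.Subgraph} (hfin : H'.verts.Finite) (hle : H ≤ H')
    {w w' : Sym2 V → ℝ} (hw : ∀ e, 0 ≤ w e) (hww : ∀ e, w e ≤ w' e) (x : V → ℝ) :
    energy H w x ≤ energy H' w' x := by
  unfold energy
  have hfinH : H.verts.Finite := hfin.subset hle.1
  have hsub : edgeF H ⊆ edgeF H' := by
    intro e he
    rw [mem_edgeF hfinH] at he
    rw [mem_edgeF hfin]
    exact SimpleGraph.Subgraph.edgeSet_mono hle he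
  calc ∑ e ∈ edgeF H, w e * gsq x e ≤ ∑ e ∈ edgeF H, w' e * gsq x e :=
        Finset.sum_le_sum fun e _ => mul_le_mul_of_nonneg_right (hww e) (gsq_nonneg x e)
    _ ≤ ∑ e ∈ edgeF H', w' e * gsq x e :=
        Finset.sum_le_sum_of_subset_of_nonneg hsub fun e _ _ =>
          mul_nonneg ((hw e).trans (hww e)) (gsq_nonneg x e)

section Finite

variable (H : G.Subgraph) [Fintype H.verts] [DecidableEq H.verts] [Fintype H.edgeSet]
  [DecidableEq H.edgeSet]

lemma inc_dot (r : H.verts) (e : H.edgeSet) (x : V → ℝ) :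
    (inc ℝ (eSrc H) (eTgt H) r e) ⬝ᵥ (fun v => x (v : H.verts) - x r) =
      x (eSrc H e) - x (eTgt H e) := by
  have key : ∀ z : H.verts, ∑ v : {v : H.verts // v ≠ r},
      (if z = (v : H.verts) then (1 : ℝ) else 0) * (x (v : H.verts) - x r) = x z - x r := by
    intro z
    by_cases hz : z = r
    · subst hz
      rw [sub_self]
      refine Finset.sum_eq_zero fun v _ => ?_
      have : ¬ (z = (v : H.verts)) := fun h => v.2 h.symm
      simp [this]
    · rw [Finset.sum_eq_single (⟨z, hz⟩ : {v : H.verts // v ≠ r})]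
      · simp
      · intro b _ hb
        have : ¬ (z = (b : H.verts)) := fun h => hb (Subtype.ext h.symm)
        simp [this]
      · intro h; exact absurd (Finset.mem_univ _) h
  simp only [dotProduct, inc, sub_mul]
  rw [Finset.sum_sub_distrib, key, key]
  ring

lemma energy_eq (w : Sym2 V → ℝ) (x : V → ℝ) (hfin : H.verts.Finite) :
    energy H w x = ∑ e : H.edgeSet, w e * (x (eSrc H e) - x (eTgt H e)) ^ 2 := by
  unfold energy
  have h1 : edgeF H = (Finset.univ : Finset H.edgeSet).map (Function.Embedding.subtype _) := by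
    ext e
    rw [mem_edgeF hfin]
    simp
  rw [h1, Finset.sum_map]
  refine Finset.sum_congr rfl fun e _ => ?_
  simp only [Function.Embedding.subtype_apply]
  congr 1
  conv_lhs => rw [edge_eq H e]
  rfl

lemma wt_pushE (w : Sym2 V → ℝ) (S : Finset H.edgeSet) :
    wt w (pushE H S) = ∏ e ∈ S, w e := by
  unfold wt pushE
  rw [Finset.prod_map]
  rfl

open Classical in
/-- sums over spanning trees, transported to the multigraph. -/
lemma sum_spTrees (hfin : H.verts.Finite) (hne : H.verts.Nonempty)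
    (F : Finset (Sym2 V) → ℝ) :
    ∑ T ∈ spTrees H, F T = ∑ S : Finset H.edgeSet with IsSpTree (eSrc H) (eTgt H) S,
      F (pushE H S) := by
  symm
  refine Finset.sum_bij (fun S _ => pushE H S) ?_ ?_ ?_ ?_
  · intro S hS
    rw [mem_spTrees hfin]
    exact (isSpTree_iff H hne S).mp (Finset.mem_filter.mp hS).2
  · intro S _ S' _ h
    exact pushE_injective H h
  · intro T hT
    rw [mem_spTrees hfin] at hT
    obtain ⟨S, rfl⟩ := exists_pushE_eq H T hT.1
    exact ⟨S, Finset.mem_filter.mpr ⟨Finset.mem_univ _, (isSpTree_iff H hne S).mpr hT⟩, rfl⟩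
  · intro S _
    rfl

lemma ZZ_eq_det (hfin : H.verts.Finite) (r : H.verts) (w : Sym2 V → ℝ) :
    ZZ (spTrees H) w = (gram (inc ℝ (eSrc H) (eTgt H) r) (fun e : H.edgeSet => w e)).det := by
  classical
  rw [matrix_tree, ZZ, sum_spTrees H hfin ⟨r, r.2⟩]
  refine Finset.sum_congr (by congr) fun S _ => ?_
  exact wt_pushE H w S

lemma ZZ_update_zero (w : Sym2 V → ℝ) [DecidableEq V] (𝒯 : Finset (Finset (Sym2 V))) (e : Sym2 V) :
    ZZ 𝒯 (Function.update w e 0) = ∑ S ∈ 𝒯 with e ∉ S, wt w S := by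
  unfold ZZ
  rw [Finset.sum_filter]
  refine Finset.sum_congr rfl fun S _ => ?_
  by_cases h : e ∈ S
  · rw [if_neg (not_not.mpr h)]
    exact Finset.prod_eq_zero h (by simp)
  · rw [if_pos h, wt_update_of_notMem h]

/-- `P(e ∈ T) = w e * q`. -/
lemma Zin_eq [DecidableEq V] (hfin : H.verts.Finite) (r : H.verts) (w : Sym2 V → ℝ)
    (hZ : ZZ (spTrees H) w ≠ 0) (e : H.edgeSet) :
    Zin (spTrees H) w e = ZZ (spTrees H) w * (w e *
      ((inc ℝ (eSrc H) (eTgt H) r e) ⬝ᵥ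
        ((gram (inc ℝ (eSrc H) (eTgt H) r) (fun e : H.edgeSet => w e))⁻¹ *ᵥ
          (inc ℝ (eSrc H) (eTgt H) r e)))) := by
  have h1 := Zin_add_Zout (spTrees H) w (e : Sym2 V)
  rw [← ZZ_update_zero] at h1
  rw [ZZ_eq_det H hfin r] at hZ
  have h2 : (fun f : H.edgeSet => Function.update w (e : Sym2 V) 0 f) =
      Function.update (fun f : H.edgeSet => w f) e 0 := by
    ext f
    by_cases hf : f = e
    · subst hf; simp
    · rw [Function.update_of_ne hf, Function.update_of_ne (fun h => hf (Subtype.ext h))]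
  have h3 : ZZ (spTrees H) (Function.update w (e : Sym2 V) 0) = ZZ (spTrees H) w * (1 - w e *
      ((inc ℝ (eSrc H) (eTgt H) r e) ⬝ᵥ
        ((gram (inc ℝ (eSrc H) (eTgt H) r) (fun e : H.edgeSet => w e))⁻¹ *ᵥ
          (inc ℝ (eSrc H) (eTgt H) r e)))) := by
    rw [ZZ_eq_det H hfin r, ZZ_eq_det H hfin r, h2, gram_update,
      det_rank_one _ (isUnit_iff_ne_zero.mpr hZ) (gram_symm _ _)]
    ring
  rw [h3] at h1
  linarith

end Finite

end Vale.Agent.P143
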