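import Vale.Agent.Lib.P143.TreeProb

/-!
Effective resistance characterization of one-edge marginals; monotonicity, own-weight formula and
the Lipschitz estimate for the weighted spanning tree measure.
-/

set_option linter.unusedSectionVars false

namespace Vale.Agent.P143

open Finset Matrix

universe u

variable {V : Type u} {G : SimpleGraph V}

lemma spTrees_nonempty {H : G.Subgraph} (hfin : H.verts.Finite) (hc : H.Connected) :
    (spTrees H).Nonempty := by
  classical
  have : Finite H.verts := hfin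
  obtain ⟨T, hTle, hT⟩ := (SimpleGraph.Subgraph.connected_iff'.mp hc).exists_isTree_le
  set E' : Set (Sym2 V) := Sym2.map Subtype.val '' T.edgeSet with hE'
  have hsub : E' ⊆ H.edgeSet := by
    rintro _ ⟨e, he, rfl⟩
    induction e using Sym2.ind with
    | _ x y =>
      exact hTle he
  have hEfin : E'.Finite := (edgeSet_finite hfin).subset hsub
  refine ⟨hEfin.toFinset, ?_⟩
  rw [mem_spTrees hfin, Set.Finite.coe_toFinset]
  refine ⟨hsub, ?_⟩
  have h1 : (SimpleGraph.fromEdgeSet E').induce H.verts = T := by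
    ext x y
    rw [SimpleGraph.induce_adj, SimpleGraph.fromEdgeSet_adj]
    constructor
    · rintro ⟨⟨e, he, hxy⟩, hne⟩
      have h2 : e = s(x, y) := by
        have : Sym2.map (Subtype.val : H.verts → V) e = Sym2.map Subtype.val s(x, y) := hxy
        exact Sym2.map.injective Subtype.val_injective this
      subst h2
      exact he
    · intro h
      exact ⟨⟨s(x, y), h, rfl⟩, fun h' => h.ne (Subtype.ext h')⟩
  rw [h1]; exact hT

/-- `P(e ∈ T) / w e` is the effective resistance between the endpoints of `e`. -/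
theorem pin_isLeast [DecidableEq V] {H : G.Subgraph} (hfin : H.verts.Finite) (hc : H.Connected)
    {w : Sym2 V → ℝ} (hw : ∀ e, 0 < w e) {e : Sym2 V} (he : e ∈ H.edgeSet) :
    IsLeast {R : ℝ | 0 ≤ R ∧ ∀ x : V → ℝ, gsq x e ≤ R * energy H w x}
      (pin (spTrees H) w e / w e) := by
  classical
  have : Fintype H.verts := hfin.fintype
  have : Fintype H.edgeSet := (edgeSet_finite hfin).fintype
  obtain ⟨r0, hr0⟩ := hc.nonempty
  set r : H.verts := ⟨r0, hr0⟩ with hr
  set e' : H.edgeSet := ⟨e, he⟩ with he'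
  set a := inc ℝ (eSrc H) (eTgt H) r with ha
  set w' : H.edgeSet → ℝ := fun e => w e with hw'
  have hZpos : 0 < ZZ (spTrees H) w := ZZ_pos (spTrees_nonempty hfin hc) hw
  have hdet : (gram a w').det ≠ 0 := by
    rw [ha, hw', ← ZZ_eq_det H hfin r w]; exact hZpos.ne'
  set q := a e' ⬝ᵥ ((gram a w')⁻¹ *ᵥ a e') with hq
  have hpin : pin (spTrees H) w e / w e = q := by
    unfold pin
    have h1 := Zin_eq H hfin r w hZpos.ne' e'
    have h2 : ((e' : H.edgeSet) : Sym2 V) = e := rfl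
    rw [h2] at h1
    rw [h1]
    field_simp [hZpos.ne', (hw e).ne']
    rfl
  rw [hpin]
  have hw0 : ∀ e, 0 ≤ w' e := fun e => (hw e).le
  set x0 := (gram a w')⁻¹ *ᵥ a e' with hx0
  have hqe : x0 ⬝ᵥ (gram a w' *ᵥ x0) = q := gram_cs_eq a w' hdet (a e')
  have hq0 : 0 ≤ q := by
    rw [← hqe, gram_quad]
    exact Finset.sum_nonneg fun e _ => mul_nonneg (hw0 e) (sq_nonneg _)
  have hgsq : ∀ x : V → ℝ, gsq x e = (x (eSrc H e') - x (eTgt H e')) ^ 2 := by
    intro x
    have h1 : e = s((eSrc H e' : V), (eTgt H e' : V)) := edge_eq H e'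
    conv_lhs => rw [h1]
    rfl
  have hen : ∀ x : V → ℝ, energy H w x =
      (fun v : {v : H.verts // v ≠ r} => x (v : H.verts) - x r) ⬝ᵥ
        (gram a w' *ᵥ (fun v : {v : H.verts // v ≠ r} => x (v : H.verts) - x r)) := by
    intro x
    rw [gram_quad, energy_eq H w x hfin]
    refine Finset.sum_congr rfl fun g _ => ?_
    rw [ha, inc_dot]
  constructor
  · refine ⟨hq0, fun x => ?_⟩
    have h1 := gram_cs a w' hw0 hdet (a e') (fun v : {v : H.verts // v ≠ r} =>
      x (v : H.verts) - x r)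
    rw [← hen x] at h1
    rw [hgsq x, ← inc_dot H r e' x]
    exact h1
  · rintro R ⟨hR0, hR⟩
    set x : V → ℝ := fun v => if h : ∃ h' : v ∈ H.verts, (⟨v, h'⟩ : H.verts) ≠ r then
      x0 ⟨⟨v, h.choose⟩, h.choose_spec⟩ else 0 with hx
    have hxr : x r = 0 := by
      rw [hx]
      simp
    have hxx : (fun v : {v : H.verts // v ≠ r} => x (v : H.verts) - x r) = x0 := by
      ext v
      rw [hxr, sub_zero, hx]
      have h : ∃ h' : ((v : H.verts) : V) ∈ H.verts, (⟨(v : H.verts), h'⟩ : H.verts) ≠ r :=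
        ⟨(v : H.verts).2, v.2⟩
      simp only
      rw [dif_pos h]
    have h1 := hR x
    rw [hgsq x, ← inc_dot H r e' x, hen x, hxx, hqe, ← ha] at h1
    have h2 : a e' ⬝ᵥ x0 = q := rfl
    rw [h2] at h1
    rcases hq0.eq_or_lt with h0 | h0
    · rw [← h0]; exact hR0
    · nlinarith [h1, h0]

theorem pin_div_anti [DecidableEq V] {H H' : G.Subgraph} (hfin' : H'.verts.Finite)
    (hc : H.Connected) (hc' : H'.Connected) (hle : H ≤ H') {w w' : Sym2 V → ℝ}
    (hw : ∀ e, 0 < w e) (hww : ∀ e, w e ≤ w' e) {e : Sym2 V} (he : e ∈ H.edgeSet) :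
    pin (spTrees H') w' e / w' e ≤ pin (spTrees H) w e / w e := by
  have hfin : H.verts.Finite := hfin'.subset hle.1
  have h1 := (pin_isLeast hfin hc hw he).1
  have hw' : ∀ e, 0 < w' e := fun e => (hw e).trans_le (hww e)
  refine (pin_isLeast hfin' hc' hw' (SimpleGraph.Subgraph.edgeSet_mono hle he)).2
    ⟨h1.1, fun x => (h1.2 x).trans ?_⟩
  exact mul_le_mul_of_nonneg_left (energy_mono hfin' hle (fun e => (hw e).le) hww x) h1.1

lemma energy_smul (H : G.Subgraph) (w : Sym2 V → ℝ) (c : ℝ) (x : V → ℝ) :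
    energy H (fun g => c * w g) x = c * energy H w x := by
  unfold energy
  rw [Finset.mul_sum]
  exact Finset.sum_congr rfl fun e _ => by ring

theorem pin_smul [DecidableEq V] {H : G.Subgraph} (hfin : H.verts.Finite) (hc : H.Connected)
    {w : Sym2 V → ℝ} (hw : ∀ e, 0 < w e) {c : ℝ} (hcpos : 0 < c) {e : Sym2 V}
    (he : e ∈ H.edgeSet) :
    pin (spTrees H) (fun g => c * w g) e = pin (spTrees H) w e := by
  have hcw : ∀ e, 0 < c * w e := fun e => mul_pos hcpos (hw e)
  have h1 := pin_isLeast hfin hc hw he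
  have h2 := pin_isLeast hfin hc hcw he
  set R1 := pin (spTrees H) w e / w e with hR1
  set R2 := pin (spTrees H) (fun g => c * w g) e / (c * w e) with hR2
  have h3 : R2 ≤ R1 / c := by
    refine h2.2 ⟨div_nonneg h1.1.1 hcpos.le, fun x => (h1.1.2 x).trans ?_⟩
    rw [energy_smul]
    exact le_of_eq (by field_simp)
  have h4 : R1 ≤ c * R2 := by
    refine h1.2 ⟨mul_nonneg hcpos.le h2.1.1, fun x => (h2.1.2 x).trans ?_⟩
    rw [energy_smul]
    exact le_of_eq (by ring)
  have h5 : R1 = c * R2 := by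
    refine le_antisymm h4 ?_
    rw [le_div_iff₀ hcpos] at h3
    linarith
  rw [hR1, hR2] at h5
  have h6 := (hw e).ne'
  have h7 := hcpos.ne'
  field_simp at h5
  linarith

lemma Zin_update_self [DecidableEq V] (𝒯 : Finset (Finset (Sym2 V))) (w : Sym2 V → ℝ)
    (e : Sym2 V) (s : ℝ) :
    Zin 𝒯 (Function.update w e (s * w e)) e = s * Zin 𝒯 w e := by
  unfold Zin
  rw [Finset.mul_sum]
  refine Finset.sum_congr rfl fun S hS => ?_
  have heS : e ∈ S := (Finset.mem_filter.mp hS).2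
  have h1 : wt w S = w e * wt (Function.update w e 1) S := by
    conv_lhs => rw [← Function.update_eq_self e w]
    exact wt_update_of_mem heS _
  rw [wt_update_of_mem heS, h1]
  ring

lemma pin_update_self [DecidableEq V] (𝒯 : Finset (Finset (Sym2 V))) {w : Sym2 V → ℝ}
    (hZ : ZZ 𝒯 w ≠ 0) (e : Sym2 V) (s : ℝ) :
    pin 𝒯 (Function.update w e (s * w e)) e =
      s * pin 𝒯 w e / (1 + (s - 1) * pin 𝒯 w e) := by
  have h1 : ZZ 𝒯 (Function.update w e (s * w e)) = ZZ 𝒯 w + (s - 1) * Zin 𝒯 w e := by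
    rw [← Zin_add_Zout 𝒯 (Function.update w e (s * w e)) e, ← Zin_add_Zout 𝒯 w e,
      Zin_update_self]
    have h2 : ∑ S ∈ 𝒯 with e ∉ S, wt (Function.update w e (s * w e)) S =
        ∑ S ∈ 𝒯 with e ∉ S, wt w S :=
      Finset.sum_congr rfl fun S hS => wt_update_of_notMem (Finset.mem_filter.mp hS).2 _
    rw [h2]
    ring
  unfold pin
  rw [Zin_update_self, h1]
  rw [show s * (Zin 𝒯 w e / ZZ 𝒯 w) = (s * Zin 𝒯 w e) / ZZ 𝒯 w by ring,
    show 1 + (s - 1) * (Zin 𝒯 w e / ZZ 𝒯 w) = (ZZ 𝒯 w + (s - 1) * Zin 𝒯 w e) / ZZ 𝒯 w by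
      field_simp]
  rw [div_div_div_cancel_right₀ hZ]

lemma pin_nonneg [DecidableEq V] (𝒯 : Finset (Finset (Sym2 V))) {w : Sym2 V → ℝ}
    (hw : ∀ e, 0 ≤ w e) (e : Sym2 V) : 0 ≤ pin 𝒯 w e :=
  div_nonneg (Zin_nonneg 𝒯 hw e) (Finset.sum_nonneg fun S _ => wt_nonneg hw S)

lemma pin_le_one [DecidableEq V] (𝒯 : Finset (Finset (Sym2 V))) {w : Sym2 V → ℝ}
    (hw : ∀ e, 0 ≤ w e) (e : Sym2 V) : pin 𝒯 w e ≤ 1 := by
  refine div_le_one_of_le₀ ?_ (Finset.sum_nonneg fun S _ => wt_nonneg hw S)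
  rw [← Zin_add_Zout 𝒯 w e]
  have : 0 ≤ ∑ S ∈ 𝒯 with e ∉ S, wt w S := Finset.sum_nonneg fun S _ => wt_nonneg hw S
  linarith

lemma moebius_bound {p s t : ℝ} (hp0 : 0 ≤ p) (hs1 : 1 ≤ s) (hst : s ≤ t ^ 2)
    (ht : 1 ≤ t) : s * p / (1 + (s - 1) * p) - p ≤ (t - 1) / (t + 1) := by
  have hden : 0 < 1 + (s - 1) * p := by nlinarith
  have ht1 : 0 < t + 1 := by linarith
  rw [div_sub' hden.ne', div_le_div_iff₀ hden ht1]
  rcases ht.eq_or_lt with h | h
  · subst h
    have : s = 1 := by nlinarith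
    subst this
    simp
  · have h1 : 0 < t ^ 2 - 1 := by nlinarith
    have key : (t ^ 2 - 1) * ((t - 1) * (1 + (s - 1) * p) -
        (s * p - (1 + (s - 1) * p) * p) * (t + 1)) =
        (t ^ 2 - s) * (t - 1) + (s - 1) * ((t - 1) * (1 - p * (t + 1)) ^ 2) := by ring
    have h2 : 0 ≤ (t ^ 2 - s) * (t - 1) + (s - 1) * ((t - 1) * (1 - p * (t + 1)) ^ 2) := by
      have h3 : 0 ≤ t ^ 2 - s := by linarith
      have h4 : 0 ≤ t - 1 := by linarith
      have h5 : 0 ≤ s - 1 := by linarith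
      positivity
    rw [← key] at h2
    have h3 := nonneg_of_mul_nonneg_right h2 h1
    linarith

theorem pin_sub_le [DecidableEq V] {H : G.Subgraph} (hfin : H.verts.Finite) (hc : H.Connected)
    {w w' : Sym2 V → ℝ} (hw : ∀ e, 0 < w e) {t : ℝ} (ht : 1 ≤ t)
    (h1 : ∀ g, w g ≤ t * w' g) (h2 : ∀ g, w' g ≤ t * w g) {e : Sym2 V} (he : e ∈ H.edgeSet) :
    pin (spTrees H) w' e - pin (spTrees H) w e ≤ (t - 1) / (t + 1) := by
  have ht0 : 0 < t := by linarith
  have hw' : ∀ g, 0 < w' g := fun g => by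
    have := (hw g).trans_le (h1 g)
    exact pos_of_mul_pos_right this ht0.le
  set s := t * w' e / w e with hs
  have hs1 : 1 ≤ s := by
    rw [hs, le_div_iff₀ (hw e), one_mul]; exact h1 e
  have hst : s ≤ t ^ 2 := by
    rw [hs, div_le_iff₀ (hw e)]
    nlinarith [h2 e]
  set u : Sym2 V → ℝ := Function.update w e (s * w e) with hu
  have hupos : ∀ g, 0 < u g := by
    intro g
    rw [hu]
    by_cases hg : g = e
    · subst hg; rw [Function.update_self]; exact mul_pos (by linarith) (hw _)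
    · rw [Function.update_of_ne hg]; exact hw g
  have hvpos : ∀ g, 0 < t⁻¹ * u g := fun g => mul_pos (inv_pos.mpr ht0) (hupos g)
  have hve : t⁻¹ * u e = w' e := by
    have := (hw e).ne'
    rw [hu, Function.update_self, hs]
    field_simp
  have hvle : ∀ g, t⁻¹ * u g ≤ w' g := by
    intro g
    by_cases hg : g = e
    · subst hg; exact hve.le
    · rw [hu, Function.update_of_ne hg, inv_mul_le_iff₀ ht0]; exact h1 g
  have h3 := pin_div_anti hfin hc hc le_rfl hvpos hvle he
  rw [hve, pin_smul hfin hc hupos (inv_pos.mpr ht0) he] at h3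
  have h4 : pin (spTrees H) w' e ≤ pin (spTrees H) u e := by
    rwa [div_le_div_iff_of_pos_right (hw' e)] at h3
  have hZ : ZZ (spTrees H) w ≠ 0 := (ZZ_pos (spTrees_nonempty hfin hc) hw).ne'
  rw [hu, pin_update_self _ hZ] at h4
  have h5 := moebius_bound (pin_nonneg (spTrees H) (fun g => (hw g).le) e) hs1 hst ht
  linarith

lemma pin_eq_zero [DecidableEq V] {H : G.Subgraph} (hfin : H.verts.Finite) (w : Sym2 V → ℝ)
    {e : Sym2 V} (he : e ∉ H.edgeSet) : pin (spTrees H) w e = 0 := by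
  unfold pin Zin
  rw [Finset.sum_eq_zero, zero_div]
  intro S hS
  rw [Finset.mem_filter, mem_spTrees hfin] at hS
  exact absurd (hS.1.1 hS.2) he

theorem abs_pin_sub_le [DecidableEq V] {H : G.Subgraph} (hfin : H.verts.Finite)
    (hc : H.Connected) {y y' : Sym2 V → ℝ} {δ : ℝ} (hδ : 0 ≤ δ)
    (hy : ∀ g, |y g - y' g| ≤ δ) (e : Sym2 V) :
    |pin (spTrees H) (fun g => Real.exp (y g)) e -
      pin (spTrees H) (fun g => Real.exp (y' g)) e| ≤ δ := by
  by_cases he : e ∈ H.edgeSet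
  · have ht : 1 ≤ Real.exp δ := Real.one_le_exp hδ
    have h1 : ∀ g, Real.exp (y g) ≤ Real.exp δ * Real.exp (y' g) := by
      intro g
      rw [← Real.exp_add, Real.exp_le_exp]
      have := (abs_le.mp (hy g)).2
      linarith
    have h2 : ∀ g, Real.exp (y' g) ≤ Real.exp δ * Real.exp (y g) := by
      intro g
      rw [← Real.exp_add, Real.exp_le_exp]
      have := (abs_le.mp (hy g)).1
      linarith
    have hb : (Real.exp δ - 1) / (Real.exp δ + 1) ≤ δ := by
      rw [div_le_iff₀ (by positivity)]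
      have h3 : 1 - δ ≤ Real.exp (-δ) := by
        have := Real.add_one_le_exp (-δ); linarith
      have h4 : Real.exp δ * Real.exp (-δ) = 1 := by rw [← Real.exp_add]; simp
      have h5 := mul_le_mul_of_nonneg_left h3 (Real.exp_pos δ).le
      rw [h4] at h5
      nlinarith
    rw [abs_le]
    constructor
    · have := pin_sub_le hfin hc (fun g => Real.exp_pos (y g)) ht h1 h2 he
      linarith
    · have := pin_sub_le hfin hc (fun g => Real.exp_pos (y' g)) ht h2 h1 he
      linarith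
  · rw [pin_eq_zero hfin _ he, pin_eq_zero hfin _ he]
    simpa using hδ

end Vale.Agent.P143
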