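import Mathlib

/-!
# P143: definitions used by the statement `WeakLimit`

Edge sets of graphs on the vertex set `V` are coded as configurations `ω : Sym2 V → Bool`
(`ω e = true`: the unordered pair `e` is an edge of the set), with the product topology and the
product `σ`-algebra.
-/

namespace Vale.Agent.P143W

open MeasureTheory Filter Topology
open scoped unitInterval

universe u

variable {V : Type u}

/-- The spanning trees of the finite connected graph `H`, viewed as edge sets: all edges belong to
`H`, and they form a tree on the set of all vertices of `H`. -/
def spanningTrees {G : SimpleGraph V} (H : G.Subgraph) : Set (Sym2 V → Bool) :=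
  {ω | (∀ e, ω e = true → e ∈ H.edgeSet) ∧
    ((SimpleGraph.fromEdgeSet {e | ω e = true}).induce H.verts).IsTree}

/-- The law of the uniform spanning tree of the finite connected graph `H`: the uniform
distribution on the set of spanning trees of `H`. -/
noncomputable def UST {G : SimpleGraph V} (H : G.Subgraph) : Measure (Sym2 V → Bool) :=
  ProbabilityTheory.uniformOn (spanningTrees H)

/-- `μ` is the law of the free uniform spanning forest of `G`: for all finite connected subgraphs
`H 0 ≤ H 1 ≤ ...` with union `G`, the laws of the uniform spanning trees of the `H n` converge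
weakly to `μ` on `{0,1}^(pairs of vertices)`. -/
def IsFUSF (G : SimpleGraph V) (μ : Measure (Sym2 V → Bool)) : Prop :=
  ∀ H : ℕ → G.Subgraph, (∀ n, (H n).verts.Finite ∧ (H n).Connected) → Monotone H →
    ⨆ n, H n = ⊤ → ∀ f : C(Sym2 V → Bool, ℝ),
      Tendsto (fun n => ∫ ω, f ω ∂(UST (H n))) atTop (𝓝 (∫ ω, f ω ∂μ))

/-- The law of i.i.d. uniform `[0,1]` labels on the vertices. -/
noncomputable def labels (V : Type u) : Measure (V → I) :=
  Measure.infinitePi fun _ => (volume : Measure I)

end Vale.Agent.P143W
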