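import Vale.Agent.Lib.P143.Final
import Vale.Agent.Lib.P143.WDefs

/-!
# P143: from cylinder convergence to weak convergence
-/

namespace Vale.Agent.P143W

open MeasureTheory Filter Topology Vale.Agent.P143
open scoped unitInterval ENNReal

universe u

variable {V : Type u}

/-- indicator configuration of an edge set -/
noncomputable def ind {E : Type*} (T : Set E) : E → Bool := by
  classical
  exact fun e => decide (e ∈ T)

lemma ind_eq_true {E : Type*} (T : Set E) (e : E) : ind T e = true ↔ e ∈ T := by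
  classical
  unfold ind
  exact decide_eq_true_iff

lemma toSet_ind {E : Type*} (T : Set E) : toSet (ind T) = T := by
  ext e
  exact ind_eq_true T e

lemma ind_toSet {E : Type*} (ω : E → Bool) : ind (toSet ω) = ω := by
  funext e
  have h := ind_eq_true (toSet ω) e
  have h2 : e ∈ toSet ω ↔ ω e = true := Iff.rfl
  rw [h2] at h
  rcases h3 : ω e with _ | _
  · rw [h3] at h
    rcases h4 : ind (toSet ω) e with _ | _
    · rfl
    · rw [h4] at h
      exact absurd (h.1 rfl) (by decide)
  · rw [h3] at h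
    exact h.2 rfl

lemma measurable_ind {E : Type*} : Measurable (ind : Set E → E → Bool) := by
  refine measurable_pi_iff.2 fun e => measurable_to_bool ?_
  have h : (fun T : Set E => ind T e) ⁻¹' {true} = {T : Set E | e ∈ T} := by
    ext T
    exact ind_eq_true T e
  rw [h]
  exact measurableSet_mem e

/-- coordinate functions -/
def xf {E : Type*} (e : E) : C(E → Bool, ℝ) where
  toFun ω := if ω e = true then 1 else 0
  continuous_toFun := by
    have h : Continuous fun b : Bool => (if b = true then (1 : ℝ) else 0) :=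
      continuous_of_discreteTopology
    exact h.comp (continuous_apply e)

/-- monomials -/
noncomputable def mono {E : Type*} (A : Finset E) : C(E → Bool, ℝ) := ∏ e ∈ A, xf e

lemma mono_apply {E : Type*} (A : Finset E) (ω : E → Bool) :
    mono A ω = if ∀ e ∈ A, ω e = true then 1 else 0 := by
  classical
  unfold mono
  rw [ContinuousMap.prod_apply]
  change (∏ e ∈ A, if ω e = true then (1 : ℝ) else 0) = _
  rw [Finset.prod_ite_zero, Finset.prod_const_one]

lemma mono_mul {E : Type*} [DecidableEq E] (A B : Finset E) : mono A * mono B = mono (A ∪ B) := by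
  ext ω
  rw [ContinuousMap.mul_apply, mono_apply, mono_apply, mono_apply]
  by_cases hA : ∀ e ∈ A, ω e = true
  · by_cases hB : ∀ e ∈ B, ω e = true
    · rw [if_pos hA, if_pos hB, if_pos, mul_one]
      intro e he
      rcases Finset.mem_union.1 he with h | h
      · exact hA e h
      · exact hB e h
    · rw [if_neg hB, mul_zero, if_neg]
      exact fun h => hB fun e he => h e (Finset.mem_union_right _ he)
  · rw [if_neg hA, zero_mul, if_neg]
    exact fun h => hA fun e he => h e (Finset.mem_union_left _ he)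

lemma mem_closure_xf {E : Type*} {f : C(E → Bool, ℝ)}
    (hf : f ∈ Submonoid.closure (Set.range (xf : E → C(E → Bool, ℝ)))) :
    ∃ A : Finset E, f = mono A := by
  classical
  induction hf using Submonoid.closure_induction with
  | mem x hx =>
    obtain ⟨e, rfl⟩ := hx
    exact ⟨{e}, by unfold mono; rw [Finset.prod_singleton]⟩
  | one => exact ⟨∅, by unfold mono; rw [Finset.prod_empty]⟩
  | mul x y _ _ hx hy =>
    obtain ⟨A, rfl⟩ := hx
    obtain ⟨B, rfl⟩ := hy
    exact ⟨A ∪ B, mono_mul A B⟩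

lemma integral_mono {E : Type*} [Countable E] (A : Finset E) (ν : Measure (E → Bool)) :
    ∫ ω, mono A ω ∂ν = ν.real {ω | ∀ e ∈ A, ω e = true} := by
  have hm : MeasurableSet {ω : E → Bool | ∀ e ∈ A, ω e = true} := by
    have h : {ω : E → Bool | ∀ e ∈ A, ω e = true} = ⋂ e ∈ A, {ω : E → Bool | ω e = true} := by
      ext ω
      simp
    rw [h]
    refine Finset.measurableSet_biInter _ fun e _ => ?_
    exact measurableSet_eq_fun (measurable_pi_apply e) measurable_const
  rw [← integral_indicator_one hm]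
  refine integral_congr_ae (Eventually.of_forall fun ω => ?_)
  simp only [mono_apply]
  by_cases h : ∀ e ∈ A, ω e = true
  · rw [if_pos h, Set.indicator_of_mem (by exact h)]
    rfl
  · rw [if_neg h, Set.indicator_of_notMem (by exact h)]

/-- convergence of the monomials implies weak convergence -/
theorem tendsto_of_mono {E : Type*} [Countable E] (ν : ℕ → Measure (E → Bool))
    (μ : Measure (E → Bool)) [IsFiniteMeasure μ] [∀ n, IsFiniteMeasure (ν n)]
    (hν : ∀ n, (ν n).real Set.univ ≤ 1) (hμ : μ.real Set.univ ≤ 1)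
    (h : ∀ A : Finset E, Tendsto (fun n => (ν n).real {ω | ∀ e ∈ A, ω e = true}) atTop
      (𝓝 (μ.real {ω | ∀ e ∈ A, ω e = true}))) (f : C(E → Bool, ℝ)) :
    Tendsto (fun n => ∫ ω, f ω ∂(ν n)) atTop (𝓝 (∫ ω, f ω ∂μ)) := by
  have hint : ∀ (g : C(E → Bool, ℝ)) (ρ : Measure (E → Bool)) [IsFiniteMeasure ρ],
      Integrable (fun ω => g ω) ρ := fun g ρ _ =>
    (BoundedContinuousFunction.mkOfCompact g).integrable ρ
  let C : Submodule ℝ C(E → Bool, ℝ) :=
    { carrier := {g | Tendsto (fun n => ∫ ω, g ω ∂(ν n)) atTop (𝓝 (∫ ω, g ω ∂μ))}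
      add_mem' := by
        intro g₁ g₂ h₁ h₂
        have h3 := Tendsto.add h₁ h₂
        have e1 : ∀ n, ∫ ω, (g₁ + g₂) ω ∂(ν n) = ∫ ω, g₁ ω ∂(ν n) + ∫ ω, g₂ ω ∂(ν n) := fun n =>
          integral_add (hint g₁ _) (hint g₂ _)
        have e2 : ∫ ω, (g₁ + g₂) ω ∂μ = ∫ ω, g₁ ω ∂μ + ∫ ω, g₂ ω ∂μ :=
          integral_add (hint g₁ _) (hint g₂ _)
        change Tendsto (fun n => ∫ ω, (g₁ + g₂) ω ∂(ν n)) atTop (𝓝 (∫ ω, (g₁ + g₂) ω ∂μ))
        rw [e2, funext e1]
        exact h3
      zero_mem' := by
        change Tendsto (fun n => ∫ ω, (0 : C(E → Bool, ℝ)) ω ∂(ν n)) atTop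
          (𝓝 (∫ ω, (0 : C(E → Bool, ℝ)) ω ∂μ))
        simp
      smul_mem' := by
        intro c g hg
        have h3 := Tendsto.const_mul c hg
        have e1 : ∀ n, ∫ ω, (c • g) ω ∂(ν n) = c * ∫ ω, g ω ∂(ν n) := fun n =>
          integral_const_mul c _
        have e2 : ∫ ω, (c • g) ω ∂μ = c * ∫ ω, g ω ∂μ := integral_const_mul c _
        change Tendsto (fun n => ∫ ω, (c • g) ω ∂(ν n)) atTop (𝓝 (∫ ω, (c • g) ω ∂μ))
        rw [e2, funext e1]
        exact h3 }
  have hmono : ∀ A : Finset E, mono A ∈ C := by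
    intro A
    change Tendsto (fun n => ∫ ω, mono A ω ∂(ν n)) atTop (𝓝 (∫ ω, mono A ω ∂μ))
    rw [integral_mono, funext fun n => integral_mono A (ν n)]
    exact h A
  have hadj : ∀ g ∈ Algebra.adjoin ℝ (Set.range (xf : E → C(E → Bool, ℝ))), g ∈ C := by
    intro g hg
    have h1 : g ∈ Submodule.span ℝ
        (Submonoid.closure (Set.range (xf : E → C(E → Bool, ℝ))) : Set C(E → Bool, ℝ)) := by
      rw [← Algebra.adjoin_eq_span]
      exact hg
    refine (Submodule.span_le.2 ?_) h1
    intro g' hg'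
    obtain ⟨A, rfl⟩ := mem_closure_xf hg'
    exact hmono A
  have hsep : (Algebra.adjoin ℝ (Set.range (xf : E → C(E → Bool, ℝ)))).SeparatesPoints := by
    intro ω ω' hne
    obtain ⟨e, he⟩ := Function.ne_iff.1 hne
    refine ⟨xf e, ⟨xf e, Algebra.subset_adjoin ⟨e, rfl⟩, rfl⟩, ?_⟩
    change (if ω e = true then (1 : ℝ) else 0) ≠ (if ω' e = true then (1 : ℝ) else 0)
    rcases h1 : ω e with _ | _ <;> rcases h2 : ω' e with _ | _ <;> simp_all
  rw [Metric.tendsto_atTop]
  intro ε hε
  obtain ⟨⟨g, hg⟩, hgf⟩ :=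
    ContinuousMap.exists_mem_subalgebra_near_continuousMap_of_separatesPoints _ hsep f (ε / 4)
      (by positivity)
  change ‖g - f‖ < ε / 4 at hgf
  have hgC : Tendsto (fun n => ∫ ω, g ω ∂(ν n)) atTop (𝓝 (∫ ω, g ω ∂μ)) := hadj g hg
  obtain ⟨N, hN⟩ := (Metric.tendsto_atTop.1 hgC) (ε / 4) (by positivity)
  have hbd : ∀ (ρ : Measure (E → Bool)) [IsFiniteMeasure ρ], ρ.real Set.univ ≤ 1 →
      |∫ ω, f ω ∂ρ - ∫ ω, g ω ∂ρ| ≤ ε / 4 := by
    intro ρ _ hρ
    rw [← integral_sub (hint f ρ) (hint g ρ)]
    have h1 : ∀ ω, ‖f ω - g ω‖ ≤ ε / 4 := by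
      intro ω
      have h2 := (g - f).norm_coe_le_norm ω
      rw [ContinuousMap.sub_apply, norm_sub_rev] at h2
      exact h2.trans hgf.le
    have h3 := norm_integral_le_of_norm_le_const (μ := ρ) (Eventually.of_forall h1)
    rw [Real.norm_eq_abs] at h3
    refine h3.trans ?_
    have h4 : 0 ≤ ε / 4 := by positivity
    nlinarith [mul_le_mul_of_nonneg_left hρ h4]
  refine ⟨N, fun n hn => ?_⟩
  have h1 := hbd (ν n) (hν n)
  have h2 := hbd μ hμ
  have h3 := hN n hn
  rw [Real.dist_eq] at h3 ⊢
  have e1 : ∫ ω, f ω ∂(ν n) - ∫ ω, f ω ∂μ = (∫ ω, f ω ∂(ν n) - ∫ ω, g ω ∂(ν n)) +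
    (∫ ω, g ω ∂(ν n) - ∫ ω, g ω ∂μ) - (∫ ω, f ω ∂μ - ∫ ω, g ω ∂μ) := by ring
  rw [e1]
  rw [abs_le] at h1 h2
  rw [abs_lt] at h3 ⊢
  constructor <;> linarith [h1.1, h1.2, h2.1, h2.2, h3.1, h3.2]

lemma finite_spanningTrees {G : SimpleGraph V} (H : G.Subgraph) (hH : H.verts.Finite) :
    (spanningTrees H).Finite := by
  have h1 : H.edgeSet.Finite := by
    have h2 : ((fun p : V × V => s(p.1, p.2)) '' (H.verts ×ˢ H.verts)).Finite :=
      (hH.prod hH).image _
    refine Set.Finite.subset h2 ?_
    intro e he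
    induction e using Sym2.ind with
    | _ a b =>
      have hab : H.Adj a b := he
      exact ⟨(a, b), ⟨H.edge_vert hab, H.edge_vert hab.symm⟩, rfl⟩
  have h3 : (ind '' (𝒫 H.edgeSet)).Finite := h1.powerset.image _
  refine h3.subset fun ω hω => ⟨toSet ω, fun e he => hω.1 e he, ind_toSet ω⟩

lemma ust_real [Countable V] {G : SimpleGraph V} (H : G.Subgraph) (hH : H.verts.Finite)
    (A : Finset (Sym2 V)) :
    (UST H).real {ω | ∀ e ∈ A, ω e = true} = ustProb H A ∅ := by
  have hf := finite_spanningTrees H hH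
  have hinj : Function.Injective (toSet : (Sym2 V → Bool) → Set (Sym2 V)) := by
    intro ω ω' h
    rw [← ind_toSet ω, h, ind_toSet]
  have e1 : {T : Set (Sym2 V) | IsSpanningTree H T} = toSet '' (spanningTrees H) := by
    ext T
    constructor
    · intro hT
      refine ⟨ind T, ?_, toSet_ind T⟩
      have h1 : IsSpanningTree H (toSet (ind T)) := by rw [toSet_ind]; exact hT
      exact h1
    · rintro ⟨ω, hω, rfl⟩
      exact hω
  have e2 : {T : Set (Sym2 V) | IsSpanningTree H T ∧ (A : Set (Sym2 V)) ⊆ T ∧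
      Disjoint ((∅ : Finset (Sym2 V)) : Set (Sym2 V)) T} =
      toSet '' (spanningTrees H ∩ {ω | ∀ e ∈ A, ω e = true}) := by
    ext T
    constructor
    · rintro ⟨hT, hA, -⟩
      refine ⟨ind T, ⟨?_, fun e he => (ind_eq_true T e).2 (hA he)⟩, toSet_ind T⟩
      have h1 : IsSpanningTree H (toSet (ind T)) := by rw [toSet_ind]; exact hT
      exact h1
    · rintro ⟨ω, ⟨hω, hA⟩, rfl⟩
      exact ⟨hω, fun e he => hA e he, by simp⟩
  have e3 : (Measure.count (spanningTrees H)).toReal = ((spanningTrees H).ncard : ℝ) := by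
    rw [Measure.count_apply_finite _ hf, Set.ncard_eq_toFinset_card _ hf]
    simp
  have hf2 : (spanningTrees H ∩ {ω | ∀ e ∈ A, ω e = true}).Finite := hf.inter_of_left _
  have e4 : (Measure.count (spanningTrees H ∩ {ω | ∀ e ∈ A, ω e = true})).toReal =
      ((spanningTrees H ∩ {ω | ∀ e ∈ A, ω e = true}).ncard : ℝ) := by
    rw [Measure.count_apply_finite _ hf2, Set.ncard_eq_toFinset_card _ hf2]
    simp
  unfold ustProb
  rw [e1, e2, Set.ncard_image_of_injective _ hinj, Set.ncard_image_of_injective _ hinj, ← e3, ← e4]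
  unfold UST ProbabilityTheory.uniformOn
  rw [measureReal_def, ProbabilityTheory.cond_apply hf.measurableSet, ENNReal.toReal_mul,
    ENNReal.toReal_inv, div_eq_inv_mul]

theorem isFUSF_of_isFUSF [Countable V] {G : SimpleGraph V} {μ : Measure (Set (Sym2 V))}
    (hμ : Vale.Agent.P143.IsFUSF G μ) : IsFUSF G (μ.map ind) := by
  intro H hH hmono hsup f
  have hμ1 : IsProbabilityMeasure μ := hμ.1
  have hex : IsExhaustion G H :=
    ⟨fun n => (hH n).1, fun n => (hH n).2, hmono, hsup⟩
  have hprob : IsProbabilityMeasure (μ.map ind) :=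
    Measure.isProbabilityMeasure_map measurable_ind.aemeasurable
  have hust : ∀ n, IsFiniteMeasure (UST (H n)) := fun n => by
    unfold UST ProbabilityTheory.uniformOn
    infer_instance
  have hle : ∀ n, (UST (H n)).real Set.univ ≤ 1 := fun n => by
    unfold UST ProbabilityTheory.uniformOn
    exact measureReal_le_one
  refine tendsto_of_mono (fun n => UST (H n)) (μ.map ind) hle measureReal_le_one (fun A => ?_) f
  have h1 := hμ.2 H hex A ∅
  have h2 : (μ.map ind).real {ω | ∀ e ∈ A, ω e = true} =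
      μ.real {T | (A : Set (Sym2 V)) ⊆ T ∧ Disjoint ((∅ : Finset (Sym2 V)) : Set (Sym2 V)) T} := by
    rw [measureReal_def, measureReal_def, Measure.map_apply measurable_ind]
    · congr 2
      ext T
      constructor
      · intro h
        exact ⟨fun e he => (ind_eq_true T e).1 (h e he), by simp⟩
      · rintro ⟨h, -⟩ e he
        exact (ind_eq_true T e).2 (h he)
    · have h : {ω : Sym2 V → Bool | ∀ e ∈ A, ω e = true} =
          ⋂ e ∈ A, {ω : Sym2 V → Bool | ω e = true} := by
        ext ω
        simp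
      rw [h]
      refine Finset.measurableSet_biInter _ fun e _ => ?_
      exact measurableSet_eq_fun (measurable_pi_apply e) measurable_const
  rw [h2]
  refine h1.congr fun n => ?_
  exact (ust_real (H n) (hH n).1 A).symm

/-- the factor map, with values in `{0,1}`-configurations -/
noncomputable def fac [Countable V] (G : SimpleGraph V) (U : V → I) : Sym2 V → Bool :=
  ind (factor (G, U))

theorem measurable_fac [Countable V] :
    Measurable fun p : SimpleGraph V × (V → I) => fac p.1 p.2 :=
  measurable_ind.comp measurable_factor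

theorem measurable_fac_one [Countable V] (G : SimpleGraph V) : Measurable (fac G) := by
  have h : Measurable fun U : V → I => factor (G, U) :=
    measurable_factor.comp measurable_prodMk_left
  exact measurable_ind.comp h

theorem fac_map [Countable V] (τ : Equiv.Perm V) (G : SimpleGraph V) (U : V → I) (e : Sym2 V) :
    fac (G.map τ.toEmbedding) (fun v => U (τ.symm v)) (e.map τ) = fac G U e := by
  have h := factor_map τ G U
  have h1 : (e.map τ ∈ factor (G.map τ.toEmbedding, fun v => U (τ.symm v))) ↔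
      e ∈ factor (G, U) := by
    rw [h]
    exact (Sym2.map.injective τ.injective).mem_set_image
  unfold fac
  rw [Bool.eq_iff_iff, ind_eq_true, ind_eq_true]
  exact h1

theorem isFUSF_fac [Countable V] {G : SimpleGraph V} (hG : G.Connected)
    (hf : ∀ v, (G.neighborSet v).Finite) : IsFUSF G ((labels V).map (fac G)) := by
  have h1 := isFUSF_of_isFUSF (isFUSF_factor hG hf)
  have h2 : Measurable fun U : V → I => factor (G, U) :=
    measurable_factor.comp measurable_prodMk_left
  rw [Measure.map_map measurable_ind h2] at h1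
  exact h1

end Vale.Agent.P143W
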